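import Vale.Agent.P188.SG.Defs

/-! P188, Theorem S+, P8: finite-dimensional subspaces. -/

universe u v w

open Filter Topology Pointwise

namespace Vale.Agent.P188.SG

/-- a subspace without `k+1` orthonormal vectors is finite-dimensional of dimension at most `k` -/
theorem finrank_le_of_no_orthonormal {V : Type v} [NormedAddCommGroup V]
    [InnerProductSpace ℝ V] (B : Submodule ℝ V) (k : ℕ)
    (h : ∀ e : Fin (k + 1) → V, Orthonormal ℝ e → (∀ i, e i ∈ B) → False) :
    FiniteDimensional ℝ B ∧ Module.finrank ℝ B ≤ k := by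
  by_cases hr : ((k + 1 : ℕ) : Cardinal) ≤ Module.rank ℝ B
  · exfalso
    obtain ⟨f, hf⟩ := Module.le_rank_iff.1 hr
    have he := InnerProductSpace.gramSchmidtNormed_orthonormal (𝕜 := ℝ) hf
    refine h (fun i => ((InnerProductSpace.gramSchmidtNormed ℝ f i : B) : V)) ?_
      (fun i => Subtype.property _)
    exact he.comp_linearIsometry B.subtypeₗᵢ
  · have h1 : Module.rank ℝ B < Cardinal.aleph0 :=
      (not_le.1 hr).trans (Cardinal.natCast_lt_aleph0 )
    have h2 : FiniteDimensional ℝ B := Module.rank_lt_aleph0_iff.1 h1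
    refine ⟨h2, ?_⟩
    have h3 := not_le.1 hr
    rw [← Module.finrank_eq_rank] at h3
    have h4 : Module.finrank ℝ B < k + 1 := by exact_mod_cast h3
    omega

theorem exists_span {H : Type u} [Group H] {V : Type v} [NormedAddCommGroup V]
    [InnerProductSpace ℝ V] (π : H →* (V ≃ₗᵢ[ℝ] V)) (c : H → V) (hc : IsCocycle π c)
    (B : Submodule ℝ V) (hB : FiniteDimensional ℝ B) (k : ℕ) (hk : Module.finrank ℝ B ≤ k)
    (hcB : ∀ g, c g ∈ B.topologicalClosure) :
    ∃ W : Submodule ℝ V, FiniteDimensional ℝ W ∧ Module.finrank ℝ W ≤ k ∧ Inv π W ∧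
      ∀ g, c g ∈ W := by
  have hcl : B.topologicalClosure = B :=
    (Submodule.closed_of_finiteDimensional B).submodule_topologicalClosure_eq
  have hW : Submodule.span ℝ (Set.range c) ≤ B := by
    rw [Submodule.span_le]
    rintro _ ⟨g, rfl⟩
    have := hcB g
    rwa [hcl] at this
  refine ⟨Submodule.span ℝ (Set.range c), Submodule.finiteDimensional_of_le hW,
    (Submodule.finrank_mono hW).trans hk, ?_, fun g => Submodule.subset_span ⟨g, rfl⟩⟩
  intro g w hw
  induction hw using Submodule.span_induction with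
  | mem x hx =>
    obtain ⟨a, rfl⟩ := hx
    have h1 : π g (c a) = c (g * a) - c g := by rw [hc g a]; abel
    rw [h1]
    exact Submodule.sub_mem _ (Submodule.subset_span ⟨_, rfl⟩) (Submodule.subset_span ⟨_, rfl⟩)
  | zero => rw [map_zero]; exact Submodule.zero_mem _
  | add x y _ _ h1 h2 => rw [map_add]; exact Submodule.add_mem _ h1 h2
  | smul a x _ h1 => rw [map_smul]; exact Submodule.smul_mem _ _ h1

end Vale.Agent.P188.SG
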