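import Vale.Agent.P188.SG.Defs
import Vale.Agent.P188.QI

/-! P188, Theorem S: word length lemmas. -/

universe u v w

open Filter Topology Pointwise

namespace Vale.Agent.P188.SG

section Len

variable {H : Type u} [Group H] {S : Finset H}

theorem len_le_of_list {g : H} (l : List H) (hl : ∀ a ∈ l, a ∈ S ∨ a⁻¹ ∈ S) (hp : l.prod = g) :
    len S g ≤ l.length := by
  refine Nat.sInf_le ⟨l, rfl, fun a ha => ?_, ?_⟩
  · simpa using hl a ha
  · rw [hp, inv_one, one_mul]

theorem len_list (hS : Subgroup.closure (S : Set H) = ⊤) (g : H) :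
    ∃ l : List H, l.length = len S g ∧ (∀ a ∈ l, a ∈ S ∨ a⁻¹ ∈ S) ∧ l.prod = g := by
  obtain ⟨l, h1, h2, h3⟩ := wordDist_list hS 1 g
  refine ⟨l, h1, fun a ha => ?_, ?_⟩
  · simpa using h2 a ha
  · rw [h3, inv_one, one_mul]

theorem len_one : len S (1 : H) = 0 :=
  Nat.le_zero.mp (len_le_of_list [] (by simp) (by simp))

theorem len_mul_le (hS : Subgroup.closure (S : Set H) = ⊤) (g h : H) :
    len S (g * h) ≤ len S g + len S h := by
  obtain ⟨l, h1, h2, h3⟩ := len_list hS g
  obtain ⟨m, k1, k2, k3⟩ := len_list hS h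
  rw [← h1, ← k1, ← List.length_append]
  refine len_le_of_list _ (fun a ha => ?_) ?_
  · rcases List.mem_append.mp ha with ha | ha
    · exact h2 a ha
    · exact k2 a ha
  · rw [List.prod_append, h3, k3]

theorem len_inv_le (hS : Subgroup.closure (S : Set H) = ⊤) (g : H) :
    len S g⁻¹ ≤ len S g := by
  obtain ⟨l, h1, h2, h3⟩ := len_list hS g
  have h4 : ((l.map fun x => x⁻¹).reverse).length = len S g := by
    rw [List.length_reverse, List.length_map, h1]
  rw [← h4]
  refine len_le_of_list _ (fun a ha => ?_) ?_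
  · rw [List.mem_reverse, List.mem_map] at ha
    obtain ⟨b, hb, rfl⟩ := ha
    rw [inv_inv]
    exact (h2 b hb).symm
  · rw [← List.prod_inv_reverse, h3]

theorem len_inv (hS : Subgroup.closure (S : Set H) = ⊤) (g : H) : len S g⁻¹ = len S g := by
  refine le_antisymm (len_inv_le hS g) ?_
  have := len_inv_le hS g⁻¹
  rwa [inv_inv] at this

theorem len_le_one {g : H} (hg : g ∈ S) : len S g ≤ 1 :=
  len_le_of_list [g] (by simp [hg]) (by simp)

theorem wordDist_eq_len (x y : H) : wordDist (S : Set H) x y = len S (x⁻¹ * y) := by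
  unfold len wordDist
  rw [inv_one, one_mul]

/-- induction along a geodesic word -/
theorem exists_path (hS : Subgroup.closure (S : Set H) = ⊤) (g : H) :
    ∃ p : ℕ → H, p 0 = 1 ∧ p (len S g) = g ∧ (∀ i, len S ((p i)⁻¹ * p (i + 1)) ≤ 1) ∧
      (∀ i, len S (p i) ≤ len S g) ∧
      ∀ i, p (i + 1) = p i ∨ ∃ s, (s ∈ S ∨ s⁻¹ ∈ S) ∧ p (i + 1) = p i * s := by
  obtain ⟨l, h1, h2, h3⟩ := len_list hS g
  have hstep : ∀ i, (l.take (i + 1)).prod = (l.take i).prod ∨
      ∃ s, (s ∈ S ∨ s⁻¹ ∈ S) ∧ (l.take (i + 1)).prod = (l.take i).prod * s := by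
    intro i
    by_cases hi : i < l.length
    · right
      exact ⟨l[i], h2 _ (List.getElem_mem hi), List.prod_take_succ l i hi⟩
    · left
      rw [List.take_of_length_le (by omega), List.take_of_length_le (by omega)]
  refine ⟨fun i => (l.take i).prod, by simp, ?_, fun i => ?_, fun i => ?_, hstep⟩
  · show (l.take (len S g)).prod = g
    rw [← h1, List.take_length, h3]
  · show len S (((l.take i).prod)⁻¹ * (l.take (i + 1)).prod) ≤ 1
    rcases hstep i with h | ⟨s, hs, h⟩
    · rw [h, inv_mul_cancel, len_one]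
      exact Nat.zero_le _
    · rw [h, inv_mul_cancel_left]
      exact len_le_of_list [s] (by simpa using hs) (by simp)
  · show len S ((l.take i).prod) ≤ len S g
    rw [← h1]
    refine (len_le_of_list (l.take i) (fun a ha => h2 a (List.mem_of_mem_take ha)) rfl).trans ?_
    rw [List.length_take]
    exact min_le_right _ _

theorem ncard_ball_le (hS : Subgroup.closure (S : Set H) = ⊤) (n : ℕ) :
    {x : H | len S x ≤ n}.Finite ∧ {x : H | len S x ≤ n}.ncard ≤ (2 * S.card + 1) ^ n := by
  classical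
  let U : Finset H := insert 1 (S ∪ S.image fun x => x⁻¹)
  have hU1 : (1 : H) ∈ U := Finset.mem_insert_self _ _
  have hUcard : U.card ≤ 2 * S.card + 1 := by
    refine (Finset.card_insert_le _ _).trans ?_
    have h1 : (S ∪ S.image fun x => x⁻¹).card ≤ S.card + (S.image fun x => x⁻¹).card :=
      Finset.card_union_le _ _
    have h2 : (S.image fun x => x⁻¹).card ≤ S.card := Finset.card_image_le
    omega
  have hmem : ∀ l : List H, (∀ a ∈ l, a ∈ S ∨ a⁻¹ ∈ S) → l.prod ∈ U ^ l.length := by
    intro l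
    induction l with
    | nil => intro _; simp
    | cons a l ih =>
      intro hl
      rw [List.prod_cons, List.length_cons, pow_succ']
      refine Finset.mul_mem_mul ?_ (ih fun b hb => hl b (List.mem_cons_of_mem _ hb))
      rcases hl a List.mem_cons_self with h | h
      · exact Finset.mem_insert_of_mem (Finset.mem_union_left _ h)
      · refine Finset.mem_insert_of_mem (Finset.mem_union_right _ ?_)
        exact Finset.mem_image.mpr ⟨a⁻¹, h, inv_inv a⟩
  have hsub : {x : H | len S x ≤ n} ⊆ ((U ^ n : Finset H) : Set H) := by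
    intro x hx
    obtain ⟨l, h1, h2, h3⟩ := len_list hS x
    have h4 := hmem l h2
    rw [h3, h1] at h4
    exact Finset.mem_coe.mpr (Finset.pow_subset_pow_right hU1 hx h4)
  refine ⟨(Finset.finite_toSet _).subset hsub, ?_⟩
  calc {x : H | len S x ≤ n}.ncard ≤ ((U ^ n : Finset H) : Set H).ncard :=
        Set.ncard_le_ncard hsub (Finset.finite_toSet _)
    _ = (U ^ n).card := Set.ncard_coe_finset _
    _ ≤ U.card ^ n := Finset.card_pow_le
    _ ≤ (2 * S.card + 1) ^ n := Nat.pow_le_pow_left hUcard n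

end Len

theorem exists_symGen {H : Type u} [Group H] (S₀ : Finset H)
    (hS₀ : Subgroup.closure (S₀ : Set H) = ⊤) :
    ∃ S : Finset H, SymGen S ∧ wordDist (S : Set H) = wordDist (S₀ : Set H) := by
  classical
  let S : Finset H := insert 1 (S₀ ∪ S₀.image fun x => x⁻¹)
  have hsub : ∀ x ∈ S₀, x ∈ S := fun x hx =>
    Finset.mem_insert_of_mem (Finset.mem_union_left _ hx)
  have hmem : ∀ x, x ∈ S ↔ x = 1 ∨ x ∈ S₀ ∨ x⁻¹ ∈ S₀ := by
    intro x
    rw [Finset.mem_insert, Finset.mem_union, Finset.mem_image]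
    constructor
    · rintro (h | h | ⟨y, hy, rfl⟩)
      · exact Or.inl h
      · exact Or.inr (Or.inl h)
      · exact Or.inr (Or.inr (by rwa [inv_inv]))
    · rintro (h | h | h)
      · exact Or.inl h
      · exact Or.inr (Or.inl h)
      · exact Or.inr (Or.inr ⟨x⁻¹, h, inv_inv x⟩)
  have hgen : Subgroup.closure (S : Set H) = ⊤ := by
    rw [eq_top_iff, ← hS₀]
    exact Subgroup.closure_mono fun x hx => hsub x hx
  have hsym : SymGen S := by
    refine ⟨⟨1, Finset.mem_insert_self _ _⟩, fun s hs => ?_, hgen⟩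
    rw [hmem] at hs ⊢
    rcases hs with h | h | h
    · exact Or.inl (by rw [h, inv_one])
    · exact Or.inr (Or.inr (by rwa [inv_inv]))
    · exact Or.inr (Or.inl h)
  have hlist : ∀ l : List H, (∀ a ∈ l, a ∈ S ∨ a⁻¹ ∈ S) →
      ∃ m : List H, m.length ≤ l.length ∧ (∀ a ∈ m, a ∈ S₀ ∨ a⁻¹ ∈ S₀) ∧ m.prod = l.prod := by
    intro l
    induction l with
    | nil => intro _; exact ⟨[], le_rfl, by simp, rfl⟩
    | cons a l ih =>
      intro hl
      obtain ⟨m, h1, h2, h3⟩ := ih fun b hb => hl b (List.mem_cons_of_mem _ hb)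
      have ha : a = 1 ∨ a ∈ S₀ ∨ a⁻¹ ∈ S₀ := by
        rcases hl a List.mem_cons_self with h | h
        · exact (hmem a).mp h
        · rcases (hmem _).mp h with h | h | h
          · exact Or.inl (inv_eq_one.mp h)
          · exact Or.inr (Or.inr h)
          · exact Or.inr (Or.inl (by rwa [inv_inv] at h))
      by_cases ha1 : a = 1
      · refine ⟨m, ?_, h2, ?_⟩
        · rw [List.length_cons]; omega
        · rw [List.prod_cons, ha1, one_mul, h3]
      · refine ⟨a :: m, ?_, fun b hb => ?_, ?_⟩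
        · rw [List.length_cons, List.length_cons]; omega
        · rcases List.mem_cons.mp hb with h | h
          · rw [h]; exact ha.resolve_left ha1
          · exact h2 b h
        · rw [List.prod_cons, List.prod_cons, h3]
  refine ⟨S, hsym, ?_⟩
  funext x y
  rw [wordDist_eq_len, wordDist_eq_len]
  refine le_antisymm ?_ ?_
  · obtain ⟨l, h1, h2, h3⟩ := len_list hS₀ (x⁻¹ * y)
    rw [← h1]
    exact len_le_of_list l (fun a ha => (h2 a ha).imp (hsub _) (hsub _)) h3
  · obtain ⟨l, h1, h2, h3⟩ := len_list hgen (x⁻¹ * y)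
    obtain ⟨m, k1, k2, k3⟩ := hlist l h2
    rw [← h1]
    exact (len_le_of_list m k2 (k3.trans h3)).trans k1

end Vale.Agent.P188.SG
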