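import Vale.Agent.P188.SG.Defs2
import Vale.Agent.P188.SG.Len

/-! P188, Theorem S+: linear growth in every direction of a finite-dimensional subspace. -/

universe u v w

open Filter Topology Pointwise

namespace Vale.Agent.P188.SG

section Rep

variable {H : Type u} [Group H] {S : Finset H}
variable {V : Type v} [NormedAddCommGroup V] [InnerProductSpace ℝ V]

theorem Greedy_one (π : H →* (V ≃ₗᵢ[ℝ] V)) (c : H → V) (hc : IsCocycle π c) : c 1 = 0 := by
  have h := hc 1 1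
  rw [mul_one, map_one] at h
  have h2 : c 1 = c 1 + c 1 := h
  have h3 := add_eq_left.1 h2.symm
  exact h3

/-- adjointness -/
theorem Greedy_adj (π : H →* (V ≃ₗᵢ[ℝ] V)) (g : H) (x w : V) :
    inner ℝ (π g x) w = inner ℝ x (π g⁻¹ w) := by
  have h : w = π g (π g⁻¹ w) := by
    have h1 : π (g * g⁻¹) w = π g (π g⁻¹ w) := by
      rw [map_mul]
      rfl
    rw [← h1, mul_inv_cancel, map_one]
    rfl
  conv_lhs => rw [h]
  exact LinearIsometryEquiv.inner_map_map (π g) x (π g⁻¹ w)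

/-- a harmonic nonpositive function vanishing at one is zero -/
theorem Greedy_harm (hS : SymGen S) (φ : H → ℝ) (h1 : φ 1 = 0) (h0 : ∀ g, φ g ≤ 0)
    (hh : ∀ g, ∑ s ∈ S, φ (g * s) = S.card * φ g) (g : H) : φ g = 0 := by
  have step : ∀ x, φ x = 0 → ∀ s ∈ S, φ (x * s) = 0 := by
    intro x hx s hs
    have h2 := hh x
    rw [hx, mul_zero] at h2
    exact (Finset.sum_eq_zero_iff_of_nonpos fun s _ => h0 (x * s)).1 h2 s hs
  have key : ∀ g ∈ Subgroup.closure (S : Set H),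
      (∀ x, φ x = 0 → φ (x * g) = 0) ∧ ∀ x, φ x = 0 → φ (x * g⁻¹) = 0 := by
    intro g hg
    induction hg using Subgroup.closure_induction with
    | mem s hs =>
      exact ⟨fun x hx => step x hx s hs, fun x hx => step x hx s⁻¹ (hS.inv s hs)⟩
    | one =>
      refine ⟨fun x hx => ?_, fun x hx => ?_⟩
      · rw [mul_one]; exact hx
      · rw [inv_one, mul_one]; exact hx
    | mul a b _ _ ha hb =>
      refine ⟨fun x hx => ?_, fun x hx => ?_⟩
      · rw [← mul_assoc]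
        exact hb.1 _ (ha.1 x hx)
      · rw [mul_inv_rev, ← mul_assoc]
        exact ha.2 _ (hb.2 x hx)
    | inv a _ ha =>
      refine ⟨ha.2, fun x hx => ?_⟩
      rw [inv_inv]
      exact ha.1 x hx
  have h3 := (key g (by rw [hS.gen]; exact Subgroup.mem_top g)).1 1 h1
  rwa [one_mul] at h3

theorem Greedy_pos (hS : SymGen S) (π : H →* (V ≃ₗᵢ[ℝ] V)) (c : H → V) (hc : IsCocycle π c)
    (hh : ∑ s ∈ S, c s = 0) (w : V) (hw : ∃ g, inner ℝ (c g) w ≠ 0) :
    ∃ r, 0 < inner ℝ (c r) w := by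
  by_contra hcon
  push Not at hcon
  obtain ⟨g, hg⟩ := hw
  refine hg (Greedy_harm hS (fun g => inner ℝ (c g) w) ?_ hcon (fun g => ?_) g)
  · change inner ℝ (c 1) w = 0
    rw [Greedy_one π c hc, inner_zero_left]
  · change ∑ s ∈ S, inner ℝ (c (g * s)) w = S.card * inner ℝ (c g) w
    have h1 : ∀ s ∈ S, inner ℝ (c (g * s)) w = inner ℝ (c g) w + inner ℝ (c s) (π g⁻¹ w) := by
      intro s _
      rw [hc g s, inner_add_left, Greedy_adj]
    rw [Finset.sum_congr rfl h1, Finset.sum_add_distrib, Finset.sum_const, nsmul_eq_mul,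
      ← sum_inner, hh, inner_zero_left, add_zero]

variable [CompleteSpace V]

/-- in a finite-dimensional invariant subspace on which no vector is orthogonal to `c`, linear growth
in every direction -/
theorem greedy (hS : SymGen S) (π : H →* (V ≃ₗᵢ[ℝ] V)) (c : H → V) (hc : IsCocycle π c)
    (hh : ∑ s ∈ S, c s = 0) (W : Submodule ℝ V) (hW : FiniteDimensional ℝ W) (hi : Inv π W)
    (hn : ∀ w ∈ W, w ≠ 0 → ∃ g, inner ℝ (c g) w ≠ 0) :
    ∃ (R : ℕ) (a : ℝ), 0 < a ∧ ∀ w ∈ W, ‖w‖ = 1 → ∀ m : ℕ, ∃ p : H, len S p ≤ R * m ∧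
      a * m ≤ inner ℝ (c p) w := by
  have hR : ∃ n : ℕ, ∀ w : W, ‖w‖ = 1 → ∃ r : H, len S r ≤ n ∧
      1 / ((n : ℝ) + 1) ≤ inner ℝ (c r) (w : V) := by
    by_contra hcon
    push Not at hcon
    choose w hw1 hw2 using hcon
    have hmem : ∀ n, w n ∈ Metric.sphere (0 : W) 1 := fun n => by
      rw [mem_sphere_zero_iff_norm]
      exact hw1 n
    obtain ⟨w₀, hw₀, ψ, hψ, hlim⟩ := (isCompact_sphere (0 : W) 1).tendsto_subseq hmem
    have hw₀1 : ‖(w₀ : V)‖ = 1 := by
      rw [mem_sphere_zero_iff_norm] at hw₀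
      exact hw₀
    have hne : (w₀ : V) ≠ 0 := by
      intro h
      rw [h, norm_zero] at hw₀1
      exact zero_ne_one hw₀1
    obtain ⟨r, hr⟩ := Greedy_pos hS π c hc hh (w₀ : V) (hn _ w₀.2 hne)
    have hcont : Tendsto (fun n => inner ℝ (c r) ((w (ψ n) : W) : V)) atTop
        (𝓝 (inner ℝ (c r) (w₀ : V))) := by
      have h1 : Continuous fun x : W => inner ℝ (c r) (x : V) :=
        continuous_const.inner continuous_subtype_val
      exact (h1.tendsto w₀).comp hlim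
    have h2 : Tendsto (fun n : ℕ => 1 / (((ψ n : ℕ) : ℝ) + 1)) atTop (𝓝 0) :=
      tendsto_one_div_add_atTop_nhds_zero_nat.comp hψ.tendsto_atTop
    have h3 : ∀ᶠ n in atTop, inner ℝ (c r) ((w (ψ n) : W) : V) < 1 / (((ψ n : ℕ) : ℝ) + 1) := by
      filter_upwards [eventually_ge_atTop (len S r)] with n hn'
      exact hw2 (ψ n) r (hn'.trans (hψ.id_le n))
    have h4 : inner ℝ (c r) (w₀ : V) ≤ 0 :=
      le_of_tendsto_of_tendsto hcont h2 (h3.mono fun n h => h.le)
    exact absurd hr (not_lt.2 h4)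
  obtain ⟨R, hR⟩ := hR
  have ha : (0 : ℝ) < 1 / ((R : ℝ) + 1) := by positivity
  refine ⟨R, 1 / ((R : ℝ) + 1), ha, fun w hw hw1 m => ?_⟩
  induction m with
  | zero =>
    refine ⟨1, ?_, ?_⟩
    · rw [len_one]
      exact Nat.zero_le _
    · rw [Greedy_one π c hc, inner_zero_left, Nat.cast_zero, mul_zero]
  | succ m ih =>
    obtain ⟨p, hp1, hp2⟩ := ih
    have hw' : π p⁻¹ w ∈ W := hi p⁻¹ w hw
    have hw1' : ‖π p⁻¹ w‖ = 1 := by rw [LinearIsometryEquiv.norm_map, hw1]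
    obtain ⟨r, hr1, hr2⟩ := hR ⟨π p⁻¹ w, hw'⟩ hw1'
    refine ⟨p * r, ?_, ?_⟩
    · have h1 := len_mul_le hS.gen p r
      rw [mul_add, mul_one]
      omega
    · rw [hc p r, inner_add_left, Greedy_adj]
      change 1 / ((R : ℝ) + 1) ≤ inner ℝ (c r) (π p⁻¹ w) at hr2
      push_cast
      linarith

end Rep

end Vale.Agent.P188.SG
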