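import Vale.Agent.P188.SG.HarmFd
import Vale.Agent.P188.SG.Greedy
import Vale.Agent.P188.SG.FinDim

/-!
P188, Theorem S+: the affine isometric action on the span of a harmonic cocycle has cobounded orbits.
-/

universe u v

open Filter Topology

namespace Vale.Agent.P188.SG

section Rep

variable {H : Type u} [Group H] {S : Finset H}
variable {V : Type v} [NormedAddCommGroup V] [InnerProductSpace ℝ V] [CompleteSpace V]

/-- the values of a harmonic cocycle are cobounded in their finite-dimensional span -/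
theorem Cob_exists (hS : SymGen S) (π : H →* (V ≃ₗᵢ[ℝ] V)) (c : H → V) (hc : IsCocycle π c)
    (hh : ∑ s ∈ S, c s = 0) (W : Submodule ℝ V) (hW : FiniteDimensional ℝ W) (hi : Inv π W)
    (hcW : ∀ g, c g ∈ W) (hn : ∀ w ∈ W, w ≠ 0 → ∃ g, inner ℝ (c g) w ≠ 0) :
    ∃ D : ℝ, ∀ w ∈ W, ∃ g, ‖c g - w‖ ≤ D := by
  obtain ⟨R, a, ha, hR⟩ := greedy hS π c hc hh W hW hi hn
  have h0 : 0 ≤ ∑ s ∈ S, ‖c s‖ := Finset.sum_nonneg fun s _ => norm_nonneg _
  set L : ℝ := ∑ s ∈ S, ‖c s‖ with hL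
  have hLip : ∀ g, ‖c g‖ ≤ L * len S g := fun g => fd_norm_le_len hS π c hc h0
    (fun s hs => Finset.single_le_sum (f := fun s => ‖c s‖) (fun s _ => norm_nonneg _) hs) g
  set Q : ℝ := (L * R) ^ 2 with hQ
  have hQ0 : 0 ≤ Q := sq_nonneg _
  refine ⟨(Q + a ^ 2) / a, fun w hw => ?_⟩
  by_contra hcon
  push Not at hcon
  -- the infimum of the distances
  set I : ℝ := sInf (Set.range fun g => ‖c g - w‖) with hI
  have hbdd : BddBelow (Set.range fun g => ‖c g - w‖) :=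
    ⟨0, by rintro _ ⟨g, rfl⟩; exact norm_nonneg _⟩
  obtain ⟨x, ⟨g, rfl⟩, hg⟩ := exists_lt_of_csInf_lt (Set.range_nonempty fun g => ‖c g - w‖)
    (show I < I + a / 2 by linarith)
  have hg' : ‖c g - w‖ < I + a / 2 := hg
  set x : V := w - c g with hx
  have hxW : x ∈ W := W.sub_mem hw (hcW g)
  have hxn : (Q + a ^ 2) / a < ‖x‖ := by
    have := hcon g
    rwa [norm_sub_rev] at this
  have hxpos : 0 < ‖x‖ := lt_of_le_of_lt (by positivity) hxn
  have hx1 : ‖x‖ < I + a / 2 := by rwa [hx, norm_sub_rev]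
  -- the rotated unit vector
  have huW : π g⁻¹ ((‖x‖)⁻¹ • x) ∈ W := hi _ _ (W.smul_mem _ hxW)
  have hu1 : ‖π g⁻¹ ((‖x‖)⁻¹ • x)‖ = 1 := by
    rw [LinearIsometryEquiv.norm_map, norm_smul, norm_inv, norm_norm,
      inv_mul_cancel₀ hxpos.ne']
  obtain ⟨r, hr, hra⟩ := hR _ huW hu1 1
  rw [Nat.cast_one, mul_one] at hra
  rw [mul_one] at hr
  have hin : a * ‖x‖ ≤ inner ℝ (π g (c r)) x := by
    have h2 : inner ℝ (c r) (π g⁻¹ ((‖x‖)⁻¹ • x)) = (‖x‖)⁻¹ * inner ℝ (π g (c r)) x := by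
      rw [map_smul, inner_smul_right, Greedy_adj]
    rw [h2] at hra
    have h3 := mul_le_mul_of_nonneg_right hra hxpos.le
    rwa [mul_comm (‖x‖)⁻¹, mul_assoc, inv_mul_cancel₀ hxpos.ne', mul_one] at h3
  have hcr : ‖c r‖ ^ 2 ≤ Q := by
    have h4 : ‖c r‖ ≤ L * R := (hLip r).trans
      (mul_le_mul_of_nonneg_left (by exact_mod_cast hr) h0)
    exact pow_le_pow_left₀ (norm_nonneg _) h4 2
  have hnew : I ≤ ‖c (g * r) - w‖ := csInf_le hbdd ⟨g * r, rfl⟩
  have hI0 : 0 ≤ I := le_csInf (Set.range_nonempty _)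
    (by rintro _ ⟨g, rfl⟩; exact norm_nonneg _)
  have h5 : ‖c (g * r) - w‖ ^ 2 = ‖x‖ ^ 2 - 2 * inner ℝ (π g (c r)) x + ‖c r‖ ^ 2 := by
    rw [hc g r]
    have : c g + π g (c r) - w = π g (c r) - x := by rw [hx]; abel
    rw [this, norm_sub_sq_real, LinearIsometryEquiv.norm_map]
    ring
  have h6 : I ^ 2 ≤ ‖c (g * r) - w‖ ^ 2 := pow_le_pow_left₀ hI0 hnew 2
  have h7 : Q + a ^ 2 < a * ‖x‖ := by
    rw [div_lt_iff₀ ha] at hxn
    linarith
  have h8 : I ^ 2 ≤ ‖x‖ ^ 2 - 2 * (a * ‖x‖) + Q := by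
    rw [h5] at h6
    linarith
  have h9 : a < ‖x‖ := by
    by_contra h
    have h10 : a * ‖x‖ ≤ a * a := mul_le_mul_of_nonneg_left (not_lt.1 h) ha.le
    nlinarith
  have h11 : (‖x‖ - a / 2) ^ 2 ≤ I ^ 2 :=
    pow_le_pow_left₀ (by linarith) (by linarith) 2
  nlinarith

theorem exists_isom_cob (hS : SymGen S) (π : H →* (V ≃ₗᵢ[ℝ] V)) (c : H → V)
    (hc : IsCocycle π c) (hh : ∑ s ∈ S, c s = 0) (B : Submodule ℝ V)
    (hB : FiniteDimensional ℝ B) (k : ℕ) (hk : Module.finrank ℝ B ≤ k)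
    (hcB : ∀ g, c g ∈ B.topologicalClosure) :
    ∃ (d : ℕ) (_ : d ≤ k)
      (ρ : H →* (EuclideanSpace ℝ (Fin d) ≃ᵢ EuclideanSpace ℝ (Fin d))),
      (∀ g ∈ ρ.ker, c g = 0) ∧ ∃ D : ℝ, ∀ w, ∃ g, dist (ρ g 0) w ≤ D := by
  have hcB' : ∀ g, c g ∈ B := fun g => by
    have := hcB g
    rwa [(Submodule.closed_of_finiteDimensional B).submodule_topologicalClosure_eq] at this
  set W : Submodule ℝ V := Submodule.span ℝ (Set.range c) with hWdef
  have hWB : W ≤ B := Submodule.span_le.2 (by rintro _ ⟨g, rfl⟩; exact hcB' g)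
  have hW : FiniteDimensional ℝ W := Submodule.finiteDimensional_of_le hWB
  have hcW : ∀ g, c g ∈ W := fun g => Submodule.subset_span ⟨g, rfl⟩
  have hi : Inv π W := by
    intro g w hw
    have : W ≤ W.comap ((π g).toLinearEquiv : V →ₗ[ℝ] V) := by
      refine Submodule.span_le.2 ?_
      rintro _ ⟨h, rfl⟩
      show π g (c h) ∈ W
      have h1 : π g (c h) = c (g * h) - c g := by rw [hc g h]; abel
      rw [h1]
      exact W.sub_mem (hcW _) (hcW _)
    exact this hw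
  have hn : ∀ w ∈ W, w ≠ 0 → ∃ g, inner ℝ (c g) w ≠ 0 := by
    intro w hw hw0
    by_contra hcon
    push Not at hcon
    have h1 : W ≤ (LinearMap.ker (innerSL ℝ w : V →ₗ[ℝ] ℝ)) := by
      refine Submodule.span_le.2 ?_
      rintro _ ⟨g, rfl⟩
      show inner ℝ w (c g) = 0
      rw [real_inner_comm]
      exact hcon g
    have h2 : inner ℝ w w = 0 := h1 hw
    exact hw0 (inner_self_eq_zero.1 h2)
  obtain ⟨D, hD⟩ := Cob_exists hS π c hc hh W hW hi hcW hn
  let e := (stdOrthonormalBasis ℝ W).repr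
  let F : H → EuclideanSpace ℝ (Fin (Module.finrank ℝ W)) →
      EuclideanSpace ℝ (Fin (Module.finrank ℝ W)) :=
    fun g v => e (Isom_aff π W hi c hcW g (e.symm v))
  have hFmul : ∀ g h v, F (g * h) v = F g (F h v) := by
    intro g h v
    show e (Isom_aff π W hi c hcW (g * h) (e.symm v)) =
      e (Isom_aff π W hi c hcW g (e.symm (e (Isom_aff π W hi c hcW h (e.symm v)))))
    rw [Isom_aff_mul π W hi c hcW hc, LinearIsometryEquiv.symm_apply_apply]
  have hFone : ∀ v, F 1 v = v := by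
    intro v
    show e (Isom_aff π W hi c hcW 1 (e.symm v)) = v
    rw [Isom_aff_one π W hi c hcW hc, LinearIsometryEquiv.apply_symm_apply]
  have hFiso : ∀ g, Isometry (F g) := fun g =>
    e.isometry.comp ((Isom_aff_isometry π W hi c hcW g).comp e.symm.isometry)
  let ρ : H →* (EuclideanSpace ℝ (Fin (Module.finrank ℝ W)) ≃ᵢ
      EuclideanSpace ℝ (Fin (Module.finrank ℝ W))) :=
    { toFun := fun g => IsometryEquiv.mk' (F g) (F g⁻¹)
        (fun v => by rw [← hFmul, mul_inv_cancel, hFone]) (hFiso g)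
      map_one' := by
        ext1 v
        exact hFone v
      map_mul' := fun g h => by
        ext1 v
        exact hFmul g h v }
  have hρ0 : ∀ g, ρ g 0 = e ⟨c g, hcW g⟩ := fun g => by
    show e (Isom_aff π W hi c hcW g (e.symm 0)) = _
    congr 1
    apply Subtype.ext
    show π g ((e.symm 0 : W) : V) + c g = c g
    rw [map_zero, Submodule.coe_zero, map_zero, zero_add]
  refine ⟨Module.finrank ℝ W, (Submodule.finrank_mono hWB).trans hk, ρ, fun g hg => ?_, D,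
    fun w => ?_⟩
  · have h1 : ρ g = 1 := hg
    have h2 : ρ g 0 = 0 := by rw [h1]; rfl
    rw [hρ0, LinearIsometryEquiv.map_eq_zero_iff] at h2
    exact congrArg Subtype.val h2
  · obtain ⟨g, hg⟩ := hD _ (e.symm w).2
    refine ⟨g, ?_⟩
    rw [hρ0]
    have h3 : dist (e ⟨c g, hcW g⟩) w = dist (⟨c g, hcW g⟩ : W) (e.symm w) := by
      rw [← e.dist_map ⟨c g, hcW g⟩ (e.symm w), LinearIsometryEquiv.apply_symm_apply]
    rw [h3, Subtype.dist_eq, dist_eq_norm]
    exact hg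

end Rep

end Vale.Agent.P188.SG
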