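import Vale.Agent.P188.SG.Cob

/-!
P188, Theorem S+: the affine isometric action on the span of a harmonic cocycle has cobounded
orbits; version with the exact dimension.
-/

universe u v

open Filter Topology

namespace Vale.Agent.P188.SG

section Rep

variable {H : Type u} [Group H] {S : Finset H}
variable {V : Type v} [NormedAddCommGroup V] [InnerProductSpace ℝ V] [CompleteSpace V]

/-- the span of the values of a cocycle is invariant -/
theorem inv_span (π : H →* (V ≃ₗᵢ[ℝ] V)) (c : H → V) (hc : IsCocycle π c) :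
    Inv π (Submodule.span ℝ (Set.range c)) := by
  intro g w hw
  have : Submodule.span ℝ (Set.range c) ≤
      (Submodule.span ℝ (Set.range c)).comap ((π g).toLinearEquiv : V →ₗ[ℝ] V) := by
    refine Submodule.span_le.2 ?_
    rintro _ ⟨h, rfl⟩
    show π g (c h) ∈ Submodule.span ℝ (Set.range c)
    have h1 : π g (c h) = c (g * h) - c g := by rw [hc g h]; abel
    rw [h1]
    exact Submodule.sub_mem _ (Submodule.subset_span ⟨_, rfl⟩) (Submodule.subset_span ⟨_, rfl⟩)
  exact this hw

theorem exists_isom_cob' (hS : SymGen S) (π : H →* (V ≃ₗᵢ[ℝ] V)) (c : H → V)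
    (hc : IsCocycle π c) (hh : ∑ s ∈ S, c s = 0) (d : ℕ)
    (hfin : FiniteDimensional ℝ (Submodule.span ℝ (Set.range c)))
    (hd : Module.finrank ℝ (Submodule.span ℝ (Set.range c)) = d) :
    ∃ ρ : H →* (EuclideanSpace ℝ (Fin d) ≃ᵢ EuclideanSpace ℝ (Fin d)),
      (∀ g ∈ ρ.ker, c g = 0) ∧ ∃ D : ℝ, ∀ w, ∃ g, dist (ρ g 0) w ≤ D := by
  subst hd
  have hi : Inv π (Submodule.span ℝ (Set.range c)) := inv_span π c hc
  set W : Submodule ℝ V := Submodule.span ℝ (Set.range c) with hWdef
  have hcW : ∀ g, c g ∈ W := fun g => Submodule.subset_span ⟨g, rfl⟩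
  have hn : ∀ w ∈ W, w ≠ 0 → ∃ g, inner ℝ (c g) w ≠ 0 := by
    intro w hw hw0
    by_contra hcon
    push Not at hcon
    have h1 : W ≤ (LinearMap.ker (innerSL ℝ w : V →ₗ[ℝ] ℝ)) := by
      refine Submodule.span_le.2 ?_
      rintro _ ⟨g, rfl⟩
      show inner ℝ w (c g) = 0
      rw [real_inner_comm]
      exact hcon g
    have h2 : inner ℝ w w = 0 := h1 hw
    exact hw0 (inner_self_eq_zero.1 h2)
  obtain ⟨D, hD⟩ := Cob_exists hS π c hc hh W hfin hi hcW hn
  let e := (stdOrthonormalBasis ℝ W).repr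
  let F : H → EuclideanSpace ℝ (Fin (Module.finrank ℝ W)) →
      EuclideanSpace ℝ (Fin (Module.finrank ℝ W)) :=
    fun g v => e (Isom_aff π W hi c hcW g (e.symm v))
  have hFmul : ∀ g h v, F (g * h) v = F g (F h v) := by
    intro g h v
    show e (Isom_aff π W hi c hcW (g * h) (e.symm v)) =
      e (Isom_aff π W hi c hcW g (e.symm (e (Isom_aff π W hi c hcW h (e.symm v)))))
    rw [Isom_aff_mul π W hi c hcW hc, LinearIsometryEquiv.symm_apply_apply]
  have hFone : ∀ v, F 1 v = v := by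
    intro v
    show e (Isom_aff π W hi c hcW 1 (e.symm v)) = v
    rw [Isom_aff_one π W hi c hcW hc, LinearIsometryEquiv.apply_symm_apply]
  have hFiso : ∀ g, Isometry (F g) := fun g =>
    e.isometry.comp ((Isom_aff_isometry π W hi c hcW g).comp e.symm.isometry)
  let ρ : H →* (EuclideanSpace ℝ (Fin (Module.finrank ℝ W)) ≃ᵢ
      EuclideanSpace ℝ (Fin (Module.finrank ℝ W))) :=
    { toFun := fun g => IsometryEquiv.mk' (F g) (F g⁻¹)
        (fun v => by rw [← hFmul, mul_inv_cancel, hFone]) (hFiso g)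
      map_one' := by
        ext1 v
        exact hFone v
      map_mul' := fun g h => by
        ext1 v
        exact hFmul g h v }
  have hρ0 : ∀ g, ρ g 0 = e ⟨c g, hcW g⟩ := fun g => by
    show e (Isom_aff π W hi c hcW g (e.symm 0)) = _
    congr 1
    apply Subtype.ext
    show π g ((e.symm 0 : W) : V) + c g = c g
    rw [map_zero, Submodule.coe_zero, map_zero, zero_add]
  refine ⟨ρ, fun g hg => ?_, D, fun w => ?_⟩
  · have h1 : ρ g = 1 := hg
    have h2 : ρ g 0 = 0 := by rw [h1]; rfl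
    rw [hρ0, LinearIsometryEquiv.map_eq_zero_iff] at h2
    exact congrArg Subtype.val h2
  · obtain ⟨g, hg⟩ := hD _ (e.symm w).2
    refine ⟨g, ?_⟩
    rw [hρ0]
    have h3 : dist (e ⟨c g, hcW g⟩) w = dist (⟨c g, hcW g⟩ : W) (e.symm w) := by
      rw [← e.dist_map ⟨c g, hcW g⟩ (e.symm w), LinearIsometryEquiv.apply_symm_apply]
    rw [h3, Subtype.dist_eq, dist_eq_norm]
    exact hg

end Rep

end Vale.Agent.P188.SG
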