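import Vale.Agent.P188.SG.Defs2
import Vale.Agent.P188.SG.Len

/-! P188, Theorem S+: the values `c g / n`, `len g ≤ n`, lie in one compact set. -/

universe u v w

open Filter Topology Pointwise

namespace Vale.Agent.P188.SG

section Rep

variable {H : Type u} [Group H] {S : Finset H}
variable {V : Type v} [NormedAddCommGroup V] [InnerProductSpace ℝ V] [CompleteSpace V]

/-- The union of the orbits of the `c s`, and `0`. -/
def Comp_orb (S : Finset H) (π : H →* (V ≃ₗᵢ[ℝ] V)) (c : H → V) : Set V :=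
  {0} ∪ ⋃ s ∈ (S : Set H), Set.range fun g : H => π g (c s)

omit [CompleteSpace V] in
theorem Comp_orb_inv (π : H →* (V ≃ₗᵢ[ℝ] V)) (c : H → V) (a : H) {y : V}
    (hy : y ∈ Comp_orb S π c) : π a y ∈ Comp_orb S π c := by
  rcases hy with hy | hy
  · left
    rw [Set.mem_singleton_iff] at hy
    rw [hy, map_zero]
    exact Set.mem_singleton _
  · right
    rw [Set.mem_iUnion₂] at hy ⊢
    obtain ⟨s, hs, g, hg⟩ := hy
    refine ⟨s, hs, a * g, ?_⟩
    rw [← hg]
    show π (a * g) (c s) = π a (π g (c s))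
    rw [map_mul]
    rfl

omit [CompleteSpace V] in
theorem Comp_hull_inv (π : H →* (V ≃ₗᵢ[ℝ] V)) (c : H → V) (a : H) {y : V}
    (hy : y ∈ convexHull ℝ (Comp_orb S π c)) : π a y ∈ convexHull ℝ (Comp_orb S π c) := by
  have h1 : Comp_orb S π c ⊆ (π a).toLinearEquiv.toLinearMap ⁻¹'
      (convexHull ℝ (Comp_orb S π c)) := fun z hz =>
    subset_convexHull ℝ _ (Comp_orb_inv π c a hz)
  exact convexHull_min h1 ((convex_convexHull ℝ _).linear_preimage _) hy

omit [CompleteSpace V] in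
theorem Comp_orb_tb (π : H →* (V ≃ₗᵢ[ℝ] V)) (c : H → V) (hTB : ∀ s ∈ S, TB π (c s)) :
    TotallyBounded (Comp_orb S π c) := by
  refine TotallyBounded.union (Set.finite_singleton _).totallyBounded ?_
  refine (totallyBounded_biUnion (Finset.finite_toSet S)).2 fun s hs => ?_
  rw [Metric.totallyBounded_iff]
  intro ε hε
  obtain ⟨F, hF⟩ := hTB s hs (ε / 2) (half_pos hε)
  refine ⟨(fun r => π r (c s)) '' (F : Set H), (Finset.finite_toSet F).image _, ?_⟩
  rintro _ ⟨g, rfl⟩
  obtain ⟨r, hr, h⟩ := hF g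
  refine Set.mem_iUnion₂.mpr ⟨π r (c s), ⟨r, hr, rfl⟩, ?_⟩
  rw [Metric.mem_ball, dist_eq_norm]
  exact h.trans_lt (half_lt_self hε)

omit [CompleteSpace V] in
theorem Comp_list (π : H →* (V ≃ₗᵢ[ℝ] V)) (c : H → V) (hc : IsCocycle π c) (l : List H)
    (hl : ∀ a ∈ l, a ∈ S) :
    ∃ y ∈ convexHull ℝ (Comp_orb S π c), c l.prod = (l.length : ℝ) • y := by
  induction l with
  | nil =>
    refine ⟨0, subset_convexHull ℝ _ (Or.inl rfl), ?_⟩
    have h := hc 1 1
    rw [mul_one, map_one] at h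
    have h2 : c 1 = c 1 + c 1 := h
    simpa using h2
  | cons a l ih =>
    obtain ⟨y, hy, h⟩ := ih fun b hb => hl b (List.mem_cons_of_mem _ hb)
    have hm : (0 : ℝ) < (l.length : ℝ) + 1 := by positivity
    have hca : c a ∈ convexHull ℝ (Comp_orb S π c) := by
      refine subset_convexHull ℝ _ (Or.inr ?_)
      refine Set.mem_iUnion₂.mpr ⟨a, hl a List.mem_cons_self, 1, ?_⟩
      show π 1 (c a) = c a
      rw [map_one]
      rfl
    refine ⟨((l.length : ℝ) + 1)⁻¹ • c a + ((l.length : ℝ) / (l.length + 1)) • π a y,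
      (convex_convexHull ℝ _) hca (Comp_hull_inv π c a hy) (by positivity) (by positivity)
        (by field_simp; ring), ?_⟩
    rw [List.prod_cons, hc, h, List.length_cons, Nat.cast_add, Nat.cast_one, smul_add, smul_smul,
      smul_smul, mul_inv_cancel₀ hm.ne', one_smul, map_smul, mul_div_cancel₀ _ hm.ne']

/-- the values `c g / n`, `len g ≤ n`, lie in one compact set -/
theorem exists_compact (hS : SymGen S) (π : H →* (V ≃ₗᵢ[ℝ] V)) (c : H → V)
    (hc : IsCocycle π c) (hTB : ∀ s ∈ S, TB π (c s)) :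
    ∃ K : Set V, IsCompact K ∧ ∀ (n : ℕ) (g : H), 0 < n → len S g ≤ n →
      (n : ℝ)⁻¹ • c g ∈ K := by
  refine ⟨closure (convexHull ℝ (Comp_orb S π c)), ?_, fun n g hn hg => ?_⟩
  · exact isCompact_iff_totallyBounded_isComplete.mpr
      ⟨(Comp_orb_tb π c hTB).convexHull.closure, isClosed_closure.isComplete⟩
  · refine subset_closure ?_
    obtain ⟨l, h1, h2, h3⟩ := len_list hS.gen g
    obtain ⟨y, hy, h⟩ := Comp_list π c hc l fun a ha => (h2 a ha).elim id fun h' => by
      have := hS.inv _ h'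
      rwa [inv_inv] at this
    have hn' : (0 : ℝ) < n := Nat.cast_pos.mpr hn
    have h0 : (0 : V) ∈ convexHull ℝ (Comp_orb S π c) := subset_convexHull ℝ _ (Or.inl rfl)
    have hle : (n : ℝ)⁻¹ * (l.length : ℝ) ≤ 1 := by
      rw [h1, inv_mul_le_iff₀ hn', mul_one]
      exact_mod_cast hg
    rw [← h3, h, smul_smul]
    exact (convex_convexHull ℝ _).smul_mem_of_zero_mem h0 hy ⟨by positivity, hle⟩

end Rep

end Vale.Agent.P188.SG
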