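import Mathlib
import Vale.Agent.P188.Defs
import Vale.Agent.P188.Mean

/-!
P188, Theorem S (growth of the kernel of the finite-dimensional part): definitions.
-/

universe u v w

open Filter Topology

namespace Vale.Agent.P188.SG

variable {H : Type u} [Group H]

/-- Word length for the finite set `S` (and the inverses of its elements). -/
noncomputable def len (S : Finset H) (g : H) : ℕ := wordDist (S : Set H) 1 g

/-- One step of the random walk: average over the right translates by elements of `S`. -/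
noncomputable def avg (S : Finset H) (φ : H → ℝ) (g : H) : ℝ :=
  (S.card : ℝ)⁻¹ * ∑ s ∈ S, φ (g * s)

/-- Expectation of `φ (X_n)` for the random walk `X_n` with steps uniform in `S`. -/
noncomputable def Ex (S : Finset H) (n : ℕ) (φ : H → ℝ) : ℝ := ((avg S)^[n] φ) 1

/-- A finite nonempty symmetric generating set. -/
structure SymGen (S : Finset H) : Prop where
  ne : S.Nonempty
  inv : ∀ s ∈ S, s⁻¹ ∈ S
  gen : Subgroup.closure (S : Set H) = ⊤

section Rep

variable {V : Type v} [NormedAddCommGroup V] [InnerProductSpace ℝ V]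

/-- `b` is a cocycle for the orthogonal representation `π`. -/
def IsCocycle (π : H →* (V ≃ₗᵢ[ℝ] V)) (b : H → V) : Prop :=
  ∀ g h : H, b (g * h) = b g + π g (b h)

/-- Invariant subspaces. -/
def Inv (π : H →* (V ≃ₗᵢ[ℝ] V)) (W : Submodule ℝ V) : Prop :=
  ∀ g : H, ∀ w ∈ W, π g w ∈ W

/-- `u` is orthogonal to all finite-dimensional invariant subspaces. -/
def FDOrth (π : H →* (V ≃ₗᵢ[ℝ] V)) (u : V) : Prop :=
  ∀ W : Submodule ℝ V, FiniteDimensional ℝ W → Inv π W → ∀ w ∈ W, inner ℝ w u = 0

end Rep

/-- Cautious random walks: along infinitely many times `n` the walk is within `c √n` of the origin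
with probability bounded below. -/
def Cautious (S : Finset H) : Prop :=
  ∀ c : ℝ, 0 < c → ∃ δ : ℝ, 0 < δ ∧ ∃ᶠ n : ℕ in atTop,
    δ ≤ Ex S n (fun g => if (len S g : ℝ) ≤ c * Real.sqrt n then 1 else 0)

/-- Controlled Følner pairs. -/
def Folner (S : Finset H) : Prop :=
  ∃ C : ℕ, ∀ r : ℕ, ∃ E' E : Finset H, E'.Nonempty ∧
    (∀ x ∈ E', ∀ h : H, len S h ≤ r → x * h ∈ E) ∧
    (∀ x ∈ E, ∀ y ∈ E, len S (x⁻¹ * y) ≤ C * (r + 1)) ∧ E.card ≤ C * E'.card

/-- The data of an exponentially distorted extension: `θ : G → ℤ^k` onto, the kernel is generated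
by the finite set `A`, has polynomial growth, and the word length of `G` (for the finite
generating set `T`) restricted to the kernel is at most logarithmic in the word length of `A`. -/
structure ExpExt {G : Type v} [Group G] {k : ℕ} (θ : G →* Multiplicative (Fin k → ℤ))
    (A T : Finset G) : Prop where
  surj : Function.Surjective θ
  genA : Subgroup.closure (A : Set G) = θ.ker
  genT : Subgroup.closure (T : Set G) = ⊤
  growth : ∃ C D : ℕ, ∀ n : ℕ, {x : G | x ∈ θ.ker ∧ len A x ≤ n}.ncard ≤ C * (n + 1) ^ D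
  dist : ∃ C : ℝ, ∀ x ∈ θ.ker, (len T x : ℝ) ≤ C * (1 + Real.log (1 + len A x))

/-- The `i`-th coordinate of `θ`. -/
def co {G : Type v} [Group G] {k : ℕ} (θ : G →* Multiplicative (Fin k → ℤ)) (g : G) (i : Fin k) :
    ℝ := ((Multiplicative.toAdd (θ g) i : ℤ) : ℝ)

end Vale.Agent.P188.SG
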