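import Vale.Agent.P188.SG.Defs

/-!
P188, Theorem S+ (the kernel of one isometric action on `ℝ^d`, `d ≤ k`): definitions.
-/

universe u v w

open Filter Topology

namespace Vale.Agent.P188.SG

variable {H : Type u} [Group H] {V : Type v} [NormedAddCommGroup V] [InnerProductSpace ℝ V]

/-- The orbit of `v` is totally bounded. -/
def TB (π : H →* (V ≃ₗᵢ[ℝ] V)) (v : V) : Prop :=
  ∀ η : ℝ, 0 < η → ∃ F : Finset H, ∀ g : H, ∃ r ∈ F, ‖π g v - π r v‖ ≤ η

/-- The vector `v` is asymptotically realized at cost `ρ`: for all large `n` there is `g` of length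
about at most `ρ n` with `c g` about `n v`. -/
def Rel (S : Finset H) (c : H → V) (v : V) (ρ : ℝ) : Prop :=
  ∀ η : ℝ, 0 < η → ∃ n₀ : ℕ, ∀ n : ℕ, n₀ ≤ n → ∃ g : H,
    (len S g : ℝ) ≤ (ρ + η) * n ∧ ‖c g - (n : ℝ) • v‖ ≤ η * n

/-- The same for infinitely many `n`. -/
def RelSub (S : Finset H) (c : H → V) (v : V) (ρ : ℝ) : Prop :=
  ∀ η : ℝ, 0 < η → ∀ n₀ : ℕ, ∃ n : ℕ, n₀ ≤ n ∧ ∃ g : H,
    (len S g : ℝ) ≤ (ρ + η) * n ∧ ‖c g - (n : ℝ) • v‖ ≤ η * n

/-- The closed span of all finite-dimensional invariant subspaces. -/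
def fdSpan (π : H →* (V ≃ₗᵢ[ℝ] V)) : Submodule ℝ V :=
  (sSup {W : Submodule ℝ V | FiniteDimensional ℝ W ∧ Inv π W}).topologicalClosure

/-- Vector valued functions with bounded coordinates. -/
def VBdd {k : ℕ} (φ : H → Fin k → ℝ) : Prop := ∀ i, Bdd (fun y => φ y i)

end Vale.Agent.P188.SG
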