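import Vale.Agent.P188.SG.TB
import Vale.Agent.P188.SG.Len

/-! P188, Theorem S+: asymptotically realized vectors. -/

universe u v w

open Filter Topology Pointwise

namespace Vale.Agent.P188.SG

section Rep

variable {H : Type u} [Group H] {S : Finset H}
variable {V : Type v} [NormedAddCommGroup V] [InnerProductSpace ℝ V] [CompleteSpace V]

theorem Rel_one (π : H →* (V ≃ₗᵢ[ℝ] V)) (c : H → V) (hc : IsCocycle π c) : c 1 = 0 := by
  have h := hc 1 1
  rw [mul_one, map_one] at h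
  have h2 : c 1 = c 1 + c 1 := h
  exact left_eq_add.mp h2

theorem Rel_inv (π : H →* (V ≃ₗᵢ[ℝ] V)) (c : H → V) (hc : IsCocycle π c) (g : H) :
    c g⁻¹ = -(π g⁻¹ (c g)) := by
  have h := hc g⁻¹ g
  rw [inv_mul_cancel, Rel_one π c hc] at h
  exact eq_neg_of_add_eq_zero_left h.symm

/-- finitely many twisting elements -/
theorem Rel_twist (S : Finset H) (π : H →* (V ≃ₗᵢ[ℝ] V)) (c : H → V) {v : V} (hv : TB π v)
    {η : ℝ} (hη : 0 < η) : ∃ R : ℝ, 0 ≤ R ∧ ∀ g : H, ∃ r : H, (len S r : ℝ) ≤ R ∧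
      (len S r⁻¹ : ℝ) ≤ R ∧ ‖c r‖ ≤ R ∧ ‖c r⁻¹‖ ≤ R ∧ ‖π g⁻¹ v - π r v‖ ≤ η := by
  obtain ⟨F, hF⟩ := hv η hη
  refine ⟨∑ r ∈ F, ((len S r : ℝ) + len S r⁻¹ + ‖c r‖ + ‖c r⁻¹‖),
    Finset.sum_nonneg fun r _ => by positivity, fun g => ?_⟩
  obtain ⟨r, hr, h⟩ := hF g⁻¹
  have h1 : ((len S r : ℝ) + len S r⁻¹ + ‖c r‖ + ‖c r⁻¹‖) ≤
      ∑ r ∈ F, ((len S r : ℝ) + len S r⁻¹ + ‖c r‖ + ‖c r⁻¹‖) :=
    Finset.single_le_sum (f := fun r => (len S r : ℝ) + len S r⁻¹ + ‖c r‖ + ‖c r⁻¹‖)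
      (fun r _ => by positivity) hr
  have h2 : (0 : ℝ) ≤ len S r := Nat.cast_nonneg _
  have h3 : (0 : ℝ) ≤ len S r⁻¹ := Nat.cast_nonneg _
  have h4 := norm_nonneg (c r)
  have h5 := norm_nonneg (c r⁻¹)
  exact ⟨r, by linarith, by linarith, by linarith, by linarith, h⟩

/-- one step of the construction of products -/
theorem Rel_step (π : H →* (V ≃ₗᵢ[ℝ] V)) (c : H → V) (hc : IsCocycle π c) {w : V} {p r g : H}
    {x y η R n : ℝ} (hn : 0 ≤ n) (hr : ‖c r‖ ≤ R) (hp : ‖π p⁻¹ w - π r w‖ ≤ η)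
    {u : V} (hx : ‖c p - u‖ ≤ x) (hg : ‖c g - n • w‖ ≤ y) :
    ‖c (p * r * g) - (u + n • w)‖ ≤ x + R + y + n * η := by
  have h1 : c (p * r * g) = c p + π p (c r) + π (p * r) (c g) := by
    rw [hc, hc]
  have h2 : π (p * r) (c g) - n • w = π (p * r) (c g - n • w) + n • (π (p * r) w - w) := by
    rw [map_sub, map_smul, smul_sub]
    abel
  have h3 : ‖π (p * r) w - w‖ ≤ η := by
    have h4 : π (p * r) w - w = π p (π r w - π p⁻¹ w) := by
      rw [map_sub, map_mul]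
      have h5 : π p (π p⁻¹ w) = w := by
        have : π (p * p⁻¹) w = w := by rw [mul_inv_cancel, map_one]; rfl
        rw [map_mul] at this
        exact this
      rw [h5]
      rfl
    rw [h4, LinearIsometryEquiv.norm_map, norm_sub_rev]
    exact hp
  have h6 : c (p * r * g) - (u + n • w) =
      (c p - u) + π p (c r) + (π (p * r) (c g - n • w) + n • (π (p * r) w - w)) := by
    rw [← h2, h1]
    abel
  rw [h6]
  refine (norm_add_le _ _).trans ?_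
  have h7 : ‖(c p - u) + π p (c r)‖ ≤ x + R := by
    refine (norm_add_le _ _).trans (add_le_add hx ?_)
    rw [LinearIsometryEquiv.norm_map]
    exact hr
  have h8 : ‖π (p * r) (c g - n • w) + n • (π (p * r) w - w)‖ ≤ y + n * η := by
    refine (norm_add_le _ _).trans (add_le_add ?_ ?_)
    · rw [LinearIsometryEquiv.norm_map]
      exact hg
    · rw [norm_smul, Real.norm_of_nonneg hn]
      exact mul_le_mul_of_nonneg_left h3 hn
  linarith

theorem rel_of_relSub (hS : SymGen S) (π : H →* (V ≃ₗᵢ[ℝ] V)) (c : H → V)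
    (hc : IsCocycle π c) {v : V} (hv : TB π v) {ρ : ℝ} (hρ : 0 ≤ ρ) (h : RelSub S c v ρ) :
    Rel S c v ρ := by
  intro η hη
  have hη' : 0 < η / 8 := by positivity
  obtain ⟨R, hR0, hR⟩ := Rel_twist S π c hv hη'
  obtain ⟨n1, hn1, g1, hg1, hg1'⟩ := h (η / 8) hη' (⌈R / (η / 8)⌉₊ + 1)
  have hn1R : R ≤ (η / 8) * n1 := by
    have h1 : R / (η / 8) ≤ ⌈R / (η / 8)⌉₊ := Nat.le_ceil _
    have h2 : ((⌈R / (η / 8)⌉₊ : ℕ) : ℝ) ≤ n1 := by
      have : ⌈R / (η / 8)⌉₊ ≤ n1 := by omega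
      exact_mod_cast this
    have h3 := h1.trans h2
    rw [div_le_iff₀ hη'] at h3
    linarith
  have hn1pos : 0 < n1 := by omega
  have hn1r : (0 : ℝ) < n1 := by exact_mod_cast hn1pos
  have key : ∀ q : ℕ, ∃ p : H, (len S p : ℝ) ≤ q * ((ρ + 2 * (η / 8)) * n1) ∧
      ‖c p - ((q : ℝ) * n1) • v‖ ≤ q * (3 * (η / 8) * n1) := by
    intro q
    induction q with
    | zero =>
      refine ⟨1, ?_, ?_⟩
      · rw [len_one]; simp
      · rw [Rel_one π c hc]; simp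
    | succ q ih =>
      obtain ⟨p, hp1, hp2⟩ := ih
      obtain ⟨r, hr1, hr2, hr3, hr4, hr5⟩ := hR p
      refine ⟨p * r * g1, ?_, ?_⟩
      · have h1 := len_mul_le hS.gen (p * r) g1
        have h2 := len_mul_le hS.gen p r
        have h3 : (len S (p * r * g1) : ℝ) ≤ len S p + len S r + len S g1 := by
          have : len S (p * r * g1) ≤ len S p + len S r + len S g1 := by omega
          exact_mod_cast this
        push_cast
        linarith
      · have h1 := Rel_step π c hc (n := n1) hn1r.le hr3 hr5 hp2 hg1'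
        have h2 : ((((q + 1 : ℕ) : ℝ) * n1) • v : V) = ((q : ℝ) * n1) • v + (n1 : ℝ) • v := by
          rw [← add_smul]
          push_cast
          congr 1
          ring
        rw [h2]
        refine h1.trans ?_
        push_cast
        linarith
  refine ⟨⌈n1 * ‖v‖ / (η / 2)⌉₊, fun n hn => ?_⟩
  obtain ⟨p, hp1, hp2⟩ := key (n / n1)
  have hdiv : (n : ℝ) = ((n / n1 : ℕ) : ℝ) * n1 + ((n % n1 : ℕ) : ℝ) := by
    have : n = n / n1 * n1 + n % n1 := by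
      rw [mul_comm]; exact (Nat.div_add_mod n n1).symm
    exact_mod_cast this
  have hmod : ((n % n1 : ℕ) : ℝ) ≤ n1 := by
    have : n % n1 ≤ n1 := (Nat.mod_lt n hn1pos).le
    exact_mod_cast this
  have hmod0 : (0 : ℝ) ≤ ((n % n1 : ℕ) : ℝ) := Nat.cast_nonneg _
  have hqn : ((n / n1 : ℕ) : ℝ) * n1 ≤ n := by linarith
  have hvn : n1 * ‖v‖ ≤ (η / 2) * n := by
    have h1 : n1 * ‖v‖ / (η / 2) ≤ n := (Nat.le_ceil _).trans (by exact_mod_cast hn)
    rw [div_le_iff₀ (by positivity)] at h1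
    linarith
  refine ⟨p, ?_, ?_⟩
  · have h1 : ((n / n1 : ℕ) : ℝ) * ((ρ + 2 * (η / 8)) * n1) ≤ (ρ + 2 * (η / 8)) * n := by
      have := mul_le_mul_of_nonneg_left hqn (by positivity : 0 ≤ ρ + 2 * (η / 8))
      linarith
    have h2 : (0 : ℝ) ≤ n := Nat.cast_nonneg _
    have h3 : (ρ + 2 * (η / 8)) * n ≤ (ρ + η) * n :=
      mul_le_mul_of_nonneg_right (by linarith) h2
    linarith
  · have h1 : c p - (n : ℝ) • v = (c p - (((n / n1 : ℕ) : ℝ) * n1) • v) -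
        ((n % n1 : ℕ) : ℝ) • v := by
      rw [sub_sub, ← add_smul, ← hdiv]
    rw [h1]
    refine (norm_sub_le _ _).trans ?_
    rw [norm_smul, Real.norm_of_nonneg hmod0]
    have h2 : ((n % n1 : ℕ) : ℝ) * ‖v‖ ≤ n1 * ‖v‖ :=
      mul_le_mul_of_nonneg_right hmod (norm_nonneg _)
    have h3 : ((n / n1 : ℕ) : ℝ) * (3 * (η / 8) * n1) ≤ 3 * (η / 8) * n := by
      have := mul_le_mul_of_nonneg_left hqn (by positivity : 0 ≤ 3 * (η / 8))
      linarith
    have h4 : (0 : ℝ) ≤ η * n := by positivity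
    linarith

theorem rel_add (hS : SymGen S) (π : H →* (V ≃ₗᵢ[ℝ] V)) (c : H → V) (hc : IsCocycle π c)
    {v w : V} (hw : TB π w) {ρ σ : ℝ} (h : Rel S c v ρ) (h' : Rel S c w σ) :
    Rel S c (v + w) (ρ + σ) := by
  intro η hη
  have hη' : 0 < η / 8 := by positivity
  obtain ⟨R, hR0, hR⟩ := Rel_twist S π c hw hη'
  obtain ⟨n1, hn1⟩ := h (η / 8) hη'
  obtain ⟨n2, hn2⟩ := h' (η / 8) hη'
  refine ⟨max (max n1 n2) ⌈R / (η / 2)⌉₊, fun n hn => ?_⟩
  have hn1' : n1 ≤ n := (le_max_left _ _).trans ((le_max_left _ _).trans hn)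
  have hn2' : n2 ≤ n := (le_max_right _ _).trans ((le_max_left _ _).trans hn)
  have hnR : R ≤ (η / 2) * n := by
    have h1 : R / (η / 2) ≤ n := (Nat.le_ceil _).trans (by
      exact_mod_cast (le_max_right _ _).trans hn)
    rw [div_le_iff₀ (by positivity)] at h1
    linarith
  obtain ⟨g, hg1, hg2⟩ := hn1 n hn1'
  obtain ⟨g', hg1', hg2'⟩ := hn2 n hn2'
  obtain ⟨r, hr1, hr2, hr3, hr4, hr5⟩ := hR g
  have hn0 : (0 : ℝ) ≤ n := Nat.cast_nonneg _
  have hηn : (0 : ℝ) ≤ η * n := by positivity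
  refine ⟨g * r * g', ?_, ?_⟩
  · have h1 := len_mul_le hS.gen (g * r) g'
    have h2 := len_mul_le hS.gen g r
    have h3 : (len S (g * r * g') : ℝ) ≤ len S g + len S r + len S g' := by
      have : len S (g * r * g') ≤ len S g + len S r + len S g' := by omega
      exact_mod_cast this
    linarith
  · have h1 := Rel_step π c hc hn0 hr3 hr5 hg2 hg2'
    rw [smul_add]
    linarith

theorem rel_smul (c : H → V) {v : V} {ρ : ℝ} (hρ : 0 ≤ ρ) (h : Rel S c v ρ) {a : ℝ}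
    (ha : 0 ≤ a) (h1 : c 1 = 0) : Rel S c (a • v) (a * ρ) := by
  intro η hη
  rcases ha.eq_or_lt with rfl | ha
  · refine ⟨0, fun n _ => ⟨1, ?_, ?_⟩⟩
    · rw [len_one]
      have : (0 : ℝ) ≤ n := Nat.cast_nonneg _
      push_cast
      nlinarith
    · rw [h1, zero_smul, smul_zero, sub_zero, norm_zero]
      positivity
  · obtain ⟨n1, hn1⟩ := h (η / (2 * a)) (by positivity)
    refine ⟨max ⌈(n1 + 1) / a⌉₊ ⌈‖v‖ / (η / 2)⌉₊, fun n hn => ?_⟩
    have hna : ((n1 : ℝ) + 1) ≤ a * n := by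
      have h2 : ((n1 : ℝ) + 1) / a ≤ n := (Nat.le_ceil _).trans (by
        exact_mod_cast (le_max_left _ _).trans hn)
      rw [div_le_iff₀ ha] at h2
      linarith
    have hnv : ‖v‖ ≤ (η / 2) * n := by
      have h2 : ‖v‖ / (η / 2) ≤ n := (Nat.le_ceil _).trans (by
        exact_mod_cast (le_max_right _ _).trans hn)
      rw [div_le_iff₀ (by positivity)] at h2
      linarith
    have hn0 : (0 : ℝ) ≤ n := Nat.cast_nonneg _
    have han : 0 ≤ a * n := by positivity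
    have hfl : ((⌊a * n⌋₊ : ℕ) : ℝ) ≤ a * n := Nat.floor_le han
    have hfl2 : a * n < (⌊a * n⌋₊ : ℕ) + 1 := Nat.lt_floor_add_one _
    have hn1' : n1 ≤ ⌊a * n⌋₊ := Nat.le_floor (by linarith)
    obtain ⟨g, hg1, hg2⟩ := hn1 _ hn1'
    have hηa : η / (2 * a) * (a * n) = η / 2 * n := by
      field_simp
    refine ⟨g, ?_, ?_⟩
    · have h2 : (ρ + η / (2 * a)) * ((⌊a * n⌋₊ : ℕ) : ℝ) ≤ (ρ + η / (2 * a)) * (a * n) :=
        mul_le_mul_of_nonneg_left hfl (by positivity)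
      have h3 : (ρ + η / (2 * a)) * (a * n) = a * ρ * n + η / 2 * n := by
        rw [add_mul, hηa]; ring
      have h4 : (0 : ℝ) ≤ η * n := by positivity
      linarith
    · have h2 : c g - (n : ℝ) • a • v = (c g - ((⌊a * n⌋₊ : ℕ) : ℝ) • v) -
          (a * n - ((⌊a * n⌋₊ : ℕ) : ℝ)) • v := by
        rw [sub_smul, smul_smul, mul_comm (n : ℝ) a]
        abel
      rw [h2]
      refine (norm_sub_le _ _).trans ?_
      rw [norm_smul, Real.norm_of_nonneg (by linarith)]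
      have h3 : (a * n - ((⌊a * n⌋₊ : ℕ) : ℝ)) * ‖v‖ ≤ 1 * ‖v‖ :=
        mul_le_mul_of_nonneg_right (by linarith) (norm_nonneg _)
      have h4 : η / (2 * a) * ((⌊a * n⌋₊ : ℕ) : ℝ) ≤ η / (2 * a) * (a * n) :=
        mul_le_mul_of_nonneg_left hfl (by positivity)
      rw [hηa] at h4
      linarith

theorem rel_neg (hS : SymGen S) (π : H →* (V ≃ₗᵢ[ℝ] V)) (c : H → V) (hc : IsCocycle π c)
    {v : V} (hv : TB π v) {ρ : ℝ} (hρ : 0 ≤ ρ) (h : Rel S c v ρ) : Rel S c (-v) ρ := by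
  intro η hη
  have hη' : 0 < η / 8 := by positivity
  obtain ⟨R, hR0, hR⟩ := Rel_twist S π c hv hη'
  obtain ⟨n1, hn1⟩ := h (η / 8) hη'
  refine ⟨max n1 ⌈R / (η / 2)⌉₊, fun n hn => ?_⟩
  have hnR : R ≤ (η / 2) * n := by
    have h1 : R / (η / 2) ≤ n := (Nat.le_ceil _).trans (by
      exact_mod_cast (le_max_right _ _).trans hn)
    rw [div_le_iff₀ (by positivity)] at h1
    linarith
  obtain ⟨g, hg1, hg2⟩ := hn1 n ((le_max_left _ _).trans hn)
  obtain ⟨r, hr1, hr2, hr3, hr4, hr5⟩ := hR g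
  have hn0 : (0 : ℝ) ≤ n := Nat.cast_nonneg _
  have hηn : (0 : ℝ) ≤ η * n := by positivity
  refine ⟨r⁻¹ * g⁻¹, ?_, ?_⟩
  · have h1 := len_mul_le hS.gen r⁻¹ g⁻¹
    have h2 := len_inv_le hS.gen g
    have h3 : (len S (r⁻¹ * g⁻¹) : ℝ) ≤ len S r⁻¹ + len S g := by
      have : len S (r⁻¹ * g⁻¹) ≤ len S r⁻¹ + len S g := by omega
      exact_mod_cast this
    linarith
  · have h1 : c (r⁻¹ * g⁻¹) - (n : ℝ) • (-v) =
        c r⁻¹ - (π r⁻¹ (π g⁻¹ (c g - (n : ℝ) • v)) +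
          (n : ℝ) • (π r⁻¹ (π g⁻¹ v) - v)) := by
      rw [hc, Rel_inv π c hc g, map_neg, map_sub, map_sub, map_smul, map_smul, smul_sub, smul_neg]
      abel
    have h2 : ‖π r⁻¹ (π g⁻¹ v) - v‖ ≤ η / 8 := by
      have h3 : π r⁻¹ (π g⁻¹ v) - v = π r⁻¹ (π g⁻¹ v - π r v) := by
        rw [map_sub]
        have h5 : π r⁻¹ (π r v) = v := by
          have : π (r⁻¹ * r) v = v := by rw [inv_mul_cancel, map_one]; rfl
          rw [map_mul] at this
          exact this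
        rw [h5]
      rw [h3, LinearIsometryEquiv.norm_map]
      exact hr5
    rw [h1]
    refine (norm_sub_le _ _).trans ?_
    have h6 : ‖π r⁻¹ (π g⁻¹ (c g - (n : ℝ) • v)) + (n : ℝ) • (π r⁻¹ (π g⁻¹ v) - v)‖ ≤
        η / 8 * n + n * (η / 8) := by
      refine (norm_add_le _ _).trans (add_le_add ?_ ?_)
      · rw [LinearIsometryEquiv.norm_map, LinearIsometryEquiv.norm_map]
        exact hg2
      · rw [norm_smul, Real.norm_of_nonneg hn0]
        exact mul_le_mul_of_nonneg_left h2 hn0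
    linarith

/-- the realized vectors form a subspace -/
theorem exists_relSpace (hS : SymGen S) (π : H →* (V ≃ₗᵢ[ℝ] V)) (c : H → V)
    (hc : IsCocycle π c) :
    ∃ B : Submodule ℝ V, ∀ v, v ∈ B ↔ TB π v ∧ ∃ ρ : ℝ, 0 ≤ ρ ∧ Rel S c v ρ := by
  refine ⟨{ carrier := {v | TB π v ∧ ∃ ρ : ℝ, 0 ≤ ρ ∧ Rel S c v ρ}
            add_mem' := ?_, zero_mem' := ?_, smul_mem' := ?_ }, fun v => Iff.rfl⟩
  · rintro v w ⟨hv, ρ, hρ, h⟩ ⟨hw, σ, hσ, h'⟩
    exact ⟨TB_add π hv hw, ρ + σ, add_nonneg hρ hσ, rel_add hS π c hc hw h h'⟩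
  · refine ⟨fun η hη => ⟨{1}, fun g => ⟨1, Finset.mem_singleton_self _, ?_⟩⟩, 0, le_rfl,
      fun η hη => ⟨0, fun n _ => ⟨1, ?_, ?_⟩⟩⟩
    · rw [map_zero, map_zero, sub_zero, norm_zero]
      exact hη.le
    · rw [len_one]
      have : (0 : ℝ) ≤ n := Nat.cast_nonneg _
      push_cast
      nlinarith
    · rw [Rel_one π c hc, smul_zero, sub_zero, norm_zero]
      positivity
  · rintro a v ⟨hv, ρ, hρ, h⟩
    refine ⟨TB_smul π hv a, ?_⟩
    rcases le_total 0 a with ha | ha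
    · exact ⟨a * ρ, mul_nonneg ha hρ, rel_smul c hρ h ha (Rel_one π c hc)⟩
    · refine ⟨-a * ρ, mul_nonneg (neg_nonneg.mpr ha) hρ, ?_⟩
      have h1 := rel_smul c hρ (rel_neg hS π c hc hv hρ h) (neg_nonneg.mpr ha) (Rel_one π c hc)
      rwa [neg_smul_neg] at h1

end Rep

end Vale.Agent.P188.SG
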