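import Vale.Agent.P188.SG.Defs2

/-!
P188, Theorem S+: vectors with totally bounded orbits.
-/

universe u v w

open Filter Topology Pointwise

namespace Vale.Agent.P188.SG

section Rep

variable {H : Type u} [Group H] {S : Finset H}
variable {V : Type v} [NormedAddCommGroup V] [InnerProductSpace ℝ V] [CompleteSpace V]

theorem TB_closed (π : H →* (V ≃ₗᵢ[ℝ] V)) {v : V}
    (hv : ∀ η : ℝ, 0 < η → ∃ w, TB π w ∧ ‖v - w‖ ≤ η) : TB π v := by
  intro η hη
  obtain ⟨w, hw, hvw⟩ := hv (η / 3) (by positivity)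
  obtain ⟨F, hF⟩ := hw (η / 3) (by positivity)
  refine ⟨F, fun g => ?_⟩
  obtain ⟨r, hr, h⟩ := hF g
  refine ⟨r, hr, ?_⟩
  have e : π g v - π r v = π g (v - w) + (π g w - π r w) - π r (v - w) := by
    rw [map_sub, map_sub]
    abel
  rw [e]
  have h1 := norm_sub_le (π g (v - w) + (π g w - π r w)) (π r (v - w))
  have h2 := norm_add_le (π g (v - w)) (π g w - π r w)
  rw [LinearIsometryEquiv.norm_map] at h1 h2
  linarith

theorem TB_smul (π : H →* (V ≃ₗᵢ[ℝ] V)) {v : V} (hv : TB π v) (a : ℝ) : TB π (a • v) := by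
  intro η hη
  have ha : 0 < |a| + 1 := by positivity
  obtain ⟨F, hF⟩ := hv (η / (|a| + 1)) (by positivity)
  refine ⟨F, fun g => ?_⟩
  obtain ⟨r, hr, h⟩ := hF g
  refine ⟨r, hr, ?_⟩
  rw [map_smul, map_smul, ← smul_sub, norm_smul, Real.norm_eq_abs]
  calc |a| * ‖π g v - π r v‖ ≤ (|a| + 1) * (η / (|a| + 1)) :=
        mul_le_mul (by linarith) h (norm_nonneg _) ha.le
    _ = η := by field_simp

theorem TB_add (π : H →* (V ≃ₗᵢ[ℝ] V)) {v w : V} (hv : TB π v) (hw : TB π w) :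
    TB π (v + w) := by
  classical
  intro η hη
  obtain ⟨F, hF⟩ := hv (η / 4) (by positivity)
  obtain ⟨F', hF'⟩ := hw (η / 4) (by positivity)
  let f : H × H → H := fun p =>
    if h : ∃ g, ‖π g v - π p.1 v‖ ≤ η / 4 ∧ ‖π g w - π p.2 w‖ ≤ η / 4 then h.choose else 1
  refine ⟨(F ×ˢ F').image f, fun g => ?_⟩
  obtain ⟨r, hr, h⟩ := hF g
  obtain ⟨r', hr', h'⟩ := hF' g
  refine ⟨f (r, r'), Finset.mem_image_of_mem f (Finset.mk_mem_product hr hr'), ?_⟩
  have hex : ∃ g, ‖π g v - π r v‖ ≤ η / 4 ∧ ‖π g w - π r' w‖ ≤ η / 4 := ⟨g, h, h'⟩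
  have hf : f (r, r') = hex.choose := dif_pos hex
  obtain ⟨h1, h2⟩ := hex.choose_spec
  rw [← hf] at h1 h2
  have e : π g (v + w) - π (f (r, r')) (v + w) =
      ((π g v - π r v) - (π (f (r, r')) v - π r v)) +
        ((π g w - π r' w) - (π (f (r, r')) w - π r' w)) := by
    rw [map_add, map_add]
    abel
  rw [e]
  have h3 := norm_add_le ((π g v - π r v) - (π (f (r, r')) v - π r v))
    ((π g w - π r' w) - (π (f (r, r')) w - π r' w))
  have h4 := norm_sub_le (π g v - π r v) (π (f (r, r')) v - π r v)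
  have h5 := norm_sub_le (π g w - π r' w) (π (f (r, r')) w - π r' w)
  linarith

/-- Orbits in finite-dimensional invariant subspaces are totally bounded. -/
theorem TB_of_fd (π : H →* (V ≃ₗᵢ[ℝ] V)) (W : Submodule ℝ V) [FiniteDimensional ℝ W]
    (hi : Inv π W) {v : V} (hv : v ∈ W) : TB π v := by
  classical
  intro η hη
  let f : H → W := fun g => ⟨π g v, hi g v hv⟩
  have htb : TotallyBounded (Set.range f) := by
    refine (isCompact_closedBall (0 : W) ‖v‖).totallyBounded.subset ?_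
    rintro _ ⟨g, rfl⟩
    rw [mem_closedBall_zero_iff]
    show ‖π g v‖ ≤ ‖v‖
    rw [LinearIsometryEquiv.norm_map]
  obtain ⟨t, hts, htf, hcov⟩ := Metric.finite_approx_of_totallyBounded htb η hη
  have hts' : ∀ y ∈ t, ∃ g, f g = y := fun y hy => hts hy
  choose! r hr using hts'
  refine ⟨htf.toFinset.image r, fun g => ?_⟩
  obtain ⟨y, hy, hgy⟩ := Set.mem_iUnion₂.1 (hcov ⟨g, rfl⟩)
  refine ⟨r y, Finset.mem_image_of_mem r (htf.mem_toFinset.2 hy), ?_⟩
  have h1 : dist (f g) y < η := hgy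
  rw [← hr y hy, dist_eq_norm] at h1
  exact h1.le

theorem TB_fdSpan (π : H →* (V ≃ₗᵢ[ℝ] V)) {v : V} (hv : v ∈ fdSpan π) : TB π v := by
  refine TB_closed π fun η hη => ?_
  obtain ⟨w, hw, hvw⟩ := Metric.mem_closure_iff.1 hv η hη
  refine ⟨w, ?_, by rw [← dist_eq_norm]; exact hvw.le⟩
  have hne : {W : Submodule ℝ V | FiniteDimensional ℝ W ∧ Inv π W}.Nonempty := by
    refine ⟨⊥, inferInstance, ?_⟩
    intro g w hw
    rw [Submodule.mem_bot] at hw ⊢
    rw [hw, map_zero]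
  have hdir : DirectedOn (· ≤ ·) {W : Submodule ℝ V | FiniteDimensional ℝ W ∧ Inv π W} := by
    rintro W₁ ⟨hf₁, hi₁⟩ W₂ ⟨hf₂, hi₂⟩
    refine ⟨W₁ ⊔ W₂, ⟨inferInstance, ?_⟩, le_sup_left, le_sup_right⟩
    intro g w hw
    obtain ⟨x, hx, y, hy, rfl⟩ := Submodule.mem_sup.1 hw
    rw [map_add]
    exact Submodule.add_mem_sup (hi₁ g x hx) (hi₂ g y hy)
  obtain ⟨W, ⟨hWf, hWi⟩, hwW⟩ := (Submodule.mem_sSup_of_directed hne hdir).1 hw
  exact TB_of_fd π W hWi hwW

end Rep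

end Vale.Agent.P188.SG
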