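import Vale.Agent.P188.SG.FD
import Vale.Agent.P188.SG.TB
import Vale.Agent.P188.SG.Greedy
import Vale.Agent.P188.SG.Rel
import Vale.Agent.P188.SG.Comp

/-!
P188, Theorem S+: the realized vectors are dense in the closed span of the cocycle.
-/

universe u v w

open Filter Topology Pointwise

namespace Vale.Agent.P188.SG

section Rep

variable {H : Type u} [Group H] {S : Finset H}
variable {V : Type v} [NormedAddCommGroup V] [InnerProductSpace ℝ V] [CompleteSpace V]

omit [CompleteSpace V] in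
private lemma dr_mul (π : H →* (V ≃ₗᵢ[ℝ] V)) (g h : H) (v : V) :
    π (g * h) v = π g (π h v) := by
  rw [map_mul]
  rfl

omit [CompleteSpace V] in
private lemma dr_inv_apply (π : H →* (V ≃ₗᵢ[ℝ] V)) (g : H) (v : V) :
    π g (π g⁻¹ v) = v := by
  rw [← dr_mul, mul_inv_cancel, map_one]
  rfl

omit [CompleteSpace V] in
private lemma dr_inner (π : H →* (V ≃ₗᵢ[ℝ] V)) (g : H) (u v : V) :
    inner ℝ u (π g v) = inner ℝ (π g⁻¹ u) v := by
  have h : u = π g (π g⁻¹ u) := (dr_inv_apply π g u).symm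
  conv_lhs => rw [h]
  rw [LinearIsometryEquiv.inner_map_map]

omit [CompleteSpace V] in
/-- translates of vectors with totally bounded orbits -/
private lemma dr_TB (π : H →* (V ≃ₗᵢ[ℝ] V)) {v : V} (hv : TB π v) (g : H) :
    TB π (π g v) := by
  classical
  intro η hη
  obtain ⟨F, hF⟩ := hv η hη
  refine ⟨F.image fun r => r * g⁻¹, fun h => ?_⟩
  obtain ⟨r, hr, h'⟩ := hF (h * g)
  refine ⟨r * g⁻¹, Finset.mem_image_of_mem _ hr, ?_⟩
  rw [← dr_mul, ← dr_mul, inv_mul_cancel_right]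
  exact h'

omit [CompleteSpace V] in
/-- translates of realized vectors -/
private lemma dr_Rel (hS : SymGen S) (π : H →* (V ≃ₗᵢ[ℝ] V)) (c : H → V)
    (hc : IsCocycle π c) {v : V} {ρ : ℝ} (hv : Rel S c v ρ) (g : H) :
    Rel S c (π g v) ρ := by
  intro η hη
  obtain ⟨n₀, hn₀⟩ := hv (η / 2) (by positivity)
  obtain ⟨n₁, hn₁⟩ := exists_nat_ge (2 * len S g / η)
  obtain ⟨n₂, hn₂⟩ := exists_nat_ge (2 * ‖c g‖ / η)
  refine ⟨max n₀ (max n₁ n₂), fun n hn => ?_⟩
  obtain ⟨h, hl, hd⟩ := hn₀ n ((le_max_left _ _).trans hn)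
  have e1 : (n₁ : ℝ) ≤ n := by
    exact_mod_cast ((le_max_left n₁ n₂).trans (le_max_right _ _)).trans hn
  have e2 : (n₂ : ℝ) ≤ n := by
    exact_mod_cast ((le_max_right n₁ n₂).trans (le_max_right _ _)).trans hn
  have f1 : (len S g : ℝ) ≤ η / 2 * n := by
    have := hn₁.trans e1
    rw [div_le_iff₀ hη] at this
    linarith
  have f2 : ‖c g‖ ≤ η / 2 * n := by
    have := hn₂.trans e2
    rw [div_le_iff₀ hη] at this
    linarith
  refine ⟨g * h, ?_, ?_⟩
  · have h1 : (len S (g * h) : ℝ) ≤ len S g + len S h := by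
      exact_mod_cast len_mul_le hS.gen g h
    have h2 : (ρ + η) * (n : ℝ) = η / 2 * n + (ρ + η / 2) * n := by ring
    rw [h2]
    linarith
  · rw [hc g h, ← map_smul]
    have h3 : c g + π g (c h) - π g ((n : ℝ) • v) = c g + π g (c h - (n : ℝ) • v) := by
      rw [map_sub]
      abel
    rw [h3]
    refine (norm_add_le _ _).trans ?_
    rw [LinearIsometryEquiv.norm_map]
    linarith

omit [CompleteSpace V] in
/-- the orthogonal complement of an invariant subspace is invariant -/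
private lemma dr_inv_orth (π : H →* (V ≃ₗᵢ[ℝ] V)) {W : Submodule ℝ V} (hi : Inv π W) :
    Inv π Wᗮ := by
  intro g w hw
  rw [Submodule.mem_orthogonal] at hw ⊢
  intro u hu
  rw [dr_inner]
  exact hw _ (hi g⁻¹ u hu)

theorem dense_rel (hS : SymGen S) (π : H →* (V ≃ₗᵢ[ℝ] V)) (c : H → V) (hc : IsCocycle π c)
    (hh : ∑ s ∈ S, c s = 0) (hfd : ∀ g, c g ∈ fdSpan π) (B : Submodule ℝ V)
    (hB : ∀ v, v ∈ B ↔ TB π v ∧ ∃ ρ : ℝ, 0 ≤ ρ ∧ Rel S c v ρ) :
    ∀ g, c g ∈ B.topologicalClosure := by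
  classical
  intro g₀
  by_contra hg₀
  have hBi : Inv π B := by
    intro g v hv
    obtain ⟨h1, ρ, h2, h3⟩ := (hB v).1 hv
    exact (hB _).2 ⟨dr_TB π h1 g, ρ, h2, dr_Rel hS π c hc h3 g⟩
  set U : Submodule ℝ V := B.topologicalClosure with hU
  have hUi : Inv π U := by
    intro g w hw
    exact map_mem_closure (f := fun x => π g x) (π g).continuous hw fun x hx => hBi g x hx
  have hUc : CompleteSpace U := (Submodule.isClosed_topologicalClosure _).completeSpace_coe
  -- the projection onto the complement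
  set P : V →ₗ[ℝ] V := (Uᗮ.starProjection : V →L[ℝ] V).toLinearMap with hP
  have hPval : ∀ v, P v = Uᗮ.starProjection v := fun _ => rfl
  have hUo : Inv π Uᗮ := dr_inv_orth π hUi
  have hPc : ∀ g v, P (π g v) = π g (P v) := fun g v => fd_proj_comm π Uᗮ hUo g v
  have hPm : ∀ v, P v ∈ Uᗮ := fun v => Uᗮ.starProjection_apply_mem v
  have hv0 : P (c g₀) ≠ 0 := by
    intro h0
    apply hg₀
    have h1 : c g₀ ∈ Uᗮᗮ := by
      rw [Submodule.mem_orthogonal']
      intro u hu
      have h2 := Uᗮ.starProjection_inner_eq_zero (c g₀) u hu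
      rw [← hPval, h0, sub_zero] at h2
      exact h2
    rwa [Submodule.orthogonal_orthogonal] at h1
  have hin : ∀ u v, inner ℝ (P u) v = inner ℝ u (P v) := fun u v =>
    Submodule.inner_starProjection_left_eq_right Uᗮ u v
  -- a finite-dimensional invariant subspace seeing `v₀`
  have hex : ∃ W₁ : Submodule ℝ V, FiniteDimensional ℝ W₁ ∧ Inv π W₁ ∧ ∃ w₁ ∈ W₁,
      inner ℝ (P w₁) (c g₀) ≠ 0 := by
    by_contra hno
    push Not at hno
    have h1 : fdSpan π ≤ (ℝ ∙ P (c g₀))ᗮ := by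
      refine Submodule.topologicalClosure_minimal _ (sSup_le ?_)
        (Submodule.isClosed_orthogonal _)
      rintro W₁ ⟨hf, hi⟩ w₁ hw₁
      rw [Submodule.mem_orthogonal_singleton_iff_inner_left]
      rw [← hin]
      exact hno W₁ hf hi w₁ hw₁
    have h2 := h1 (hfd g₀)
    rw [Submodule.mem_orthogonal_singleton_iff_inner_left] at h2
    have h3 : inner ℝ (P (c g₀)) (P (c g₀)) = (0 : ℝ) := by
      rw [hin]
      have h4 : P (P (c g₀)) = P (c g₀) :=
        Submodule.starProjection_eq_self_iff.2 (hPm _)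
      rw [h4]
      exact h2
    exact hv0 (inner_self_eq_zero.1 h3)
  obtain ⟨W₁, hW₁f, hW₁i, w₁, hw₁, hne⟩ := hex
  set W' : Submodule ℝ V := W₁.map P with hW'
  have hW'f : FiniteDimensional ℝ W' := inferInstance
  have hW'i : Inv π W' := by
    rintro g _ ⟨w, hw, rfl⟩
    exact ⟨π g w, hW₁i g w hw, hPc g w⟩
  have hW'U : W' ≤ Uᗮ := by
    rintro _ ⟨w, hw, rfl⟩
    exact hPm w
  let W'' : Submodule ℝ V :=
    { carrier := {w | w ∈ W' ∧ ∀ g, inner ℝ (c g) w = 0}
      add_mem' := fun {a b} ha hb => ⟨W'.add_mem ha.1 hb.1, fun g => by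
        rw [inner_add_right, ha.2, hb.2, add_zero]⟩
      zero_mem' := ⟨W'.zero_mem, fun g => inner_zero_right _⟩
      smul_mem' := fun r a ha => ⟨W'.smul_mem r ha.1, fun g => by
        rw [inner_smul_right, ha.2, mul_zero]⟩ }
  have hW''le : W'' ≤ W' := fun w hw => hw.1
  have hW''f : FiniteDimensional ℝ W'' := Submodule.finiteDimensional_of_le hW''le
  have hW''i : Inv π W'' := by
    rintro h w ⟨hw, hw'⟩
    refine ⟨hW'i h w hw, fun g => ?_⟩
    rw [dr_inner]
    have h1 := hc h⁻¹ g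
    have h2 : π h⁻¹ (c g) = c (h⁻¹ * g) - c h⁻¹ := by rw [h1, add_sub_cancel_left]
    rw [h2, inner_sub_left, hw', hw', sub_zero]
  set W : Submodule ℝ V := W' ⊓ W''ᗮ with hW
  have hWf : FiniteDimensional ℝ W := Submodule.finiteDimensional_of_le inf_le_left
  have hWi : Inv π W := fun g w hw => ⟨hW'i g w hw.1, dr_inv_orth π hW''i g w hw.2⟩
  have hWn : ∀ w ∈ W, w ≠ 0 → ∃ g, inner ℝ (c g) w ≠ 0 := by
    intro w hw hw0
    by_contra hno
    push Not at hno
    have h1 : w ∈ W'' := ⟨hw.1, hno⟩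
    have h2 := (Submodule.mem_orthogonal _ _).1 hw.2 w h1
    exact hw0 (inner_self_eq_zero.1 h2)
  -- a nonzero vector of `W`
  set y : V := P w₁ - W''.starProjection (P w₁) with hy
  have hyW : y ∈ W := by
    refine ⟨W'.sub_mem ⟨w₁, hw₁, rfl⟩ (hW''le (W''.starProjection_apply_mem _)), ?_⟩
    exact Submodule.sub_starProjection_mem_orthogonal _
  have hy0 : y ≠ 0 := by
    intro h0
    have h1 : P w₁ ∈ W'' := by
      have h2 : P w₁ = W''.starProjection (P w₁) := sub_eq_zero.1 h0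
      rw [h2]
      exact W''.starProjection_apply_mem _
    exact hne (by rw [real_inner_comm]; exact h1.2 g₀)
  obtain ⟨R, a, ha, hgr⟩ := greedy hS π c hc hh W hWf hWi hWn
  set w : V := ‖y‖⁻¹ • y with hw
  have hwW : w ∈ W := W.smul_mem _ hyW
  have hw1 : ‖w‖ = 1 := by
    rw [hw, norm_smul, norm_inv, norm_norm, inv_mul_cancel₀ (norm_ne_zero_iff.2 hy0)]
  choose p hpl hpa using hgr w hwW hw1
  obtain ⟨K, hK, hKm⟩ := exists_compact hS π c hc (fun s _ => TB_fdSpan π (hfd s))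
  -- the normalised values
  set x : ℕ → V := fun m => (((R + 1) * (m + 1) : ℕ) : ℝ)⁻¹ • c (p (m + 1)) with hx
  have hxK : ∀ m, x m ∈ K := fun m => hKm _ _ (by positivity) (by
    refine (hpl (m + 1)).trans ?_
    exact Nat.mul_le_mul_right _ (Nat.le_succ R))
  obtain ⟨z, hzK, φ, hφ, hlim⟩ := hK.tendsto_subseq hxK
  have hR : (0 : ℝ) < R + 1 := by positivity
  have hxfd : ∀ m, x m ∈ fdSpan π := fun m => (fdSpan π).smul_mem _ (hfd _)
  have hzfd : z ∈ fdSpan π :=
    (Submodule.isClosed_topologicalClosure _).mem_of_tendsto hlim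
      (Eventually.of_forall fun k => hxfd (φ k))
  have hzin : a / (R + 1) ≤ inner ℝ z w := by
    refine ge_of_tendsto (hlim.inner tendsto_const_nhds) (Eventually.of_forall fun k => ?_)
    change a / (R + 1) ≤ inner ℝ (x (φ k)) w
    rw [hx]
    simp only
    rw [real_inner_smul_left]
    have h1 := hpa (φ k + 1)
    have h2 : (0 : ℝ) < ((φ k + 1 : ℕ) : ℝ) := by positivity
    have h3 : (((R + 1) * (φ k + 1) : ℕ) : ℝ) = ((R : ℝ) + 1) * ((φ k + 1 : ℕ) : ℝ) := by
      push_cast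
      ring
    rw [h3, inv_mul_eq_div, div_le_div_iff₀ hR (mul_pos hR h2)]
    calc a * (((R : ℝ) + 1) * ((φ k + 1 : ℕ) : ℝ)) = (a * ((φ k + 1 : ℕ) : ℝ)) * (R + 1) := by ring
      _ ≤ _ := mul_le_mul_of_nonneg_right h1 hR.le
  set v : V := ((R : ℝ) + 1) • z with hv
  have hvfd : v ∈ fdSpan π := (fdSpan π).smul_mem _ hzfd
  have hsub : RelSub S c v R := by
    intro η hη n₀
    have h1 := Metric.tendsto_atTop.1 hlim (η / (R + 1)) (by positivity)
    obtain ⟨k₀, hk₀⟩ := h1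
    set k := max k₀ n₀ with hk
    have h2 := hk₀ k (le_max_left _ _)
    have h3 : n₀ ≤ φ k := (le_max_right k₀ n₀).trans (hφ.id_le k)
    refine ⟨φ k + 1, by omega, p (φ k + 1), ?_, ?_⟩
    · have h4 : (len S (p (φ k + 1)) : ℝ) ≤ R * ((φ k + 1 : ℕ) : ℝ) := by
        exact_mod_cast hpl (φ k + 1)
      have h5 : (0 : ℝ) ≤ η * ((φ k + 1 : ℕ) : ℝ) := by positivity
      nlinarith
    · have h6 : c (p (φ k + 1)) = (((R + 1) * (φ k + 1) : ℕ) : ℝ) • x (φ k) := by
        rw [hx]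
        simp only
        rw [smul_smul, mul_inv_cancel₀ (by positivity), one_smul]
      have h7 : c (p (φ k + 1)) - ((φ k + 1 : ℕ) : ℝ) • v =
          (((R + 1) * (φ k + 1) : ℕ) : ℝ) • (x (φ k) - z) := by
        have h10 : (((R + 1) * (φ k + 1) : ℕ) : ℝ) = ((φ k + 1 : ℕ) : ℝ) * ((R : ℝ) + 1) := by
          push_cast
          ring
        rw [h6, h10, smul_sub, mul_smul, mul_smul]
      rw [h7, norm_smul, Real.norm_of_nonneg (by positivity), ← dist_eq_norm]
      have h8 : dist (x (φ k)) z < η / (R + 1) := h2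
      have h9 : (((R + 1) * (φ k + 1) : ℕ) : ℝ) * dist (x (φ k)) z ≤
          (((R + 1) * (φ k + 1) : ℕ) : ℝ) * (η / (R + 1)) :=
        mul_le_mul_of_nonneg_left h8.le (by positivity)
      refine h9.trans (le_of_eq ?_)
      push_cast
      field_simp
  have hvB : v ∈ B := (hB v).2 ⟨TB_fdSpan π hvfd, R, by positivity,
    rel_of_relSub hS π c hc (TB_fdSpan π hvfd) (by positivity) hsub⟩
  have hvU : v ∈ U := Submodule.le_topologicalClosure _ hvB
  have h0 : inner ℝ v w = (0 : ℝ) :=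
    (Submodule.mem_orthogonal _ _).1 (hW'U hwW.1) v hvU
  rw [hv, real_inner_smul_left] at h0
  have h1 : 0 < a / (R + 1) := by positivity
  have h2 : 0 < ((R : ℝ) + 1) * inner ℝ z w := mul_pos hR (h1.trans_le hzin)
  linarith

end Rep

end Vale.Agent.P188.SG
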