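import Mathlib

/-!
P188, Theorem S: bounded digit expansions in powers of an integral matrix annihilated by a
polynomial with a dominant coefficient.
-/

namespace Vale.Agent.P188.SG

open Polynomial

/-- The value of a vector of polynomials. -/
noncomputable def digitsEv {d : ℕ} (A : Matrix (Fin d) (Fin d) ℤ) (p : Fin d → ℤ[X]) : Fin d → ℤ :=
  fun k => ∑ i, (aeval A (p i)) k i

theorem digitsEv_range {d : ℕ} (A : Matrix (Fin d) (Fin d) ℤ) (p : Fin d → ℤ[X]) {N : ℕ}
    (hN : ∀ i, (p i).natDegree < N) :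
    digitsEv A p = ∑ l ∈ Finset.range N, (A ^ l).mulVec fun i => (p i).coeff l := by
  funext k
  simp only [digitsEv, Finset.sum_apply, Matrix.mulVec, dotProduct]
  rw [Finset.sum_comm]
  refine Finset.sum_congr rfl fun i _ => ?_
  rw [aeval_eq_sum_range' (hN i), Matrix.sum_apply]
  refine Finset.sum_congr rfl fun l _ => ?_
  rw [Matrix.smul_apply, smul_eq_mul, mul_comm]

theorem digitsEv_mul {d : ℕ} (A M : Matrix (Fin d) (Fin d) ℤ) (p p' : Fin d → ℤ[X])
    (h : ∀ i, aeval A (p' i) = M * aeval A (p i)) : digitsEv A p' = M.mulVec (digitsEv A p) := by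
  funext k
  simp only [digitsEv, Matrix.mulVec, dotProduct, Finset.mul_sum]
  rw [Finset.sum_comm]
  refine Finset.sum_congr rfl fun i _ => ?_
  rw [h i, Matrix.mul_apply]

theorem digits_map (p : ℤ[X]) (f : ℤ → ℤ) (hf : f 0 = 0) :
    ∃ w : ℤ[X], ∀ l, w.coeff l = f (p.coeff l) := by
  refine ⟨∑ l ∈ Finset.range (p.natDegree + 1), C (f (p.coeff l)) * X ^ l, fun l => ?_⟩
  rw [finsetSum_coeff]
  simp only [coeff_C_mul_X_pow]
  rw [Finset.sum_ite_eq]
  split_ifs with h
  · rfl
  · rw [Finset.mem_range, not_lt] at h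
    rw [coeff_eq_zero_of_natDegree_lt (by omega), hf]

theorem digits_coeff_mul {e w : ℤ[X]} {c W : ℝ} (hW0 : 0 ≤ W)
    (hw : ∀ l, |((w.coeff l : ℤ) : ℝ)| ≤ W)
    (hc : ∀ m : ℕ, ∑ k ∈ Finset.range (m + 1), |((e.coeff k : ℤ) : ℝ)| ≤ c) (m : ℕ) :
    |(((e * w).coeff m : ℤ) : ℝ)| ≤ c * W := by
  rw [coeff_mul, Int.cast_sum]
  refine (Finset.abs_sum_le_sum_abs _ _).trans ?_
  calc ∑ x ∈ Finset.HasAntidiagonal.antidiagonal m, |((e.coeff x.1 * w.coeff x.2 : ℤ) : ℝ)|
      ≤ ∑ x ∈ Finset.HasAntidiagonal.antidiagonal m, |((e.coeff x.1 : ℤ) : ℝ)| * W := by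
        refine Finset.sum_le_sum fun x _ => ?_
        rw [Int.cast_mul, abs_mul]
        exact mul_le_mul_of_nonneg_left (hw _) (abs_nonneg _)
    _ = (∑ x ∈ Finset.HasAntidiagonal.antidiagonal m, |((e.coeff x.1 : ℤ) : ℝ)|) * W := by
        rw [Finset.sum_mul]
    _ = (∑ k ∈ Finset.range (m + 1), |((e.coeff k : ℤ) : ℝ)|) * W := by
        rw [Finset.Nat.sum_antidiagonal_eq_sum_range_succ_mk]
    _ ≤ c * W := mul_le_mul_of_nonneg_right (hc m) hW0

/-- One step of the reduction. -/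
theorem digits_step {d : ℕ} (A : Matrix (Fin d) (Fin d) ℤ)
    (q : ℤ[X]) (hq : aeval A q = 0) (j : ℕ)
    (hj : ∑ i ∈ q.support.erase j, |q.coeff i| < |q.coeff j|) {Q : ℝ} (hQ : Q = |(q.coeff j : ℝ)|)
    {L : ℕ} {K : ℝ} (v : Fin d → ℤ)
    (h : ∃ p : Fin d → ℤ[X], (∀ i, (p i).natDegree ≤ 2 * L) ∧
      (∀ i l, |(((p i).coeff l : ℤ) : ℝ)| ≤ K) ∧ (A ^ L).mulVec v = digitsEv A p) :
    ∃ p : Fin d → ℤ[X], (∀ i, (p i).natDegree ≤ 2 * (L + q.natDegree)) ∧
      (∀ i l, |(((p i).coeff l : ℤ) : ℝ)| ≤ 2 * Q + (1 - 1 / Q) * K) ∧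
      (A ^ (L + q.natDegree)).mulVec v = digitsEv A p := by
  obtain ⟨p, hp1, hp2, hp3⟩ := h
  have hqj : q.coeff j ≠ 0 := by
    intro hc
    rw [hc, abs_zero] at hj
    exact absurd (Finset.sum_nonneg fun i _ => abs_nonneg (q.coeff i)) (not_le.2 hj)
  have hjD : j ≤ q.natDegree := le_natDegree_of_ne_zero hqj
  have hQ1 : 1 ≤ Q := by
    rw [hQ]
    have h1 := Int.one_le_abs hqj
    exact_mod_cast h1
  have hQ0 : 0 < Q := by linarith
  -- the quotients
  choose w hw using fun i => digits_map (p i) (fun a => a / q.coeff j) (Int.zero_ediv _)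
  have hr : ∀ i l, |(((p i - C (q.coeff j) * w i).coeff l : ℤ) : ℝ)| ≤ Q := by
    intro i l
    rw [coeff_sub, coeff_C_mul, hw]
    have e1 : (p i).coeff l - q.coeff j * ((p i).coeff l / q.coeff j) =
        (p i).coeff l % q.coeff j := by
      have := Int.emod_add_mul_ediv ((p i).coeff l) (q.coeff j)
      linarith
    rw [e1, hQ]
    have e2 := Int.emod_nonneg ((p i).coeff l) hqj
    have e3 := Int.emod_lt_abs ((p i).coeff l) hqj
    rw [abs_of_nonneg (by exact_mod_cast e2)]
    exact_mod_cast e3.le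
  rcases isEmpty_or_nonempty (Fin d) with hd | hd
  · refine ⟨fun i => 0, fun i => (IsEmpty.false i).elim, fun i => (IsEmpty.false i).elim,
      funext fun i => (IsEmpty.false i).elim⟩
  have hK0 : 0 ≤ K := (abs_nonneg _).trans (hp2 (Classical.arbitrary _) 0)
  have hwb : ∀ i l, |(((w i).coeff l : ℤ) : ℝ)| ≤ K / Q + 1 := by
    intro i l
    have e1 := hr i l
    rw [coeff_sub, coeff_C_mul] at e1
    push_cast at e1
    have e2 : Q * |(((w i).coeff l : ℤ) : ℝ)| ≤ K + Q := by
      rw [hQ, ← abs_mul]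
      have e3 : (q.coeff j : ℝ) * ((w i).coeff l : ℝ) = ((p i).coeff l : ℝ) -
          (((p i).coeff l : ℝ) - (q.coeff j : ℝ) * ((w i).coeff l : ℝ)) := by ring
      rw [e3]
      refine (abs_sub _ _).trans (add_le_add (hp2 i l) ?_)
      rw [← hQ]
      exact e1
    rw [← sub_nonneg] at e2 ⊢
    have e4 : K / Q + 1 - |(((w i).coeff l : ℤ) : ℝ)| =
        (K + Q - Q * |(((w i).coeff l : ℤ) : ℝ)|) / Q := by
      field_simp
    rw [e4]
    positivity
  have hce : ∀ m : ℕ, ∑ k ∈ Finset.range (m + 1), |(((q.erase j).coeff k : ℤ) : ℝ)| ≤ Q - 1 := by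
    intro m
    have e1 : ∑ k ∈ Finset.range (m + 1), |(q.erase j).coeff k| ≤
        ∑ k ∈ q.support.erase j, |q.coeff k| := by
      calc ∑ k ∈ Finset.range (m + 1), |(q.erase j).coeff k|
          ≤ ∑ k ∈ Finset.range (m + 1) ∪ q.support.erase j, |(q.erase j).coeff k| :=
            Finset.sum_le_sum_of_subset_of_nonneg Finset.subset_union_left
              fun k _ _ => abs_nonneg _
        _ = ∑ k ∈ q.support.erase j, |(q.erase j).coeff k| := by
            refine (Finset.sum_subset Finset.subset_union_right fun k _ hk => ?_).symm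
            rw [coeff_erase, abs_eq_zero]
            split_ifs with h1
            · rfl
            · by_contra h2
              exact hk (Finset.mem_erase.2 ⟨h1, mem_support_iff.2 h2⟩)
        _ = ∑ k ∈ q.support.erase j, |q.coeff k| := by
            refine Finset.sum_congr rfl fun k hk => ?_
            rw [coeff_erase, if_neg (Finset.mem_erase.1 hk).1]
    have e2 : ∑ k ∈ Finset.range (m + 1), |(q.erase j).coeff k| + 1 ≤ |q.coeff j| := by omega
    have e3 : ((∑ k ∈ Finset.range (m + 1), |(q.erase j).coeff k| + 1 : ℤ) : ℝ) ≤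
        ((|q.coeff j| : ℤ) : ℝ) := by exact_mod_cast e2
    push_cast at e3
    rw [hQ]
    linarith
  refine ⟨fun i => X ^ q.natDegree * p i - X ^ (q.natDegree - j) * q * w i, fun i => ?_,
    fun i l => ?_, ?_⟩
  · have hwd : (w i).natDegree ≤ 2 * L := by
      rw [natDegree_le_iff_coeff_eq_zero]
      intro N hN
      rw [hw, coeff_eq_zero_of_natDegree_lt ((hp1 i).trans_lt hN), Int.zero_ediv]
    refine (natDegree_sub_le _ _).trans (max_le ?_ ?_)
    · refine natDegree_mul_le.trans ?_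
      rw [natDegree_X_pow]
      have := hp1 i
      omega
    · refine natDegree_mul_le.trans ((add_le_add natDegree_mul_le le_rfl).trans ?_)
      rw [natDegree_X_pow]
      omega
  · have e1 : X ^ q.natDegree * p i - X ^ (q.natDegree - j) * q * w i =
        X ^ q.natDegree * (p i - C (q.coeff j) * w i) -
          X ^ (q.natDegree - j) * (q.erase j * w i) := by
      have e2 : q = C (q.coeff j) * X ^ j + q.erase j := by
        rw [C_mul_X_pow_eq_monomial]
        exact (monomial_add_erase q j).symm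
      have e3 : (X : ℤ[X]) ^ q.natDegree = X ^ (q.natDegree - j) * X ^ j := by
        rw [← pow_add, Nat.sub_add_cancel hjD]
      have e4 : X ^ (q.natDegree - j) * q * w i = X ^ (q.natDegree - j) * (C (q.coeff j) * X ^ j +
          q.erase j) * w i := by
        rw [← e2]
      rw [e4, e3]
      ring
    have e5 : |((((X : ℤ[X]) ^ q.natDegree * (p i - C (q.coeff j) * w i)).coeff l : ℤ) : ℝ)| ≤
        Q := by
      rw [coeff_X_pow_mul']
      split_ifs
      · exact hr i _
      · simpa using hQ0.le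
    have e6 : |((((X : ℤ[X]) ^ (q.natDegree - j) * (q.erase j * w i)).coeff l : ℤ) : ℝ)| ≤
        (Q - 1) * (K / Q + 1) := by
      rw [coeff_X_pow_mul']
      split_ifs
      · exact digits_coeff_mul (by positivity) (hwb i) hce _
      · have : 0 ≤ (Q - 1) * (K / Q + 1) := mul_nonneg (by linarith) (by positivity)
        simpa using this
    simp only [e1]
    rw [coeff_sub, Int.cast_sub]
    refine (abs_sub _ _).trans ((add_le_add e5 e6).trans ?_)
    have e7 : (Q - 1) * (K / Q + 1) = (1 - 1 / Q) * K + (Q - 1) := by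
      field_simp
    rw [e7]
    linarith
  · rw [digitsEv_mul A (A ^ q.natDegree) p, ← hp3, Matrix.mulVec_mulVec, ← pow_add, add_comm]
    intro i
    rw [map_sub, map_mul, map_mul, map_mul, hq, mul_zero, zero_mul, sub_zero, map_pow, aeval_X]

/-- bounded digit expansions in powers of an integral matrix annihilated by a polynomial with a
dominant coefficient -/
theorem digits {d : ℕ} (A B : Matrix (Fin d) (Fin d) ℤ) (hAB : A * B = 1) (hBA : B * A = 1)
    (q : Polynomial ℤ) (hq : Polynomial.aeval A q = 0) (j : ℕ)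
    (hj : ∑ i ∈ q.support.erase j, |q.coeff i| < |q.coeff j|) :
    ∃ C : ℕ, ∀ (n : ℕ) (v : Fin d → ℤ), (∀ i, |v i| ≤ 2 ^ n) →
      ∃ (L : ℕ) (c : ℕ → Fin d → ℤ), L ≤ C * (n + 1) ∧ (∀ l i, |c l i| ≤ C) ∧
        v = (B ^ L).mulVec (∑ l ∈ Finset.range (2 * L + 1), (A ^ l).mulVec (c l)) := by
  have hqj : q.coeff j ≠ 0 := by
    intro hc
    rw [hc, abs_zero] at hj
    exact absurd (Finset.sum_nonneg fun i _ => abs_nonneg (q.coeff i)) (not_le.2 hj)
  obtain ⟨Q, hQ⟩ : ∃ Q : ℝ, Q = |(q.coeff j : ℝ)| := ⟨_, rfl⟩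
  have hQ1 : 1 ≤ Q := by
    rw [hQ]
    have h1 := Int.one_le_abs hqj
    exact_mod_cast h1
  have hθ0 : 0 ≤ 1 - 1 / Q := by
    rw [sub_nonneg, div_le_one (by linarith)]
    exact hQ1
  have hθ1 : 1 - 1 / Q < 1 := by
    have : 0 < 1 / Q := by positivity
    linarith
  obtain ⟨m, hm⟩ := exists_pow_lt_of_lt_one (by norm_num : (0 : ℝ) < 1 / 2) hθ1
  obtain ⟨R, hR⟩ := exists_nat_ge (2 * Q ^ 2 + 1)
  refine ⟨m * q.natDegree + R, fun n v hv => ?_⟩
  have key : ∀ t : ℕ, ∃ p : Fin d → ℤ[X], (∀ i, (p i).natDegree ≤ 2 * (t * q.natDegree)) ∧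
      (∀ i l, |(((p i).coeff l : ℤ) : ℝ)| ≤ 2 * Q ^ 2 + (1 - 1 / Q) ^ t * 2 ^ n) ∧
      (A ^ (t * q.natDegree)).mulVec v = digitsEv A p := by
    intro t
    induction t with
    | zero =>
      refine ⟨fun i => C (v i), fun i => ?_, fun i l => ?_, ?_⟩
      · rw [natDegree_C]
        exact Nat.zero_le _
      · rw [coeff_C]
        have h1 : |((v i : ℤ) : ℝ)| ≤ 2 ^ n := by exact_mod_cast hv i
        have h2 : (0 : ℝ) ≤ 2 ^ n := by positivity
        have h3 : (0 : ℝ) ≤ 2 * Q ^ 2 := by positivity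
        rw [pow_zero, one_mul]
        split_ifs
        · linarith
        · rw [Int.cast_zero, abs_zero]
          linarith
      · rw [digitsEv_range A (fun i => C (v i)) (N := 1) (fun i => by
          rw [natDegree_C]
          exact one_pos)]
        rw [Finset.sum_range_one, zero_mul, pow_zero]
        simp only [coeff_C_zero]
    | succ t ih =>
      obtain ⟨p, h1, h2, h3⟩ := digits_step A q hq j hj hQ v ih
      have e1 : (t + 1) * q.natDegree = t * q.natDegree + q.natDegree := by ring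
      rw [e1]
      refine ⟨p, h1, fun i l => (h2 i l).trans (le_of_eq ?_), h3⟩
      have e2 : (1 - 1 / Q) * (2 * Q ^ 2) = 2 * Q ^ 2 - 2 * Q := by
        field_simp
      rw [mul_add, e2, pow_succ]
      ring
  obtain ⟨p, h1, h2, h3⟩ := key (m * n)
  refine ⟨m * n * q.natDegree, fun l i => (p i).coeff l, ?_, fun l i => ?_, ?_⟩
  · calc m * n * q.natDegree = m * q.natDegree * n := by ring
      _ ≤ (m * q.natDegree + R) * (n + 1) := by
        gcongr
        · omega
        · omega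
  · have e1 := h2 i l
    have e2 : (1 - 1 / Q) ^ (m * n) * 2 ^ n ≤ 1 := by
      rw [pow_mul, ← mul_pow]
      refine pow_le_one₀ (by positivity) ?_
      linarith
    have e3 : |(((p i).coeff l : ℤ) : ℝ)| ≤ ((m * q.natDegree + R : ℕ) : ℝ) := by
      push_cast
      have : (0 : ℝ) ≤ m * q.natDegree := by positivity
      linarith
    exact_mod_cast e3
  · have e1 := digitsEv_range A p (N := 2 * (m * n * q.natDegree) + 1)
      (fun i => Nat.lt_succ_of_le (h1 i))
    have e2 : Commute B A := hBA.trans hAB.symm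
    rw [← e1, ← h3, Matrix.mulVec_mulVec, ← e2.mul_pow, hBA, one_pow, Matrix.one_mulVec]

end Vale.Agent.P188.SG
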