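import Mathlib

/-!
P188, Theorem S, the concrete family: a hyperbolic integral matrix has a power annihilated by an
integral polynomial with a dominant coefficient.
-/

open Filter Topology

namespace Vale.Agent.P188.SG

open Polynomial in
theorem Dominant_roots {d : ℕ} (A : Matrix (Fin d) (Fin d) ℂ) :
    ∃ a : Fin d → ℂ, A.charpoly = ∏ i, (X - C (a i)) := by
  have hm : A.charpoly.Monic := A.charpoly_monic
  have hs : A.charpoly.Splits := IsAlgClosed.splits _
  have h1 := hs.eq_prod_roots_of_monic hm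
  have hcard : A.charpoly.roots.card = d := by
    rw [splits_iff_card_roots.mp hs, Matrix.charpoly_natDegree_eq_dim, Fintype.card_fin]
  obtain ⟨l, hl⟩ := Quotient.exists_rep A.charpoly.roots
  rw [← hl] at h1 hcard
  change (l : Multiset ℂ).card = d at hcard
  rw [Multiset.coe_card] at hcard
  subst hcard
  refine ⟨fun i => l[i.1], ?_⟩
  rw [h1]
  change (Multiset.map (fun a => X - C a) (l : Multiset ℂ)).prod = _
  rw [Multiset.map_coe, Multiset.prod_coe, ← Fin.prod_univ_getElem]
  refine Fintype.prod_equiv (finCongr (by simp)) _ _ fun i => ?_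
  simp

open Polynomial in
theorem Dominant_sq {d : ℕ} (A : Matrix (Fin d) (Fin d) ℂ) (a : Fin d → ℂ)
    (h : A.charpoly = ∏ i, (X - C (a i))) :
    (A ^ 2).charpoly = ∏ i, (X - C (a i ^ 2)) := by
  have hev : ∀ z : ℂ, (Matrix.scalar (Fin d) z - A).det = ∏ i, (z - a i) := by
    intro z
    rw [← Matrix.eval_charpoly, h, eval_prod]
    simp
  refine Polynomial.funext fun w => ?_
  obtain ⟨z, hz⟩ := IsAlgClosed.exists_pow_nat_eq w (n := 2) (by norm_num)
  rw [Matrix.eval_charpoly, eval_prod, ← hz]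
  have h1 : Matrix.scalar (Fin d) (z ^ 2) - A ^ 2 =
      (Matrix.scalar (Fin d) z - A) * -(Matrix.scalar (Fin d) (-z) - A) := by
    rw [map_neg, map_pow]
    have hc : Matrix.scalar (Fin d) z * A = A * Matrix.scalar (Fin d) z :=
      (Matrix.scalar_commute z (fun r => mul_comm _ _) A).eq
    rw [pow_two, pow_two, mul_neg, sub_mul, mul_sub, mul_sub, mul_neg, mul_neg, hc]
    abel
  rw [h1, Matrix.det_mul, Matrix.det_neg, hev, hev, Fintype.card_fin]
  have h2 : ∏ i, (-z - a i) = (-1) ^ d * ∏ i, (z + a i) := by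
    rw [show (-1 : ℂ) ^ d = ∏ _i : Fin d, (-1 : ℂ) by simp, ← Finset.prod_mul_distrib]
    exact Finset.prod_congr rfl fun i _ => by ring
  rw [h2, ← mul_assoc ((-1 : ℂ) ^ d), ← mul_pow]
  norm_num
  rw [← Finset.prod_mul_distrib]
  exact Finset.prod_congr rfl fun i _ => by ring

open Polynomial in
theorem Dominant_pow {d : ℕ} (A : Matrix (Fin d) (Fin d) ℂ) (a : Fin d → ℂ)
    (h : A.charpoly = ∏ i, (X - C (a i))) (m : ℕ) :
    (A ^ (2 ^ m)).charpoly = ∏ i, (X - C (a i ^ (2 ^ m))) := by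
  induction m with
  | zero => simpa using h
  | succ m ih =>
    have := Dominant_sq _ _ ih
    rw [← pow_mul] at this
    rw [pow_succ, this]
    exact Finset.prod_congr rfl fun i _ => by rw [pow_mul]

open Polynomial in
theorem Dominant_tendsto {ι : Type*} (s : Finset ι) (f : ι → ℕ → Polynomial ℂ)
    (g : ι → Polynomial ℂ)
    (h : ∀ i ∈ s, ∀ k, Tendsto (fun n => (f i n).coeff k) atTop (𝓝 ((g i).coeff k))) (k : ℕ) :
    Tendsto (fun n => (∏ i ∈ s, f i n).coeff k) atTop (𝓝 ((∏ i ∈ s, g i).coeff k)) := by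
  classical
  induction s using Finset.induction_on generalizing k with
  | empty => simp
  | insert a s ha ih =>
    have ih' := ih (fun i hi => h i (Finset.mem_insert_of_mem hi))
    simp only [Finset.prod_insert ha, coeff_mul]
    exact tendsto_finsetSum _ fun x _ => (h a (Finset.mem_insert_self _ _) x.1).mul (ih' x.2)

open Polynomial in
/-- the two kinds of factors -/
theorem Dominant_factor (z : ℂ) (hz : ‖z‖ ≠ 1) (k : ℕ) :
    Tendsto (fun n : ℕ => (if 1 < ‖z‖ then 1 - C ((z ^ (2 ^ n))⁻¹) * X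
      else X - C (z ^ (2 ^ n)) : Polynomial ℂ).coeff k) atTop
      (𝓝 ((if 1 < ‖z‖ then 1 else X : Polynomial ℂ).coeff k)) := by
  have hpow : Tendsto (fun n : ℕ => 2 ^ n) atTop atTop :=
    tendsto_pow_atTop_atTop_of_one_lt (by norm_num)
  by_cases h : 1 < ‖z‖
  · simp only [if_pos h, coeff_sub, coeff_C_mul]
    have h1 : Tendsto (fun n : ℕ => (z ^ (2 ^ n))⁻¹) atTop (𝓝 0) := by
      have h2 : ‖z⁻¹‖ < 1 := by
        rw [norm_inv]
        exact inv_lt_one_of_one_lt₀ h
      have h3 := (tendsto_pow_atTop_nhds_zero_of_norm_lt_one h2).comp hpow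
      refine h3.congr fun n => ?_
      simp
    have h4 := (tendsto_const_nhds (x := (1 : Polynomial ℂ).coeff k)).sub
      (h1.mul_const ((X : Polynomial ℂ).coeff k))
    simpa using h4
  · simp only [if_neg h, coeff_sub, coeff_C]
    have h1 : Tendsto (fun n : ℕ => z ^ (2 ^ n)) atTop (𝓝 0) :=
      (tendsto_pow_atTop_nhds_zero_of_norm_lt_one (lt_of_le_of_ne (not_lt.mp h) hz)).comp hpow
    have h2 : Tendsto (fun n : ℕ => if k = 0 then z ^ (2 ^ n) else 0) atTop (𝓝 0) := by
      by_cases hk : k = 0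
      · simpa [hk] using h1
      · simp [hk]
    have h4 := (tendsto_const_nhds (x := (X : Polynomial ℂ).coeff k)).sub h2
    simpa using h4

open Polynomial in
/-- a hyperbolic integral matrix has a power annihilated by an integral polynomial with a dominant
coefficient -/
theorem exists_dominant {d : ℕ} (M : Matrix (Fin d) (Fin d) ℤ)
    (hyp : ∀ μ : ℂ, (M.map (Int.castRingHom ℂ)).charpoly.IsRoot μ → ‖μ‖ ≠ 1) :
    ∃ n : ℕ, 0 < n ∧ ∃ (q : Polynomial ℤ) (j : ℕ), Polynomial.aeval (M ^ n) q = 0 ∧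
      ∑ i ∈ q.support.erase j, |q.coeff i| < |q.coeff j| := by
  classical
  obtain ⟨a, ha⟩ := Dominant_roots (M.map (Int.castRingHom ℂ))
  have ha1 : ∀ i, ‖a i‖ ≠ 1 := by
    intro i
    apply hyp
    rw [IsRoot.def, ha, eval_prod]
    exact Finset.prod_eq_zero (Finset.mem_univ i) (by simp)
  set f : Fin d → ℕ → Polynomial ℂ := fun i n => if 1 < ‖a i‖ then 1 - C ((a i ^ (2 ^ n))⁻¹) * X
    else X - C (a i ^ (2 ^ n)) with hf
  set g : Fin d → Polynomial ℂ := fun i => if 1 < ‖a i‖ then 1 else X with hg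
  have hlim := Dominant_tendsto Finset.univ f g (fun i _ k => Dominant_factor (a i) (ha1 i) k)
  set s : ℕ := (Finset.univ.filter fun i => ¬ 1 < ‖a i‖).card with hs
  have hgs : ∏ i, g i = X ^ s := by
    rw [hg, Finset.prod_ite]
    simp [hs]
  rw [hgs] at hlim
  -- domination of the coefficient `s`
  have hT1 : Tendsto (fun n => ∑ k ∈ (Finset.range (d + 1)).erase s, ‖(∏ i, f i n).coeff k‖) atTop
      (𝓝 0) := by
    have h1 : Tendsto (fun n => ∑ k ∈ (Finset.range (d + 1)).erase s, ‖(∏ i, f i n).coeff k‖) atTop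
        (𝓝 (∑ k ∈ (Finset.range (d + 1)).erase s, ‖((X : Polynomial ℂ) ^ s).coeff k‖)) :=
      tendsto_finsetSum _ fun k _ => (hlim k).norm
    have h2 : ∑ k ∈ (Finset.range (d + 1)).erase s, ‖((X : Polynomial ℂ) ^ s).coeff k‖ = 0 := by
      refine Finset.sum_eq_zero fun k hk => ?_
      rw [coeff_X_pow, if_neg (Finset.ne_of_mem_erase hk), norm_zero]
    rwa [h2] at h1
  have hT2 : Tendsto (fun n => ‖(∏ i, f i n).coeff s‖) atTop (𝓝 1) := by
    have h1 := (hlim s).norm
    rwa [coeff_X_pow, if_pos rfl, norm_one] at h1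
  obtain ⟨n, hn⟩ := (hT1.eventually_lt hT2 (by norm_num)).exists
  refine ⟨2 ^ n, by positivity, (M ^ (2 ^ n)).charpoly, s, Matrix.aeval_self_charpoly _, ?_⟩
  -- comparison of the characteristic polynomial with the product of the `f i n`
  set q := (M ^ (2 ^ n)).charpoly with hq
  set c : ℂ := ∏ i, (if 1 < ‖a i‖ then -(a i ^ (2 ^ n)) else 1) with hc
  have hc0 : c ≠ 0 := by
    rw [hc, Finset.prod_ne_zero_iff]
    intro i _
    split_ifs with h
    · have h1 : a i ≠ 0 := by
        intro h0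
        rw [h0, norm_zero] at h
        linarith
      exact neg_ne_zero.mpr (pow_ne_zero _ h1)
    · exact one_ne_zero
  have hqC : q.map (Int.castRingHom ℂ) = C c * ∏ i, f i n := by
    have h1 : q.map (Int.castRingHom ℂ) = ((M.map (Int.castRingHom ℂ)) ^ (2 ^ n)).charpoly := by
      rw [hq, ← Matrix.charpoly_map, Matrix.map_pow]
    rw [h1, Dominant_pow _ _ ha, hc, map_prod, ← Finset.prod_mul_distrib]
    refine Finset.prod_congr rfl fun i _ => ?_
    simp only [hf]
    split_ifs with h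
    · have h1 : a i ^ (2 ^ n) ≠ 0 := by
        apply pow_ne_zero
        intro h0
        rw [h0, norm_zero] at h
        linarith
      rw [mul_sub, ← mul_assoc, ← C_mul, neg_mul, mul_inv_cancel₀ h1]
      simp
      ring
    · simp
  have hcoef : ∀ k, ((|q.coeff k| : ℤ) : ℝ) = ‖c‖ * ‖(∏ i, f i n).coeff k‖ := by
    intro k
    rw [← norm_mul, ← coeff_C_mul, ← hqC, coeff_map]
    simp [Complex.norm_intCast]
  have hcn : 0 < ‖c‖ := norm_pos_iff.mpr hc0
  have hsub : q.support.erase s ⊆ (Finset.range (d + 1)).erase s := by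
    refine Finset.erase_subset_erase _ fun k hk => ?_
    rw [Finset.mem_range, Nat.lt_succ_iff]
    have h1 := le_natDegree_of_mem_supp k hk
    rwa [hq, Matrix.charpoly_natDegree_eq_dim, Fintype.card_fin] at h1
  have hfin : ((∑ i ∈ q.support.erase s, |q.coeff i| : ℤ) : ℝ) < ((|q.coeff s| : ℤ) : ℝ) := by
    rw [hcoef, Int.cast_sum]
    calc ∑ i ∈ q.support.erase s, ((|q.coeff i| : ℤ) : ℝ)
        ≤ ∑ i ∈ (Finset.range (d + 1)).erase s, ((|q.coeff i| : ℤ) : ℝ) :=
          Finset.sum_le_sum_of_subset_of_nonneg hsub fun i _ _ => by positivity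
      _ = ‖c‖ * ∑ i ∈ (Finset.range (d + 1)).erase s, ‖(∏ i, f i n).coeff i‖ := by
          rw [Finset.mul_sum]
          exact Finset.sum_congr rfl fun i _ => hcoef i
      _ < ‖c‖ * ‖(∏ i, f i n).coeff s‖ := mul_lt_mul_of_pos_left hn hcn
  exact_mod_cast hfin

end Vale.Agent.P188.SG
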