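import Vale.Agent.P188.SG.Walk
import Vale.Agent.P188.SG.Trace

/-!
P188, Theorem S: weak mixing of the random walk on vectors orthogonal to the finite-dimensional
invariant subspaces.
-/

universe u v w

open Filter Topology

namespace Vale.Agent.P188.SG

/-- bounded real sequences converge along ultrafilters -/
theorem weakMix_lim (U : Ultrafilter ℕ) (x : ℕ → ℝ) (M : ℝ) (h : ∀ n, |x n| ≤ M) :
    ∃ l, Tendsto x U (𝓝 l) := by
  have hc : IsCompact (Set.Icc (-M) M) := isCompact_Icc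
  obtain ⟨l, -, hl⟩ := hc.ultrafilter_le_nhds (U.map x) (by
    rw [le_principal_iff, Ultrafilter.coe_map, mem_map]
    exact Filter.univ_mem' (fun n => abs_le.mp (h n)))
  exact ⟨l, hl⟩

/-- the bounded operator of a bounded bilinear form -/
theorem weakMix_op {V : Type v} [NormedAddCommGroup V] [InnerProductSpace ℝ V] [CompleteSpace V]
    (B : V → V → ℝ) (h1 : ∀ x y z, B (x + y) z = B x z + B y z)
    (h2 : ∀ (a : ℝ) x z, B (a • x) z = a * B x z)
    (h3 : ∀ x y z, B x (y + z) = B x y + B x z)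
    (h4 : ∀ (a : ℝ) x z, B x (a • z) = a * B x z)
    (C : ℝ) (hC : 0 ≤ C) (h5 : ∀ x y, |B x y| ≤ C * ‖x‖ * ‖y‖) :
    ∃ T : V →L[ℝ] V, ∀ x y, inner ℝ (T x) y = B x y := by
  have hφ : ∀ x : V, ∃ φ : V →L[ℝ] ℝ, ∀ y, φ y = B x y := by
    intro x
    refine ⟨LinearMap.mkContinuous
      { toFun := B x
        map_add' := h3 x
        map_smul' := fun a z => by simpa using h4 a x z } (C * ‖x‖) (fun y => ?_), fun y => rfl⟩
    simpa using h5 x y
  choose φ hφ using hφ
  have hin : ∀ x y, inner ℝ ((InnerProductSpace.toDual ℝ V).symm (φ x)) y = B x y := by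
    intro x y
    rw [InnerProductSpace.toDual_symm_apply, hφ]
  have hnorm : ∀ x, ‖(InnerProductSpace.toDual ℝ V).symm (φ x)‖ ≤ C * ‖x‖ := by
    intro x
    rw [LinearIsometryEquiv.norm_map]
    refine ContinuousLinearMap.opNorm_le_bound _ (by positivity) (fun y => ?_)
    rw [hφ, Real.norm_eq_abs]
    exact h5 x y
  refine ⟨LinearMap.mkContinuous
    { toFun := fun x => (InnerProductSpace.toDual ℝ V).symm (φ x)
      map_add' := fun x y => ?_
      map_smul' := fun a x => ?_ } C hnorm, fun x y => hin x y⟩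
  · refine ext_inner_right ℝ (fun z => ?_)
    rw [inner_add_left, hin, hin, hin, h1]
  · refine ext_inner_right ℝ (fun z => ?_)
    rw [hin, h2, RingHom.id_apply, real_inner_smul_left, hin]

section Rep

variable {H : Type u} [Group H] {S : Finset H}
variable {V : Type v} [NormedAddCommGroup V] [InnerProductSpace ℝ V]

/-- the averaged form `B_n` -/
noncomputable def weakMixB (S : Finset H) (π : H →* (V ≃ₗᵢ[ℝ] V)) (u : V) (n : ℕ) (x y : V) : ℝ :=
  (n : ℝ)⁻¹ * ∑ j ∈ Finset.range n, Ex S j (fun g => inner ℝ (π g u) x * inner ℝ (π g u) y)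

theorem weakMixB_comm (π : H →* (V ≃ₗᵢ[ℝ] V)) (u : V) (n : ℕ) (x y : V) :
    weakMixB S π u n x y = weakMixB S π u n y x := by
  unfold weakMixB
  simp only [mul_comm (inner ℝ (π _ u) x)]

theorem weakMixB_add (π : H →* (V ≃ₗᵢ[ℝ] V)) (u : V) (n : ℕ) (x y z : V) :
    weakMixB S π u n (x + y) z = weakMixB S π u n x z + weakMixB S π u n y z := by
  unfold weakMixB
  rw [← mul_add, ← Finset.sum_add_distrib]
  congr 1
  refine Finset.sum_congr rfl (fun j _ => ?_)
  rw [← Ex_add]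
  congr 1
  funext g
  rw [inner_add_right]
  ring

theorem weakMixB_smul (π : H →* (V ≃ₗᵢ[ℝ] V)) (u : V) (n : ℕ) (a : ℝ) (x z : V) :
    weakMixB S π u n (a • x) z = a * weakMixB S π u n x z := by
  unfold weakMixB
  rw [mul_left_comm a]
  congr 1
  rw [Finset.mul_sum]
  refine Finset.sum_congr rfl (fun j _ => ?_)
  rw [← Ex_smul]
  congr 1
  funext g
  rw [real_inner_smul_right]
  ring

/-- averages of bounded quantities are bounded -/
theorem weakMix_avg_le (n : ℕ) (f : ℕ → ℝ) (M : ℝ) (hM : 0 ≤ M) (h : ∀ j, f j ≤ M) :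
    (n : ℝ)⁻¹ * ∑ j ∈ Finset.range n, f j ≤ M := by
  have h1 : ∑ j ∈ Finset.range n, f j ≤ n * M := by
    have := Finset.sum_le_card_nsmul (Finset.range n) f M (fun j _ => h j)
    simpa using this
  rcases Nat.eq_zero_or_pos n with rfl | hn
  · simpa using hM
  · have hn' : (0 : ℝ) < n := by exact_mod_cast hn
    calc (n : ℝ)⁻¹ * ∑ j ∈ Finset.range n, f j ≤ (n : ℝ)⁻¹ * (n * M) :=
          mul_le_mul_of_nonneg_left h1 (by positivity)
      _ = M := by field_simp

theorem weakMixB_abs (hS : S.Nonempty) (π : H →* (V ≃ₗᵢ[ℝ] V)) (u : V) (n : ℕ) (x y : V) :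
    |weakMixB S π u n x y| ≤ ‖u‖ ^ 2 * ‖x‖ * ‖y‖ := by
  have hb : ∀ j, |Ex S j (fun g => inner ℝ (π g u) x * inner ℝ (π g u) y)| ≤
      ‖u‖ ^ 2 * ‖x‖ * ‖y‖ := by
    intro j
    refine Ex_abs_le hS j (fun g => ?_)
    rw [abs_mul]
    have h1 := abs_real_inner_le_norm (π g u) x
    have h2 := abs_real_inner_le_norm (π g u) y
    rw [LinearIsometryEquiv.norm_map] at h1 h2
    calc |inner ℝ (π g u) x| * |inner ℝ (π g u) y| ≤ (‖u‖ * ‖x‖) * (‖u‖ * ‖y‖) :=
          mul_le_mul h1 h2 (abs_nonneg _) (by positivity)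
      _ = ‖u‖ ^ 2 * ‖x‖ * ‖y‖ := by ring
  unfold weakMixB
  rw [abs_le]
  constructor
  · have := weakMix_avg_le n (fun j => -Ex S j (fun g => inner ℝ (π g u) x * inner ℝ (π g u) y))
      (‖u‖ ^ 2 * ‖x‖ * ‖y‖) (by positivity) (fun j => by
        have := neg_abs_le (Ex S j (fun g => inner ℝ (π g u) x * inner ℝ (π g u) y))
        have := hb j
        linarith)
    rw [Finset.sum_neg_distrib, mul_neg] at this
    linarith
  · exact weakMix_avg_le n _ _ (by positivity) (fun j => (le_abs_self _).trans (hb j))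

theorem weakMixB_nonneg (π : H →* (V ≃ₗᵢ[ℝ] V)) (u : V) (n : ℕ) (x : V) :
    0 ≤ weakMixB S π u n x x := by
  unfold weakMixB
  refine mul_nonneg (by positivity) (Finset.sum_nonneg (fun j _ => ?_))
  exact Ex_nonneg j (fun g => mul_self_nonneg _)

theorem weakMixB_trace (hS : S.Nonempty) (π : H →* (V ≃ₗᵢ[ℝ] V)) (u : V) (n : ℕ) (m : ℕ)
    (e : Fin m → V) (he : Orthonormal ℝ e) :
    ∑ i, weakMixB S π u n (e i) (e i) ≤ ‖u‖ ^ 2 := by
  unfold weakMixB
  rw [← Finset.mul_sum, Finset.sum_comm]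
  refine weakMix_avg_le n _ _ (by positivity) (fun j => ?_)
  rw [← Ex_sum]
  rw [← Ex_const (S := S) hS j (‖u‖ ^ 2)]
  refine Ex_mono j (fun g => ?_)
  have h1 := Orthonormal.sum_inner_products_le (π g u) he (s := Finset.univ)
  rw [LinearIsometryEquiv.norm_map] at h1
  refine le_trans (le_of_eq ?_) h1
  refine Finset.sum_congr rfl (fun i _ => ?_)
  rw [Real.norm_eq_abs, sq_abs, real_inner_comm (e i) (π g u)]
  ring

/-- stationarity -/
theorem weakMixB_stat (hS : S.Nonempty) (π : H →* (V ≃ₗᵢ[ℝ] V)) (u : V) (x : V) :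
    Tendsto (fun n => (S.card : ℝ)⁻¹ * ∑ s ∈ S,
      weakMixB S π u n ((π s)⁻¹ x) ((π s)⁻¹ x) - weakMixB S π u n x x) atTop (𝓝 0) := by
  set φ : H → ℝ := fun g => inner ℝ (π g u) x * inner ℝ (π g u) x with hφ
  have hb : ∀ g, |φ g| ≤ (‖u‖ * ‖x‖) ^ 2 := by
    intro g
    have h1 := abs_real_inner_le_norm (π g u) x
    rw [LinearIsometryEquiv.norm_map] at h1
    rw [hφ]
    simp only [abs_mul]
    rw [sq]
    exact mul_le_mul h1 h1 (abs_nonneg _) (by positivity)
  have hkey : ∀ n, (S.card : ℝ)⁻¹ * ∑ s ∈ S,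
      weakMixB S π u n ((π s)⁻¹ x) ((π s)⁻¹ x) - weakMixB S π u n x x =
      (n : ℝ)⁻¹ * (Ex S n φ - Ex S 0 φ) := by
    intro n
    have e1 : ∀ s ∈ S, weakMixB S π u n ((π s)⁻¹ x) ((π s)⁻¹ x) =
        (n : ℝ)⁻¹ * ∑ j ∈ Finset.range n, Ex S j (fun g => φ (s * g)) := by
      intro s _
      unfold weakMixB
      congr 1
      refine Finset.sum_congr rfl (fun j _ => ?_)
      congr 1
      funext g
      have e2 : inner ℝ (π g u) ((π s)⁻¹ x) = inner ℝ (π (s * g) u) x := by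
        rw [← LinearIsometryEquiv.inner_map_map (π s) (π g u) ((π s)⁻¹ x), map_mul]
        congr 1
        show (π s * (π s)⁻¹) x = x
        rw [mul_inv_cancel]
        rfl
      rw [hφ]
      simp only [e2]
    rw [Finset.sum_congr rfl e1, ← Finset.mul_sum, Finset.sum_comm, mul_left_comm,
      Finset.mul_sum (Finset.range n)]
    have e3 : ∑ j ∈ Finset.range n, (S.card : ℝ)⁻¹ * ∑ s ∈ S, Ex S j (fun g => φ (s * g)) =
        ∑ j ∈ Finset.range n, Ex S (j + 1) φ :=
      Finset.sum_congr rfl (fun j _ => (Ex_succ' j φ).symm)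
    rw [e3]
    have e4 : weakMixB S π u n x x = (n : ℝ)⁻¹ * ∑ j ∈ Finset.range n, Ex S j φ := rfl
    rw [e4, ← mul_sub, ← Finset.sum_sub_distrib, Finset.sum_range_sub (fun j => Ex S j φ)]
  simp only [hkey]
  refine squeeze_zero_norm (a := fun n : ℕ => (n : ℝ)⁻¹ * (2 * (‖u‖ * ‖x‖) ^ 2)) (fun n => ?_) ?_
  · rw [norm_mul, Real.norm_eq_abs, Real.norm_eq_abs, abs_of_nonneg (by positivity)]
    refine mul_le_mul_of_nonneg_left ?_ (by positivity)
    have h1 := Ex_abs_le hS n hb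
    have h2 := Ex_abs_le hS 0 hb
    have h3 := abs_sub (Ex S n φ) (Ex S 0 φ)
    linarith
  · have := (tendsto_inv_atTop_nhds_zero_nat (𝕜 := ℝ)).mul_const (2 * (‖u‖ * ‖x‖) ^ 2)
    simpa using this

variable [CompleteSpace V]

theorem weak_mixing (hS : SymGen S) (π : H →* (V ≃ₗᵢ[ℝ] V)) (u v : V) (hu : FDOrth π u) :
    Tendsto (fun n : ℕ => (n : ℝ)⁻¹ *
      ∑ j ∈ Finset.range n, Ex S j (fun g => (inner ℝ (π g u) v) ^ 2)) atTop (𝓝 0) := by
  have hrw : (fun n : ℕ => (n : ℝ)⁻¹ *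
      ∑ j ∈ Finset.range n, Ex S j (fun g => (inner ℝ (π g u) v) ^ 2)) =
      fun n => weakMixB S π u n v v := by
    funext n
    simp only [weakMixB, sq]
  rw [hrw]
  by_contra hcon
  rw [Metric.tendsto_nhds] at hcon
  push Not at hcon
  obtain ⟨ε, hε, hfr⟩ := hcon
  rw [frequently_iff_neBot] at hfr
  set U : Ultrafilter ℕ := Ultrafilter.of (atTop ⊓ 𝓟 {n | ε ≤ dist (weakMixB S π u n v v) 0}) with hU
  have hUle : (U : Filter ℕ) ≤ atTop ⊓ 𝓟 {n | ε ≤ dist (weakMixB S π u n v v) 0} :=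
    Ultrafilter.of_le _
  have hUtop : (U : Filter ℕ) ≤ atTop := hUle.trans inf_le_left
  have hUε : ∀ᶠ n in (U : Filter ℕ), ε ≤ weakMixB S π u n v v := by
    have : ∀ᶠ n in (U : Filter ℕ), ε ≤ dist (weakMixB S π u n v v) 0 :=
      hUle.trans inf_le_right (mem_principal_self _)
    filter_upwards [this] with n hn
    rwa [Real.dist_eq, sub_zero, abs_of_nonneg (weakMixB_nonneg π u n v)] at hn
  have hlim : ∀ x y : V, ∃ l, Tendsto (fun n => weakMixB S π u n x y) U (𝓝 l) := fun x y =>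
    weakMix_lim U _ _ (fun n => weakMixB_abs hS.ne π u n x y)
  choose B hB using hlim
  have hadd : ∀ x y z, B (x + y) z = B x z + B y z := fun x y z => by
    refine tendsto_nhds_unique (hB (x + y) z) ?_
    simp only [weakMixB_add]
    exact (hB x z).add (hB y z)
  have hsmul : ∀ (a : ℝ) x z, B (a • x) z = a * B x z := fun a x z => by
    refine tendsto_nhds_unique (hB (a • x) z) ?_
    simp only [weakMixB_smul]
    exact (hB x z).const_mul a
  have hcomm : ∀ x y, B x y = B y x := fun x y => by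
    refine tendsto_nhds_unique (hB x y) ?_
    simp only [weakMixB_comm π u _ x y]
    exact hB y x
  have hBabs : ∀ x y, |B x y| ≤ ‖u‖ ^ 2 * ‖x‖ * ‖y‖ := fun x y =>
    le_of_tendsto (hB x y).abs (Eventually.of_forall (fun n => weakMixB_abs hS.ne π u n x y))
  obtain ⟨T, hT⟩ := weakMix_op B hadd hsmul (fun x y z => by
      rw [hcomm x, hadd, hcomm y, hcomm z]) (fun a x z => by rw [hcomm x, hsmul, hcomm z])
      (‖u‖ ^ 2) (by positivity) hBabs
  have hpos : ∀ x, 0 ≤ B x x := fun x =>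
    ge_of_tendsto (hB x x) (Eventually.of_forall (fun n => weakMixB_nonneg π u n x))
  have htr : ∀ (m : ℕ) (e : Fin m → V), Orthonormal ℝ e →
      ∑ i, inner ℝ (T (e i)) (e i) ≤ ‖u‖ ^ 2 := by
    intro m e he
    simp only [hT]
    have h1 : Tendsto (fun n => ∑ i, weakMixB S π u n (e i) (e i)) U (𝓝 (∑ i, B (e i) (e i))) :=
      tendsto_finsetSum _ (fun i _ => hB (e i) (e i))
    exact le_of_tendsto h1 (Eventually.of_forall (fun n => weakMixB_trace hS.ne π u n m e he))
  have hvv : ε ≤ B v v := ge_of_tendsto (hB v v) hUε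
  have hT0 : T ≠ 0 := by
    intro h0
    have := hT v v
    rw [h0, zero_apply, inner_zero_left] at this
    linarith
  obtain ⟨lam, W, hlam, hW, hW0, hle, hiff⟩ := top_eigenspace T
    (fun x y => by rw [hT, real_inner_comm, hT, hcomm]) (fun x => by rw [hT]; exact hpos x)
    (‖u‖ ^ 2) htr hT0
  have hstat : ∀ x, (S.card : ℝ)⁻¹ * ∑ s ∈ S, B ((π s)⁻¹ x) ((π s)⁻¹ x) = B x x := by
    intro x
    have h1 : Tendsto (fun n => (S.card : ℝ)⁻¹ * ∑ s ∈ S,
        weakMixB S π u n ((π s)⁻¹ x) ((π s)⁻¹ x) - weakMixB S π u n x x) U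
        (𝓝 ((S.card : ℝ)⁻¹ * ∑ s ∈ S, B ((π s)⁻¹ x) ((π s)⁻¹ x) - B x x)) :=
      ((tendsto_finsetSum _ (fun s _ => hB _ _)).const_mul _).sub (hB x x)
    have h2 := tendsto_nhds_unique h1 ((weakMixB_stat hS.ne π u x).mono_left hUtop)
    linarith
  have hcard : (0 : ℝ) < S.card := by exact_mod_cast hS.ne.card_pos
  have hinv1 : ∀ s ∈ S, ∀ x ∈ W, (π s)⁻¹ x ∈ W := by
    intro s hs x hx
    have h1 : B x x = lam * ‖x‖ ^ 2 := by rw [← hT]; exact (hiff x).2 hx
    have h2 : ∀ t ∈ S, B ((π t)⁻¹ x) ((π t)⁻¹ x) ≤ lam * ‖x‖ ^ 2 := by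
      intro t _
      have := hle ((π t)⁻¹ x)
      rw [hT, LinearIsometryEquiv.norm_map] at this
      exact this
    have h3 : ∑ t ∈ S, B ((π t)⁻¹ x) ((π t)⁻¹ x) = ∑ _t ∈ S, lam * ‖x‖ ^ 2 := by
      have h4 := hstat x
      rw [h1] at h4
      rw [Finset.sum_const, nsmul_eq_mul]
      field_simp at h4
      linarith
    have h5 := (Finset.sum_eq_sum_iff_of_le h2).1 h3 s hs
    rw [← hiff, hT, LinearIsometryEquiv.norm_map]
    exact h5
  have hinv2 : ∀ s ∈ S, ∀ x ∈ W, π s x ∈ W := by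
    intro s hs x hx
    have := hinv1 s⁻¹ (hS.inv s hs) x hx
    rwa [map_inv, inv_inv] at this
  have hInv : Inv π W := by
    intro g
    have hg : g ∈ Subgroup.closure (S : Set H) := by rw [hS.gen]; trivial
    induction hg using Subgroup.closure_induction'' with
    | mem s hs => exact hinv2 s hs
    | inv_mem s hs => 
      intro x hx
      rw [map_inv]
      exact hinv1 s hs x hx
    | one => 
      intro x hx
      rw [map_one]
      exact hx
    | mul a b _ _ ha hb =>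
      intro x hx
      rw [map_mul]
      exact ha _ (hb x hx)
  have horth : ∀ x ∈ W, ∀ g, inner ℝ (π g u) x = 0 := by
    intro x hx g
    have h1 := hu W hW hInv _ (hInv g⁻¹ x hx)
    rw [← LinearIsometryEquiv.inner_map_map (π g)] at h1
    rw [real_inner_comm]
    have h2 : π g (π g⁻¹ x) = x := by
      show (π g * π g⁻¹) x = x
      rw [← map_mul, mul_inv_cancel, map_one]
      rfl
    rwa [h2] at h1
  obtain ⟨x, hx, hx0⟩ := Submodule.exists_mem_ne_zero_of_ne_bot hW0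
  have h1 : B x x = 0 := by
    have : ∀ n, weakMixB S π u n x x = 0 := by
      intro n
      unfold weakMixB
      have : (fun g => inner ℝ (π g u) x * inner ℝ (π g u) x) = fun _ : H => (0 : ℝ) := by
        funext g
        rw [horth x hx g, mul_zero]
      simp only [this, Ex_const hS.ne, Finset.sum_const_zero, mul_zero]
    refine tendsto_nhds_unique (hB x x) ?_
    simp only [this]
    exact tendsto_const_nhds
  have h2 : B x x = lam * ‖x‖ ^ 2 := by rw [← hT]; exact (hiff x).2 hx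
  have h3 : 0 < ‖x‖ := norm_pos_iff.2 hx0
  have h4 : 0 < lam * ‖x‖ ^ 2 := by positivity
  linarith

end Rep

end Vale.Agent.P188.SG
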