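import Vale.Agent.P188.SG.Walk
import Vale.Agent.P188.SG.Len
import Vale.Agent.P188.SG.WeakMix

/-!
P188, Theorem S, the Erschler–Ozawa argument: over a group with a cautious random walk, a harmonic
cocycle whose values on the generators are orthogonal to all finite-dimensional invariant
subspaces vanishes.
-/

universe u v w

open Filter Topology

namespace Vale.Agent.P188.SG

section EO

variable {H : Type u} [Group H] {S : Finset H}
variable {V : Type v} [NormedAddCommGroup V] [InnerProductSpace ℝ V]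
variable {π : H →* (V ≃ₗᵢ[ℝ] V)} {b : H → V}

theorem EO_one (hb : IsCocycle π b) : b 1 = 0 := by
  have h := hb 1 1
  rw [mul_one, map_one] at h
  simpa using h

theorem EO_inv (hb : IsCocycle π b) (g : H) : b g = -π g (b g⁻¹) := by
  have h := hb g g⁻¹
  rw [mul_inv_cancel, EO_one hb] at h
  exact eq_neg_of_add_eq_zero_left h.symm

theorem EO_inner_sq (hb : IsCocycle π b) (g : H) (u : V) :
    (inner ℝ (b g) (π g u)) ^ 2 = (inner ℝ (b g⁻¹) u) ^ 2 := by
  rw [EO_inv hb g, inner_neg_left, LinearIsometryEquiv.inner_map_map, neg_sq]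

omit [Group H] in
/-- the variance identity -/
theorem EO_var (hS : S.Nonempty) (A : ℝ) (d : H → ℝ) (hd : ∑ s ∈ S, d s = 0) :
    (S.card : ℝ)⁻¹ * ∑ s ∈ S, (A + d s) ^ 2 = A ^ 2 + (S.card : ℝ)⁻¹ * ∑ s ∈ S, d s ^ 2 := by
  have hc : (S.card : ℝ) ≠ 0 := by exact_mod_cast hS.card_pos.ne'
  have h1 : ∀ s ∈ S, (A + d s) ^ 2 = A ^ 2 + 2 * A * d s + d s ^ 2 := fun s _ => by ring
  rw [Finset.sum_congr rfl h1, Finset.sum_add_distrib, Finset.sum_add_distrib, Finset.sum_const,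
    nsmul_eq_mul, ← Finset.mul_sum, hd, mul_zero, add_zero, mul_add, inv_mul_cancel_left₀ hc]

theorem EO_q_succ (hS : SymGen S) (hb : IsCocycle π b) (hh : ∑ s ∈ S, b s = 0) (n : ℕ) (v : V) :
    Ex S (n + 1) (fun g => (inner ℝ (b g) v) ^ 2) = Ex S n (fun g => (inner ℝ (b g) v) ^ 2) +
      (S.card : ℝ)⁻¹ * ∑ s ∈ S, Ex S n (fun g => (inner ℝ (π g (b s)) v) ^ 2) := by
  have h : avg S (fun g => (inner ℝ (b g) v) ^ 2) = fun g => (inner ℝ (b g) v) ^ 2 +
      (S.card : ℝ)⁻¹ * ∑ s ∈ S, (inner ℝ (π g (b s)) v) ^ 2 := by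
    funext g
    have h0 : ∑ s ∈ S, inner ℝ (π g (b s)) v = 0 := by
      rw [← sum_inner, ← map_sum, hh, map_zero, inner_zero_left]
    rw [← EO_var hS.ne _ _ h0]
    simp only [avg, hb g, inner_add_left]
  rw [Ex_succ, h, Ex_add, Ex_smul, Ex_sum]

theorem EO_q_mono (hS : SymGen S) (hb : IsCocycle π b) (hh : ∑ s ∈ S, b s = 0) (n : ℕ) (v : V) :
    Ex S n (fun g => (inner ℝ (b g) v) ^ 2) ≤ Ex S (n + 1) (fun g => (inner ℝ (b g) v) ^ 2) := by
  rw [EO_q_succ hS hb hh]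
  have h : 0 ≤ (S.card : ℝ)⁻¹ * ∑ s ∈ S, Ex S n (fun g => (inner ℝ (π g (b s)) v) ^ 2) :=
    mul_nonneg (by positivity) (Finset.sum_nonneg fun s _ => Ex_nonneg n fun g => sq_nonneg _)
  linarith

theorem EO_q_lim [CompleteSpace V] (hS : SymGen S) (hb : IsCocycle π b) (hh : ∑ s ∈ S, b s = 0)
    (ho : ∀ s ∈ S, FDOrth π (b s)) (v : V) :
    Tendsto (fun n : ℕ => (n : ℝ)⁻¹ * Ex S n (fun g => (inner ℝ (b g) v) ^ 2)) atTop (𝓝 0) := by
  have h1 : ∀ n : ℕ, Ex S n (fun g => (inner ℝ (b g) v) ^ 2) = (S.card : ℝ)⁻¹ *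
      ∑ s ∈ S, ∑ j ∈ Finset.range n, Ex S j (fun g => (inner ℝ (π g (b s)) v) ^ 2) := by
    intro n
    induction n with
    | zero => simp [Ex_zero, EO_one hb]
    | succ n ih =>
      rw [EO_q_succ hS hb hh, ih]
      simp only [Finset.sum_range_succ, Finset.sum_add_distrib, mul_add]
  have h2 : (fun n : ℕ => (n : ℝ)⁻¹ * Ex S n (fun g => (inner ℝ (b g) v) ^ 2)) = fun n : ℕ =>
      (S.card : ℝ)⁻¹ * ∑ s ∈ S, ((n : ℝ)⁻¹ *
        ∑ j ∈ Finset.range n, Ex S j (fun g => (inner ℝ (π g (b s)) v) ^ 2)) := by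
    funext n
    rw [h1, ← Finset.mul_sum]
    ring
  rw [h2]
  have h3 := tendsto_finsetSum S (fun s hs => weak_mixing hS π (b s) v (ho s hs))
  have h4 := h3.const_mul (S.card : ℝ)⁻¹
  simpa using h4

/-- the error term in the recursion for the fourth moment -/
noncomputable def EO_r (S : Finset H) (b : H → V) (n : ℕ) : ℝ :=
  (S.card : ℝ)⁻¹ * ∑ s ∈ S, 8 * Ex S n (fun g => (inner ℝ (b g) (b s)) ^ 2)

/-- the mean square of the increments -/
noncomputable def EO_sig (S : Finset H) (b : H → V) : ℝ :=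
  (S.card : ℝ)⁻¹ * ∑ s ∈ S, ‖b s‖ ^ 2

/-- the constant in the recursion for the fourth moment -/
noncomputable def EO_C (S : Finset H) (b : H → V) : ℝ :=
  (S.card : ℝ)⁻¹ * ∑ s ∈ S, 2 * (‖b s‖ ^ 2 - EO_sig S b) ^ 2

theorem EO_r_mono (hS : SymGen S) (hb : IsCocycle π b) (hh : ∑ s ∈ S, b s = 0) (n : ℕ) :
    EO_r S b n ≤ EO_r S b (n + 1) := by
  unfold EO_r
  refine mul_le_mul_of_nonneg_left (Finset.sum_le_sum fun s _ => ?_) (by positivity)
  exact mul_le_mul_of_nonneg_left (EO_q_mono hS hb hh n _) (by norm_num)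

theorem EO_r_lim [CompleteSpace V] (hS : SymGen S) (hb : IsCocycle π b) (hh : ∑ s ∈ S, b s = 0)
    (ho : ∀ s ∈ S, FDOrth π (b s)) :
    Tendsto (fun n : ℕ => (n : ℝ)⁻¹ * EO_r S b n) atTop (𝓝 0) := by
  have h2 : (fun n : ℕ => (n : ℝ)⁻¹ * EO_r S b n) = fun n : ℕ =>
      (S.card : ℝ)⁻¹ * ∑ s ∈ S, (8 * ((n : ℝ)⁻¹ *
        Ex S n (fun g => (inner ℝ (b g) (b s)) ^ 2))) := by
    funext n
    unfold EO_r
    simp only [Finset.mul_sum]
    exact Finset.sum_congr rfl fun s _ => by ring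
  rw [h2]
  have h3 := tendsto_finsetSum S
    (fun s (_ : s ∈ S) => (EO_q_lim hS hb hh ho (b s)).const_mul 8)
  have h4 := h3.const_mul (S.card : ℝ)⁻¹
  simpa using h4

theorem EO_M_succ (hS : SymGen S) (hb : IsCocycle π b) (hh : ∑ s ∈ S, b s = 0) (n : ℕ) (t : ℝ) :
    Ex S (n + 1) (fun g => (‖b g‖ ^ 2 - (t + 1) * EO_sig S b) ^ 2) ≤
      Ex S n (fun g => (‖b g‖ ^ 2 - t * EO_sig S b) ^ 2) + (EO_C S b + EO_r S b n) := by
  have hc : (S.card : ℝ) ≠ 0 := by exact_mod_cast hS.ne.card_pos.ne'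
  have h : avg S (fun g => (‖b g‖ ^ 2 - (t + 1) * EO_sig S b) ^ 2) = fun g =>
      (‖b g‖ ^ 2 - t * EO_sig S b) ^ 2 + (S.card : ℝ)⁻¹ *
        ∑ s ∈ S, (‖b s‖ ^ 2 - EO_sig S b + 2 * inner ℝ (b g) (π g (b s))) ^ 2 := by
    funext g
    have h0 : ∑ s ∈ S, (‖b s‖ ^ 2 - EO_sig S b + 2 * inner ℝ (b g) (π g (b s))) = 0 := by
      rw [Finset.sum_add_distrib, ← Finset.mul_sum, ← inner_sum, ← map_sum, hh, map_zero,
        inner_zero_right, mul_zero, add_zero, Finset.sum_sub_distrib, Finset.sum_const,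
        nsmul_eq_mul, EO_sig, mul_inv_cancel_left₀ hc, sub_self]
    rw [← EO_var hS.ne _ _ h0]
    simp only [avg]
    congr 1
    refine Finset.sum_congr rfl fun s _ => ?_
    rw [hb g s, norm_add_sq_real, LinearIsometryEquiv.norm_map]
    ring
  rw [Ex_succ, h, Ex_add]
  refine add_le_add le_rfl ?_
  have h1 : ∀ g : H, (S.card : ℝ)⁻¹ *
        ∑ s ∈ S, (‖b s‖ ^ 2 - EO_sig S b + 2 * inner ℝ (b g) (π g (b s))) ^ 2 ≤
      EO_C S b + (S.card : ℝ)⁻¹ * ∑ s ∈ S, 8 * (inner ℝ (b g⁻¹) (b s)) ^ 2 := by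
    intro g
    unfold EO_C
    rw [← mul_add, ← Finset.sum_add_distrib]
    refine mul_le_mul_of_nonneg_left (Finset.sum_le_sum fun s _ => ?_) (by positivity)
    rw [← EO_inner_sq hb g (b s)]
    nlinarith [sq_nonneg (‖b s‖ ^ 2 - EO_sig S b - 2 * inner ℝ (b g) (π g (b s)))]
  refine (Ex_mono n h1).trans (le_of_eq ?_)
  rw [Ex_add, Ex_const hS.ne, Ex_smul, Ex_sum]
  unfold EO_r
  congr 2
  refine Finset.sum_congr rfl fun s _ => ?_
  rw [Ex_smul, Ex_inv hS.inv n (fun g => (inner ℝ (b g) (b s)) ^ 2)]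

theorem EO_M_le (hS : SymGen S) (hb : IsCocycle π b) (hh : ∑ s ∈ S, b s = 0) (n : ℕ) :
    Ex S n (fun g => (‖b g‖ ^ 2 - n * EO_sig S b) ^ 2) ≤ n * (EO_C S b + EO_r S b n) := by
  induction n with
  | zero => simp [Ex_zero, EO_one hb]
  | succ n ih =>
    have h1 := EO_M_succ hS hb hh n n
    have h2 := EO_r_mono hS hb hh n
    have h3 : (0 : ℝ) ≤ n := Nat.cast_nonneg n
    push_cast
    nlinarith

/-- cocycles are Lipschitz -/
theorem EO_lip (hS : SymGen S) (hb : IsCocycle π b) (g : H) :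
    ‖b g‖ ≤ (∑ s ∈ S, ‖b s‖) * len S g := by
  set L := ∑ s ∈ S, ‖b s‖ with hL
  have hL0 : 0 ≤ L := Finset.sum_nonneg fun s _ => norm_nonneg _
  have hLs : ∀ s ∈ S, ‖b s‖ ≤ L := fun s hs =>
    Finset.single_le_sum (f := fun s => ‖b s‖) (fun t _ => norm_nonneg _) hs
  obtain ⟨p, hp0, hp1, -, -, hp⟩ := exists_path hS.gen g
  have key : ∀ i : ℕ, ‖b (p i)‖ ≤ L * i := by
    intro i
    induction i with
    | zero => simp [hp0, EO_one hb]
    | succ i ih =>
      push_cast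
      rcases hp i with h | ⟨s, hs, h⟩
      · rw [h]
        nlinarith
      · have hs' : s ∈ S := by
          rcases hs with hs | hs
          · exact hs
          · simpa using hS.inv _ hs
        rw [h, hb (p i) s]
        refine (norm_add_le _ _).trans ?_
        rw [LinearIsometryEquiv.norm_map]
        nlinarith [hLs s hs']
  have := key (len S g)
  rwa [hp1] at this

theorem harmonic_eq_zero [CompleteSpace V] (hS : SymGen S) (hc : Cautious S)
    (π : H →* (V ≃ₗᵢ[ℝ] V)) (b : H → V)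
    (hb : IsCocycle π b) (hh : ∑ s ∈ S, b s = 0) (ho : ∀ s ∈ S, FDOrth π (b s)) :
    ∀ g, b g = 0 := by
  set L := ∑ s ∈ S, ‖b s‖ with hL
  have hL0 : 0 ≤ L := Finset.sum_nonneg fun s _ => norm_nonneg _
  have hcard : 0 < (S.card : ℝ) := by exact_mod_cast hS.ne.card_pos
  have hsig0 : 0 ≤ EO_sig S b :=
    mul_nonneg (by positivity) (Finset.sum_nonneg fun s _ => sq_nonneg _)
  rcases hsig0.eq_or_lt with hsig | hsig
  · -- all increments vanish
    have h1 : ∑ s ∈ S, ‖b s‖ ^ 2 = 0 := by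
      rcases mul_eq_zero.mp hsig.symm with h | h
      · exact absurd h (inv_ne_zero hcard.ne')
      · exact h
    have h2 : ∀ s ∈ S, ‖b s‖ ^ 2 = 0 :=
      (Finset.sum_eq_zero_iff_of_nonneg fun s _ => sq_nonneg _).mp h1
    have h3 : L = 0 := Finset.sum_eq_zero fun s hs => pow_eq_zero_iff (two_ne_zero) |>.mp (h2 s hs)
    intro g
    have h4 := EO_lip hS hb g
    rw [← hL, h3, zero_mul] at h4
    exact norm_le_zero_iff.mp h4
  · exfalso
    set c : ℝ := Real.sqrt (EO_sig S b / 2) / (L + 1) with hcdef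
    have hc0 : 0 < c := by positivity
    have hLc : L ^ 2 * c ^ 2 ≤ EO_sig S b / 2 := by
      have h1 : L * c ≤ Real.sqrt (EO_sig S b / 2) := by
        rw [hcdef, mul_div_assoc', div_le_iff₀ (by positivity)]
        nlinarith [Real.sqrt_nonneg (EO_sig S b / 2)]
      have h2 : (L * c) ^ 2 ≤ Real.sqrt (EO_sig S b / 2) ^ 2 :=
        pow_le_pow_left₀ (by positivity) h1 2
      rw [Real.sq_sqrt (by positivity), mul_pow] at h2
      exact h2
    obtain ⟨δ, hδ, hfreq⟩ := hc c hc0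
    -- the bound for the probability
    have hbound : ∀ n : ℕ, 0 < n →
        Ex S n (fun g => if (len S g : ℝ) ≤ c * Real.sqrt n then 1 else 0) ≤
          4 / EO_sig S b ^ 2 * ((n : ℝ)⁻¹ * EO_C S b + (n : ℝ)⁻¹ * EO_r S b n) := by
      intro n hn
      have hn' : (0 : ℝ) < n := by exact_mod_cast hn
      have ha : 0 < (n * EO_sig S b / 2) ^ 2 := by positivity
      have h1 : Ex S n (fun g => if (len S g : ℝ) ≤ c * Real.sqrt n then 1 else 0) ≤
          Ex S n (fun g => if (n * EO_sig S b / 2) ^ 2 ≤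
            (‖b g‖ ^ 2 - n * EO_sig S b) ^ 2 then 1 else 0) := by
        refine Ex_mono n fun g => ?_
        by_cases hg : (len S g : ℝ) ≤ c * Real.sqrt n
        · have h2 : ‖b g‖ ≤ L * (c * Real.sqrt n) :=
            (EO_lip hS hb g).trans (mul_le_mul_of_nonneg_left hg hL0)
          have h3 : ‖b g‖ ^ 2 ≤ n * EO_sig S b / 2 := by
            calc ‖b g‖ ^ 2 ≤ (L * (c * Real.sqrt n)) ^ 2 :=
                  pow_le_pow_left₀ (norm_nonneg _) h2 2
              _ = L ^ 2 * c ^ 2 * Real.sqrt n ^ 2 := by ring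
              _ = L ^ 2 * c ^ 2 * n := by rw [Real.sq_sqrt hn'.le]
              _ ≤ EO_sig S b / 2 * n := mul_le_mul_of_nonneg_right hLc hn'.le
              _ = n * EO_sig S b / 2 := by ring
          have h4 : (n * EO_sig S b / 2) ^ 2 ≤ (‖b g‖ ^ 2 - n * EO_sig S b) ^ 2 := by
            have h5 : 0 ≤ n * EO_sig S b / 2 := by positivity
            nlinarith [sq_nonneg ‖b g‖]
          rw [if_pos hg, if_pos h4]
        · rw [if_neg hg]
          split_ifs <;> norm_num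
      refine h1.trans ((Ex_markov n (fun g => sq_nonneg _) ha).trans ?_)
      refine (mul_le_mul_of_nonneg_left (EO_M_le hS hb hh n) (by positivity)).trans
        (le_of_eq ?_)
      field_simp
      ring
    have hlim : Tendsto (fun n : ℕ =>
        4 / EO_sig S b ^ 2 * ((n : ℝ)⁻¹ * EO_C S b + (n : ℝ)⁻¹ * EO_r S b n)) atTop (𝓝 0) := by
      have h1 : Tendsto (fun n : ℕ => (n : ℝ)⁻¹ * EO_C S b) atTop (𝓝 0) := by
        have := (tendsto_inv_atTop_nhds_zero_nat (𝕜 := ℝ)).mul_const (EO_C S b)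
        simpa using this
      have h2 := ((h1.add (EO_r_lim hS hb hh ho)).const_mul (4 / EO_sig S b ^ 2))
      simpa using h2
    have hev : ∀ᶠ n : ℕ in atTop,
        4 / EO_sig S b ^ 2 * ((n : ℝ)⁻¹ * EO_C S b + (n : ℝ)⁻¹ * EO_r S b n) < δ :=
      hlim.eventually (gt_mem_nhds hδ)
    obtain ⟨n, hn1, hn2, hn3⟩ := (hfreq.and_eventually (hev.and (eventually_gt_atTop 0))).exists
    exact absurd (hn1.trans (hbound n hn3)) (not_le.mpr hn2)

end EO

end Vale.Agent.P188.SG
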