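import Vale.Agent.P188.SG.Defs
import Vale.Agent.P188.QI

/-!
P188, Theorem S, geometry of exponentially distorted extensions: change of generators and the
Lipschitz property of the coordinates.
-/

universe u v w

open Filter Topology

namespace Vale.Agent.P188.SG

section

variable {G : Type v} [Group G]

theorem geo1_len_le_length {T : Finset G} (l : List G) (hl : ∀ a ∈ l, a ∈ T ∨ a⁻¹ ∈ T) :
    len T l.prod ≤ l.length := by
  unfold len wordDist
  refine Nat.sInf_le ⟨l, rfl, ?_, ?_⟩
  · intro a ha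
    exact hl a ha
  · simp

theorem geo1_exists_word {T : Finset G} (hT : Subgroup.closure (T : Set G) = ⊤) (x : G) :
    ∃ l : List G, l.length = len T x ∧ (∀ a ∈ l, a ∈ T ∨ a⁻¹ ∈ T) ∧ l.prod = x := by
  obtain ⟨l, hl, ha, hp⟩ := wordDist_list hT 1 x
  refine ⟨l, hl, fun a h => ha a h, ?_⟩
  rw [hp]
  simp

theorem geo1_len_one (T : Finset G) : len T (1 : G) = 0 := by
  have := geo1_len_le_length (T := T) ([] : List G) (by simp)
  simpa using this

theorem geo1_len_mul_le {T : Finset G} (hT : Subgroup.closure (T : Set G) = ⊤) (x y : G) :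
    len T (x * y) ≤ len T x + len T y := by
  obtain ⟨l, hl, ha, hp⟩ := geo1_exists_word hT x
  obtain ⟨l', hl', ha', hp'⟩ := geo1_exists_word hT y
  have h := geo1_len_le_length (T := T) (l ++ l') (by
    intro a h
    rcases List.mem_append.1 h with h | h
    · exact ha a h
    · exact ha' a h)
  rw [List.prod_append, hp, hp', List.length_append, hl, hl'] at h
  exact h

/-- A subadditive function is controlled by the word length. -/
theorem geo1_le_len {T : Finset G} (hT : Subgroup.closure (T : Set G) = ⊤) (φ : G → ℝ)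
    (h1 : φ 1 ≤ 0) (hm : ∀ x y, φ (x * y) ≤ φ x + φ y) {M : ℝ}
    (hM : ∀ t : G, t ∈ T ∨ t⁻¹ ∈ T → φ t ≤ M) (x : G) : φ x ≤ M * len T x := by
  have key : ∀ l : List G, (∀ a ∈ l, a ∈ T ∨ a⁻¹ ∈ T) → φ l.prod ≤ M * l.length := by
    intro l
    induction l with
    | nil =>
      intro _
      simpa using h1
    | cons a l ih =>
      intro h
      have h2 := ih (fun b hb => h b (List.mem_cons_of_mem _ hb))
      have h3 := hM a (h a List.mem_cons_self)
      have h4 := hm a l.prod
      rw [List.prod_cons, List.length_cons]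
      push_cast
      linarith
  obtain ⟨l, hl, ha, hp⟩ := geo1_exists_word hT x
  have := key l ha
  rwa [hp, hl] at this

/-- Comparison of two word lengths. -/
theorem geo1_len_comp {T : Finset G} (hT : Subgroup.closure (T : Set G) = ⊤)
    {T' : Finset G} (hT' : Subgroup.closure (T' : Set G) = ⊤) :
    ∃ M : ℝ, 0 ≤ M ∧ ∀ x, (len T' x : ℝ) ≤ M * len T x := by
  refine ⟨∑ t ∈ T, ((len T' t : ℝ) + len T' t⁻¹), Finset.sum_nonneg fun t _ => by positivity,
    fun x => ?_⟩
  refine geo1_le_len hT (fun g => (len T' g : ℝ)) ?_ ?_ ?_ x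
  · simp [geo1_len_one]
  · intro x y
    have := geo1_len_mul_le hT' x y
    exact_mod_cast this
  · intro t ht
    rcases ht with ht | ht
    · have h1 := Finset.single_le_sum (f := fun t => (len T' t : ℝ) + len T' t⁻¹)
        (fun i _ => by positivity) ht
      have h2 : (0 : ℝ) ≤ len T' t⁻¹ := Nat.cast_nonneg _
      linarith
    · have h1 := Finset.single_le_sum (f := fun t => (len T' t : ℝ) + len T' t⁻¹)
        (fun i _ => by positivity) ht
      have h2 : (0 : ℝ) ≤ len T' t⁻¹ := Nat.cast_nonneg _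
      simp only [inv_inv] at h1 ⊢
      linarith

end

section Geo

variable {G : Type v} [Group G] {k : ℕ} {θ : G →* Multiplicative (Fin k → ℤ)} {A T : Finset G}

theorem ExpExt.change (h : ExpExt θ A T) {T' : Finset G}
    (hT' : Subgroup.closure (T' : Set G) = ⊤) : ExpExt θ A T' := by
  refine ⟨h.surj, h.genA, hT', h.growth, ?_⟩
  obtain ⟨M, hM0, hM⟩ := geo1_len_comp h.genT hT'
  obtain ⟨C, hC⟩ := h.dist
  refine ⟨M * C, fun x hx => ?_⟩
  calc (len T' x : ℝ) ≤ M * len T x := hM x
    _ ≤ M * (C * (1 + Real.log (1 + len A x))) := mul_le_mul_of_nonneg_left (hC x hx) hM0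
    _ = M * C * (1 + Real.log (1 + len A x)) := by ring

theorem geo1_co_one (i : Fin k) : co θ (1 : G) i = 0 := by
  simp [co]

theorem geo1_co_mul (x y : G) (i : Fin k) : co θ (x * y) i = co θ x i + co θ y i := by
  simp [co]

theorem geo1_co_inv (x : G) (i : Fin k) : co θ x⁻¹ i = -co θ x i := by
  simp [co]

theorem co_lip (h : ExpExt θ A T) : ∃ C : ℝ, 0 ≤ C ∧ ∀ (x y : G) (i : Fin k),
    |co θ (x * y) i - co θ x i| ≤ C * len T y := by
  refine ⟨∑ t ∈ T, ∑ i, |co θ t i|, Finset.sum_nonneg fun t _ => Finset.sum_nonneg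
    fun i _ => abs_nonneg _, fun x y i => ?_⟩
  rw [geo1_co_mul, add_sub_cancel_left]
  refine geo1_le_len h.genT (fun g => |co θ g i|) ?_ ?_ ?_ y
  · simp [geo1_co_one]
  · intro a b
    simp only [geo1_co_mul]
    exact abs_add_le _ _
  · have key : ∀ t ∈ T, |co θ t i| ≤ ∑ t ∈ T, ∑ i, |co θ t i| := by
      intro t ht
      have h1 : |co θ t i| ≤ ∑ i, |co θ t i| :=
        Finset.single_le_sum (f := fun i => |co θ t i|) (fun i _ => abs_nonneg _)
          (Finset.mem_univ i)
      have h2 : ∑ i, |co θ t i| ≤ ∑ t ∈ T, ∑ i, |co θ t i| :=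
        Finset.single_le_sum (f := fun t => ∑ i, |co θ t i|)
          (fun t _ => Finset.sum_nonneg fun i _ => abs_nonneg _) ht
      exact h1.trans h2
    intro t ht
    rcases ht with ht | ht
    · exact key t ht
    · have := key _ ht
      rwa [geo1_co_inv, abs_neg] at this

end Geo

end Vale.Agent.P188.SG
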