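import Vale.Agent.P188.SG.Defs

/-! P188, Theorem S, T8: a section with control of the kernel part. -/

universe u v w

open Filter Topology

namespace Vale.Agent.P188.SG

section Geo2Words

variable {H : Type u} [Group H]

private theorem geo2_len_le_word (S : Finset H) (l : List H) (hl : ∀ a ∈ l, a ∈ S ∨ a⁻¹ ∈ S) :
    len S l.prod ≤ l.length := by
  unfold len wordDist
  exact Nat.sInf_le ⟨l, rfl, fun a ha => by simpa using hl a ha, by simp⟩

private theorem geo2_word_of_closure {S : Finset H} {g : H}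
    (hg : g ∈ Subgroup.closure (S : Set H)) :
    ∃ l : List H, (∀ a ∈ l, a ∈ (S : Set H) ∨ a⁻¹ ∈ (S : Set H)) ∧ l.prod = g := by
  induction hg using Subgroup.closure_induction with
  | mem x hx => exact ⟨[x], by simpa using Or.inl hx, by simp⟩
  | one => exact ⟨[], by simp, by simp⟩
  | mul x y _ _ hx hy =>
    obtain ⟨l, h1, h2⟩ := hx
    obtain ⟨m, k1, k2⟩ := hy
    refine ⟨l ++ m, fun a ha => ?_, by rw [List.prod_append, h2, k2]⟩
    rcases List.mem_append.mp ha with h | h
    · exact h1 a h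
    · exact k1 a h
  | inv x _ hx =>
    obtain ⟨l, h1, h2⟩ := hx
    refine ⟨(l.map fun a => a⁻¹).reverse, fun a ha => ?_, by
      rw [← List.prod_inv_reverse, h2]⟩
    rw [List.mem_reverse, List.mem_map] at ha
    obtain ⟨b, hb, rfl⟩ := ha
    rw [inv_inv]
    exact (h1 b hb).symm

private theorem geo2_exists_word {S : Finset H} {g : H}
    (hg : g ∈ Subgroup.closure (S : Set H)) :
    ∃ l : List H, l.length = len S g ∧ (∀ a ∈ l, a ∈ S ∨ a⁻¹ ∈ S) ∧ l.prod = g := by
  have hne : {n : ℕ | ∃ l : List H, l.length = n ∧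
      (∀ a ∈ l, a ∈ (S : Set H) ∨ a⁻¹ ∈ (S : Set H)) ∧ l.prod = (1 : H)⁻¹ * g}.Nonempty := by
    obtain ⟨l, hl, hp⟩ := geo2_word_of_closure hg
    exact ⟨l.length, l, rfl, hl, by simpa using hp⟩
  obtain ⟨l, h1, h2, h3⟩ := Nat.sInf_mem hne
  exact ⟨l, h1, by simpa using h2, by simpa using h3⟩

private theorem geo2_len_one (S : Finset H) : len S (1 : H) = 0 := by
  have := geo2_len_le_word S [] (by simp)
  simpa using this

private theorem geo2_len_mul {S : Finset H} {x y : H} (hx : x ∈ Subgroup.closure (S : Set H))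
    (hy : y ∈ Subgroup.closure (S : Set H)) : len S (x * y) ≤ len S x + len S y := by
  obtain ⟨l, h1, h2, h3⟩ := geo2_exists_word hx
  obtain ⟨m, k1, k2, k3⟩ := geo2_exists_word hy
  have := geo2_len_le_word S (l ++ m) (fun a ha => by
    rcases List.mem_append.mp ha with h | h
    · exact h2 a h
    · exact k2 a h)
  rw [List.prod_append, h3, k3, List.length_append, h1, k1] at this
  exact this

private theorem geo2_len_inv {S : Finset H} {x : H} (hx : x ∈ Subgroup.closure (S : Set H)) :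
    len S x⁻¹ ≤ len S x := by
  obtain ⟨l, h1, h2, h3⟩ := geo2_exists_word hx
  have := geo2_len_le_word S (l.map fun a => a⁻¹).reverse (fun a ha => by
    rw [List.mem_reverse, List.mem_map] at ha
    obtain ⟨b, hb, rfl⟩ := ha
    rw [inv_inv]
    exact (h2 b hb).symm)
  rw [← List.prod_inv_reverse, h3, List.length_reverse, List.length_map, h1] at this
  exact this

private theorem geo2_len_letter {S : Finset H} {a : H} (ha : a ∈ S ∨ a⁻¹ ∈ S) :
    len S a ≤ 1 := by
  have := geo2_len_le_word S [a] (by simpa using ha)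
  simpa using this

private theorem geo2_len_pow {S : Finset H} {x : H} (hx : x ∈ Subgroup.closure (S : Set H))
    (n : ℕ) : len S (x ^ n) ≤ n * len S x := by
  induction n with
  | zero => simp [geo2_len_one]
  | succ n ih =>
    rw [pow_succ]
    calc len S (x ^ n * x) ≤ len S (x ^ n) + len S x :=
          geo2_len_mul (Subgroup.pow_mem _ hx n) hx
      _ ≤ n * len S x + len S x := by omega
      _ = (n + 1) * len S x := by ring

private theorem geo2_len_zpow {S : Finset H} {x : H} (hx : x ∈ Subgroup.closure (S : Set H))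
    (n : ℤ) : len S (x ^ n) ≤ n.natAbs * len S x := by
  rcases Int.natAbs_eq n with h | h
  · rw [h, zpow_natCast, Int.natAbs_natCast]
    exact geo2_len_pow hx _
  · rw [h, zpow_neg, zpow_natCast, Int.natAbs_neg, Int.natAbs_natCast]
    exact (geo2_len_inv (Subgroup.pow_mem _ hx _)).trans (geo2_len_pow hx _)

private theorem geo2_len_map {ι : Type*} {S : Finset H}
    (hS : Subgroup.closure (S : Set H) = ⊤) (L : List ι) (t : ι → H) (z : ι → ℤ) (c : ℕ)
    (hc : ∀ i, len S (t i) ≤ c) :
    len S (L.map fun i => t i ^ z i).prod ≤ c * (L.map fun i => (z i).natAbs).sum := by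
  have hm : ∀ x : H, x ∈ Subgroup.closure (S : Set H) := fun x => by rw [hS]; trivial
  induction L with
  | nil => simp [geo2_len_one]
  | cons i L ih =>
    rw [List.map_cons, List.prod_cons, List.map_cons, List.sum_cons]
    have h1 := geo2_len_mul (hm (t i ^ z i)) (hm (L.map fun i => t i ^ z i).prod)
    have h2 := (geo2_len_zpow (hm (t i)) (z i)).trans (Nat.mul_le_mul_left _ (hc i))
    calc _ ≤ _ := h1
      _ ≤ (z i).natAbs * c + c * (L.map fun i => (z i).natAbs).sum := Nat.add_le_add h2 ih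
      _ = _ := by ring

end Geo2Words

section Geo2

variable {G : Type v} [Group G] {k : ℕ} {θ : G →* Multiplicative (Fin k → ℤ)} {A T B : Finset G}

/-- conjugation by one letter -/
private theorem geo2_conj_letter (hA : Subgroup.closure (A : Set G) = θ.ker) {s : G} {L : ℕ}
    (hL : ∀ a ∈ A, len A (s * a * s⁻¹) ≤ L) {x : G} (hx : θ x = 1) :
    len A (s * x * s⁻¹) ≤ L * len A x := by
  have hm : ∀ y : G, θ y = 1 → y ∈ Subgroup.closure (A : Set G) := fun y hy => by
    rw [hA]; exact hy
  have hm' : ∀ y : G, y ∈ Subgroup.closure (A : Set G) → θ y = 1 := fun y hy => by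
    rw [hA] at hy; exact hy
  have hc : ∀ y : G, θ y = 1 → θ (s * y * s⁻¹) = 1 := fun y hy => by simp [hy]
  obtain ⟨l, h1, h2, h3⟩ := geo2_exists_word (hm x hx)
  have key : ∀ l : List G, (∀ a ∈ l, a ∈ A ∨ a⁻¹ ∈ A) →
      θ l.prod = 1 ∧ len A (s * l.prod * s⁻¹) ≤ L * l.length := by
    intro l
    induction l with
    | nil => intro _; simp [geo2_len_one]
    | cons a l ih =>
      intro h
      obtain ⟨i1, i2⟩ := ih fun b hb => h b (List.mem_cons_of_mem _ hb)
      have ha := h a List.mem_cons_self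
      have haθ : θ a = 1 := by
        rcases ha with ha | ha
        · exact hm' a (Subgroup.subset_closure ha)
        · have := hm' _ (Subgroup.subset_closure (show a⁻¹ ∈ (A : Set G) from ha))
          simpa using this
      have hal : len A (s * a * s⁻¹) ≤ L := by
        rcases ha with ha | ha
        · exact hL a ha
        · have e : s * a * s⁻¹ = (s * a⁻¹ * s⁻¹)⁻¹ := by group
          rw [e]
          exact (geo2_len_inv (hm _ (hc _ (by simp [haθ])))).trans (hL _ ha)
      refine ⟨by rw [List.prod_cons, map_mul, haθ, i1, mul_one], ?_⟩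
      have e : s * (a :: l).prod * s⁻¹ = (s * a * s⁻¹) * (s * l.prod * s⁻¹) := by
        rw [List.prod_cons]; group
      rw [e, List.length_cons]
      calc _ ≤ len A (s * a * s⁻¹) + len A (s * l.prod * s⁻¹) :=
            geo2_len_mul (hm _ (hc _ haθ)) (hm _ (hc _ i1))
        _ ≤ L + L * l.length := Nat.add_le_add hal i2
        _ = L * (l.length + 1) := by ring
  have := (key l h2).2
  rw [h3, h1] at this
  exact this

/-- conjugation -/
private theorem geo2_conj (hA : Subgroup.closure (A : Set G) = θ.ker)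
    (hB : Subgroup.closure (B : Set G) = ⊤) :
    ∃ L : ℕ, 1 ≤ L ∧ ∀ g x : G, θ x = 1 → len A (g * x * g⁻¹) ≤ L ^ len B g * len A x := by
  classical
  set Bs : Finset G := B ∪ B.image fun b => b⁻¹ with hBs
  set L : ℕ := (Bs.sup fun s => A.sup fun a => len A (s * a * s⁻¹)) + 1 with hLdef
  have hletter : ∀ s, (s ∈ B ∨ s⁻¹ ∈ B) → s ∈ Bs := by
    intro s hs
    rw [hBs, Finset.mem_union, Finset.mem_image]
    rcases hs with hs | hs
    · exact Or.inl hs
    · exact Or.inr ⟨s⁻¹, hs, by simp⟩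
  have hL : ∀ s, (s ∈ B ∨ s⁻¹ ∈ B) → ∀ a ∈ A, len A (s * a * s⁻¹) ≤ L := by
    intro s hs a ha
    have h1 : len A (s * a * s⁻¹) ≤ A.sup fun a => len A (s * a * s⁻¹) :=
      Finset.le_sup (f := fun a => len A (s * a * s⁻¹)) ha
    have h2 : (A.sup fun a => len A (s * a * s⁻¹)) ≤
        Bs.sup fun s => A.sup fun a => len A (s * a * s⁻¹) :=
      Finset.le_sup (f := fun s => A.sup fun a => len A (s * a * s⁻¹)) (hletter s hs)
    omega
  refine ⟨L, by omega, fun g x hx => ?_⟩
  have hg : g ∈ Subgroup.closure (B : Set G) := by rw [hB]; trivial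
  obtain ⟨l, h1, h2, h3⟩ := geo2_exists_word hg
  have key : ∀ l : List G, (∀ a ∈ l, a ∈ B ∨ a⁻¹ ∈ B) →
      len A (l.prod * x * l.prod⁻¹) ≤ L ^ l.length * len A x := by
    intro l
    induction l with
    | nil => intro _; simp
    | cons a l ih =>
      intro h
      have ih' := ih fun b hb => h b (List.mem_cons_of_mem _ hb)
      have e : (a :: l).prod * x * (a :: l).prod⁻¹ = a * (l.prod * x * l.prod⁻¹) * a⁻¹ := by
        rw [List.prod_cons]; group
      rw [e, List.length_cons]
      calc _ ≤ L * len A (l.prod * x * l.prod⁻¹) :=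
            geo2_conj_letter hA (hL a (h a List.mem_cons_self)) (by simp [hx])
        _ ≤ L * (L ^ l.length * len A x) := Nat.mul_le_mul_left _ ih'
        _ = L ^ (l.length + 1) * len A x := by ring
  have := key l h2
  rw [h3, h1] at this
  exact this

/-- commutators with a letter -/
private theorem geo2_comm (hA : Subgroup.closure (A : Set G) = θ.ker)
    (hB : Subgroup.closure (B : Set G) = ⊤) {L : ℕ} (hL1 : 1 ≤ L)
    (hL : ∀ g x : G, θ x = 1 → len A (g * x * g⁻¹) ≤ L ^ len B g * len A x) :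
    ∃ c : ℕ, ∀ g s : G, (s ∈ B ∨ s⁻¹ ∈ B) →
      len A (s * g * s⁻¹ * g⁻¹) ≤ c * len B g * L ^ len B g := by
  classical
  set Bs : Finset G := B ∪ B.image fun b => b⁻¹ with hBs
  set c : ℕ := Bs.sup fun s => Bs.sup fun s' => len A (s * s' * s⁻¹ * s'⁻¹) with hc
  have hletter : ∀ s, (s ∈ B ∨ s⁻¹ ∈ B) → s ∈ Bs := by
    intro s hs
    rw [hBs, Finset.mem_union, Finset.mem_image]
    rcases hs with hs | hs
    · exact Or.inl hs
    · exact Or.inr ⟨s⁻¹, hs, by simp⟩
  have hc' : ∀ s s', (s ∈ B ∨ s⁻¹ ∈ B) → (s' ∈ B ∨ s'⁻¹ ∈ B) →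
      len A (s * s' * s⁻¹ * s'⁻¹) ≤ c := by
    intro s s' hs hs'
    have h1 : len A (s * s' * s⁻¹ * s'⁻¹) ≤ Bs.sup fun s' => len A (s * s' * s⁻¹ * s'⁻¹) :=
      Finset.le_sup (f := fun s' => len A (s * s' * s⁻¹ * s'⁻¹)) (hletter s' hs')
    have h2 : (Bs.sup fun s' => len A (s * s' * s⁻¹ * s'⁻¹)) ≤ c :=
      Finset.le_sup (f := fun s => Bs.sup fun s' => len A (s * s' * s⁻¹ * s'⁻¹)) (hletter s hs)
    exact h1.trans h2
  have hm : ∀ y : G, θ y = 1 → y ∈ Subgroup.closure (A : Set G) := fun y hy => by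
    rw [hA]; exact hy
  have hcomm : ∀ a b : G, θ (a * b * a⁻¹ * b⁻¹) = 1 := by
    intro a b
    simp only [map_mul, map_inv]
    rw [mul_comm (θ a) (θ b)]
    group
  refine ⟨c, fun g s hs => ?_⟩
  have hg : g ∈ Subgroup.closure (B : Set G) := by rw [hB]; trivial
  obtain ⟨l, h1, h2, h3⟩ := geo2_exists_word hg
  have key : ∀ l : List G, (∀ a ∈ l, a ∈ B ∨ a⁻¹ ∈ B) →
      len A (s * l.prod * s⁻¹ * l.prod⁻¹) ≤ c * l.length * L ^ l.length := by
    intro l
    induction l with
    | nil => intro _; simp [geo2_len_one]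
    | cons a l ih =>
      intro h
      have ih' := ih fun b hb => h b (List.mem_cons_of_mem _ hb)
      have ha := h a List.mem_cons_self
      have e : s * (a :: l).prod * s⁻¹ * (a :: l).prod⁻¹ =
          (s * a * s⁻¹ * a⁻¹) * (a * (s * l.prod * s⁻¹ * l.prod⁻¹) * a⁻¹) := by
        rw [List.prod_cons]; group
      rw [e, List.length_cons]
      have hb1 : L ^ len B a ≤ L := by
        calc L ^ len B a ≤ L ^ 1 := Nat.pow_le_pow_right hL1 (geo2_len_letter ha)
          _ = L := pow_one L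
      have h5 : 1 ≤ L ^ (l.length + 1) := Nat.one_le_pow _ _ hL1
      calc _ ≤ len A (s * a * s⁻¹ * a⁻¹) + len A (a * (s * l.prod * s⁻¹ * l.prod⁻¹) * a⁻¹) :=
            geo2_len_mul (hm _ (hcomm _ _)) (hm _ (by
              rw [map_mul, map_mul, hcomm]; simp))
        _ ≤ c + L * (c * l.length * L ^ l.length) := by
            refine Nat.add_le_add (hc' s a hs ha) ((hL a _ (hcomm _ _)).trans ?_)
            exact Nat.mul_le_mul hb1 ih'
        _ ≤ c * L ^ (l.length + 1) + L * (c * l.length * L ^ l.length) :=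
            Nat.add_le_add_right (Nat.le_mul_of_pos_right c h5) _
        _ = c * (l.length + 1) * L ^ (l.length + 1) := by ring
  have := key l h2
  rw [h3, h1] at this
  exact this

/-- change of the generating set -/
private theorem geo2_len_change (hT : Subgroup.closure (T : Set G) = ⊤)
    (hB : Subgroup.closure (B : Set G) = ⊤) :
    ∃ c : ℕ, ∀ g : G, len B g ≤ c * len T g := by
  have hm : ∀ x : G, x ∈ Subgroup.closure (B : Set G) := fun x => by rw [hB]; trivial
  refine ⟨T.sup fun t => len B t, fun g => ?_⟩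
  set c : ℕ := T.sup fun t => len B t with hc
  have hg : g ∈ Subgroup.closure (T : Set G) := by rw [hT]; trivial
  obtain ⟨l, h1, h2, h3⟩ := geo2_exists_word hg
  have key : ∀ l : List G, (∀ a ∈ l, a ∈ T ∨ a⁻¹ ∈ T) → len B l.prod ≤ c * l.length := by
    intro l
    induction l with
    | nil => intro _; simp [geo2_len_one]
    | cons a l ih =>
      intro h
      have ih' := ih fun b hb => h b (List.mem_cons_of_mem _ hb)
      have ha : len B a ≤ c := by
        rcases h a List.mem_cons_self with ha | ha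
        · exact Finset.le_sup (f := fun t => len B t) ha
        · have h1 : len B a⁻¹ ≤ c := Finset.le_sup (f := fun t => len B t) ha
          have h2 := geo2_len_inv (hm a⁻¹)
          rw [inv_inv] at h2
          exact h2.trans h1
      rw [List.prod_cons, List.length_cons]
      calc _ ≤ len B a + len B l.prod := geo2_len_mul (hm _) (hm _)
        _ ≤ c + c * l.length := Nat.add_le_add ha ih'
        _ = c * (l.length + 1) := by ring
  have := key l h2
  rw [h3, h1] at this
  exact this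

/-- the section -/
private noncomputable def geo2_sec (t : Fin k → G) (z : Fin k → ℤ) : G :=
  ((List.finRange k).map fun i => t i ^ z i).prod

/-- the size of `z` -/
private def geo2_nz (z : Fin k → ℤ) : ℕ := ((List.finRange k).map fun i => (z i).natAbs).sum

private theorem geo2_nz_eq (z : Fin k → ℤ) : geo2_nz z = ∑ i, (z i).natAbs := by
  unfold geo2_nz
  rw [Fin.sum_univ_def]

private theorem geo2_theta {t : Fin k → G}
    (ht : ∀ i, θ (t i) = Multiplicative.ofAdd (Pi.single i 1)) (z : Fin k → ℤ) :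
    θ (geo2_sec t z) = Multiplicative.ofAdd z := by
  unfold geo2_sec
  rw [map_list_prod, List.map_map, ← Fin.prod_univ_def]
  apply Multiplicative.toAdd.injective
  rw [toAdd_prod, toAdd_ofAdd]
  simp only [Function.comp_apply, map_zpow, ht, toAdd_zpow, toAdd_ofAdd]
  funext j
  rw [Finset.sum_apply]
  simp [Pi.single_apply]

private theorem geo2_theta_letter {t : Fin k → G}
    (ht : ∀ i, θ (t i) = Multiplicative.ofAdd (Pi.single i 1)) {i : Fin k} (e : ℤ) :
    Multiplicative.toAdd (θ (t i ^ e)) = Pi.single i e := by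
  rw [map_zpow, ht, toAdd_zpow, toAdd_ofAdd]
  funext j
  by_cases h : j = i
  · subst h; simp
  · simp [h]

private theorem geo2_split (t : Fin k → G) (z : Fin k → ℤ) (i : Fin k) (e : ℤ) :
    ∃ L1 L2 : List (Fin k),
      geo2_nz z = (L1.map fun j => (z j).natAbs).sum + (z i).natAbs +
        (L2.map fun j => (z j).natAbs).sum ∧
      geo2_sec t z = (L1.map fun j => t j ^ z j).prod * t i ^ z i *
        (L2.map fun j => t j ^ z j).prod ∧
      geo2_sec t (z + Pi.single i e) = (L1.map fun j => t j ^ z j).prod * t i ^ z i * t i ^ e *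
        (L2.map fun j => t j ^ z j).prod := by
  obtain ⟨L1, L2, hL⟩ := List.append_of_mem (List.mem_finRange i)
  have hnd : (L1 ++ i :: L2).Nodup := by rw [← hL]; exact List.nodup_finRange k
  have hi1 : i ∉ L1 := by
    intro h
    have := (List.nodup_append.mp hnd).2.2 i h i List.mem_cons_self
    exact this rfl
  have hi2 : i ∉ L2 := (List.nodup_cons.mp (List.nodup_append.mp hnd).2.1).1
  have hz : ∀ M : List (Fin k), i ∉ M →
      (M.map fun j => t j ^ (z + Pi.single i e : Fin k → ℤ) j) = M.map fun j => t j ^ z j := by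
    intro M hM
    refine List.map_congr_left fun j hj => ?_
    have hji : j ≠ i := fun h => hM (h ▸ hj)
    simp [hji]
  refine ⟨L1, L2, ?_, ?_, ?_⟩
  · unfold geo2_nz
    rw [hL, List.map_append, List.sum_append, List.map_cons, List.sum_cons, ← add_assoc]
  · unfold geo2_sec
    rw [hL, List.map_append, List.prod_append, List.map_cons, List.prod_cons, ← mul_assoc]
  · unfold geo2_sec
    rw [hL, List.map_append, List.prod_append, List.map_cons, List.prod_cons, hz L1 hi1,
      hz L2 hi2]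
    simp only [Pi.add_apply, Pi.single_eq_same, zpow_add]
    group

/-- the letters -/
private theorem geo2_letter (hA : Subgroup.closure (A : Set G) = θ.ker)
    (hB : Subgroup.closure (B : Set G) = ⊤) {t : Fin k → G}
    (ht : ∀ i, θ (t i) = Multiplicative.ofAdd (Pi.single i 1)) (htB : ∀ i, t i ∈ B)
    (hBt : ∀ b ∈ B, b ∈ A ∨ ∃ i, b = t i) {L : ℕ} (hL1 : 1 ≤ L)
    (hL : ∀ g x : G, θ x = 1 → len A (g * x * g⁻¹) ≤ L ^ len B g * len A x) {c : ℕ}
    (hc : ∀ g s : G, (s ∈ B ∨ s⁻¹ ∈ B) →
      len A (s * g * s⁻¹ * g⁻¹) ≤ c * len B g * L ^ len B g)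
    (z : Fin k → ℤ) (s : G) (hs : s ∈ B ∨ s⁻¹ ∈ B) :
    len A (geo2_sec t z * s * (geo2_sec t (z + Multiplicative.toAdd (θ s)))⁻¹) ≤
        (c + 1) * (geo2_nz z + 1) * L ^ (2 * geo2_nz z) ∧
      geo2_nz (z + Multiplicative.toAdd (θ s)) ≤ geo2_nz z + 1 := by
  have hmA : ∀ y : G, θ y = 1 → y ∈ Subgroup.closure (A : Set G) := fun y hy => by
    rw [hA]; exact hy
  have hmA' : ∀ y : G, y ∈ Subgroup.closure (A : Set G) → θ y = 1 := fun y hy => by
    rw [hA] at hy; exact hy
  have hlt : ∀ i, len B (t i) ≤ 1 := fun i => geo2_len_letter (Or.inl (htB i))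
  have hpow : ∀ m, m ≤ geo2_nz z → L ^ m ≤ L ^ geo2_nz z := fun m hm =>
    Nat.pow_le_pow_right hL1 hm
  have hpow1 : 1 ≤ L ^ geo2_nz z := Nat.one_le_pow _ _ hL1
  have h2 : L ^ (2 * geo2_nz z) = L ^ geo2_nz z * L ^ geo2_nz z := by rw [two_mul, pow_add]
  -- the kernel letters
  have hker : θ s = 1 → len A s ≤ 1 → 
      len A (geo2_sec t z * s * (geo2_sec t (z + Multiplicative.toAdd (θ s)))⁻¹) ≤
        (c + 1) * (geo2_nz z + 1) * L ^ (2 * geo2_nz z) ∧
      geo2_nz (z + Multiplicative.toAdd (θ s)) ≤ geo2_nz z + 1 := by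
    intro h1 hl
    rw [h1, toAdd_one, add_zero]
    refine ⟨?_, Nat.le_succ _⟩
    have hsz : len B (geo2_sec t z) ≤ geo2_nz z := by
      have := geo2_len_map hB (List.finRange k) t z 1 hlt
      rw [one_mul] at this
      exact this
    calc _ ≤ L ^ len B (geo2_sec t z) * len A s := hL _ _ h1
      _ ≤ L ^ geo2_nz z * 1 := Nat.mul_le_mul (hpow _ hsz) hl
      _ ≤ L ^ geo2_nz z * L ^ geo2_nz z := Nat.mul_le_mul_left _ hpow1
      _ = 1 * 1 * L ^ (2 * geo2_nz z) := by rw [h2]; ring
      _ ≤ (c + 1) * (geo2_nz z + 1) * L ^ (2 * geo2_nz z) := by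
          refine Nat.mul_le_mul_right _ (Nat.mul_le_mul ?_ ?_) <;> omega
  -- the other letters
  have hoth : ∀ (i : Fin k) (e : ℤ), e.natAbs ≤ 1 → s = t i ^ e →
      len A (geo2_sec t z * s * (geo2_sec t (z + Multiplicative.toAdd (θ s)))⁻¹) ≤
        (c + 1) * (geo2_nz z + 1) * L ^ (2 * geo2_nz z) ∧
      geo2_nz (z + Multiplicative.toAdd (θ s)) ≤ geo2_nz z + 1 := by
    intro i e he hse
    have hth : Multiplicative.toAdd (θ s) = Pi.single i e := by
      rw [hse]; exact geo2_theta_letter ht e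
    rw [hth]
    constructor
    · obtain ⟨L1, L2, hn, hz1, hz2⟩ := geo2_split t z i e
      set P : G := (L1.map fun j => t j ^ z j).prod * t i ^ z i with hP
      set R : G := (L2.map fun j => t j ^ z j).prod with hR
      have hm : ∀ x : G, x ∈ Subgroup.closure (B : Set G) := fun x => by rw [hB]; trivial
      have hlR : len B R ≤ (L2.map fun j => (z j).natAbs).sum := by
        have := geo2_len_map hB L2 t z 1 hlt
        rw [one_mul] at this
        exact this
      have hlP : len B P ≤ (L1.map fun j => (z j).natAbs).sum + (z i).natAbs := by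
        have h3 := geo2_len_map hB L1 t z 1 hlt
        rw [one_mul] at h3
        have h4 : len B (t i ^ z i) ≤ (z i).natAbs := by
          have h5 := geo2_len_zpow (hm (t i)) (z i)
          have h6 := Nat.mul_le_mul_left (z i).natAbs (hlt i)
          omega
        exact (geo2_len_mul (hm _) (hm _)).trans (Nat.add_le_add h3 h4)
      rw [hz1, hz2, ← hse]
      have e1 : P * R * s * (P * s * R)⁻¹ = P * (s * R * s⁻¹ * R⁻¹)⁻¹ * P⁻¹ := by group
      have hcm : θ (s * R * s⁻¹ * R⁻¹) = 1 := by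
        simp only [map_mul, map_inv]
        rw [mul_comm (θ s) (θ R)]
        group
      rw [e1]
      calc _ ≤ L ^ len B P * len A (s * R * s⁻¹ * R⁻¹)⁻¹ := hL _ _ (by rw [map_inv, hcm, inv_one])
        _ ≤ L ^ len B P * (c * len B R * L ^ len B R) :=
            Nat.mul_le_mul_left _ ((geo2_len_inv (hmA _ hcm)).trans (hc R s hs))
        _ ≤ L ^ geo2_nz z * ((c + 1) * (geo2_nz z + 1) * L ^ geo2_nz z) := by
            refine Nat.mul_le_mul (hpow _ (by omega)) ?_
            refine Nat.mul_le_mul (Nat.mul_le_mul (by omega) (by omega)) (hpow _ (by omega))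
        _ = (c + 1) * (geo2_nz z + 1) * L ^ (2 * geo2_nz z) := by rw [h2]; ring
    · rw [geo2_nz_eq, geo2_nz_eq]
      have h7 : ∀ j, ((z + Pi.single i e : Fin k → ℤ) j).natAbs ≤
          (z j).natAbs + if j = i then 1 else 0 := by
        intro j
        by_cases h : j = i
        · subst h
          simp only [Pi.add_apply, Pi.single_eq_same, if_true]
          omega
        · simp [h]
      calc _ ≤ ∑ j, ((z j).natAbs + if j = i then 1 else 0) := Finset.sum_le_sum fun j _ => h7 j
        _ = _ := by rw [Finset.sum_add_distrib]; simp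
  rcases hs with hs' | hs'
  · rcases hBt s hs' with ha | ⟨i, hi⟩
    · exact hker (hmA' _ (Subgroup.subset_closure ha)) (geo2_len_letter (Or.inl ha))
    · exact hoth i 1 (by simp) (by rw [hi, zpow_one])
  · rcases hBt s⁻¹ hs' with ha | ⟨i, hi⟩
    · refine hker ?_ (geo2_len_letter (Or.inr ha))
      have := hmA' _ (Subgroup.subset_closure (show s⁻¹ ∈ (A : Set G) from ha))
      simpa using this
    · refine hoth i (-1) (by simp) ?_
      rw [zpow_neg, zpow_one, ← hi, inv_inv]

/-- words -/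
private theorem geo2_words (hA : Subgroup.closure (A : Set G) = θ.ker)
    (hB : Subgroup.closure (B : Set G) = ⊤) {t : Fin k → G}
    (ht : ∀ i, θ (t i) = Multiplicative.ofAdd (Pi.single i 1)) (htB : ∀ i, t i ∈ B)
    (hBt : ∀ b ∈ B, b ∈ A ∨ ∃ i, b = t i) {L : ℕ} (hL1 : 1 ≤ L)
    (hL : ∀ g x : G, θ x = 1 → len A (g * x * g⁻¹) ≤ L ^ len B g * len A x) {c : ℕ}
    (hc : ∀ g s : G, (s ∈ B ∨ s⁻¹ ∈ B) →
      len A (s * g * s⁻¹ * g⁻¹) ≤ c * len B g * L ^ len B g)
    (z : Fin k → ℤ) (g : G) :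
    len A (geo2_sec t z * g * (geo2_sec t (z + Multiplicative.toAdd (θ g)))⁻¹) ≤
      len B g * ((c + 1) * (geo2_nz z + len B g + 1) * L ^ (2 * (geo2_nz z + len B g))) := by
  have hmA : ∀ y : G, θ y = 1 → y ∈ Subgroup.closure (A : Set G) := fun y hy => by
    rw [hA]; exact hy
  have hg : g ∈ Subgroup.closure (B : Set G) := by rw [hB]; trivial
  obtain ⟨l, h1, h2, h3⟩ := geo2_exists_word hg
  have hD : ∀ (z : Fin k → ℤ) (g : G),
      θ (geo2_sec t z * g * (geo2_sec t (z + Multiplicative.toAdd (θ g)))⁻¹) = 1 := by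
    intro z g
    rw [map_mul, map_mul, map_inv, geo2_theta ht, geo2_theta ht, ofAdd_add, ofAdd_toAdd]
    group
  have hF : ∀ m n : ℕ, m ≤ n → (c + 1) * (m + 1) * L ^ (2 * m) ≤
      (c + 1) * (n + 1) * L ^ (2 * n) := by
    intro m n hmn
    exact Nat.mul_le_mul (Nat.mul_le_mul_left _ (by omega)) (Nat.pow_le_pow_right hL1 (by omega))
  have key : ∀ l : List G, (∀ a ∈ l, a ∈ B ∨ a⁻¹ ∈ B) → ∀ z : Fin k → ℤ,
      len A (geo2_sec t z * l.prod * (geo2_sec t (z + Multiplicative.toAdd (θ l.prod)))⁻¹) ≤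
      l.length * ((c + 1) * (geo2_nz z + l.length + 1) * L ^ (2 * (geo2_nz z + l.length))) := by
    intro l
    induction l with
    | nil =>
      intro _ z
      simp [geo2_len_one]
    | cons a l ih =>
      intro h z
      have ih' := ih (fun b hb => h b (List.mem_cons_of_mem _ hb))
        (z + Multiplicative.toAdd (θ a))
      obtain ⟨k1, k2⟩ := geo2_letter hA hB ht htB hBt hL1 hL hc z a (h a List.mem_cons_self)
      have e : geo2_sec t z * (a :: l).prod *
          (geo2_sec t (z + Multiplicative.toAdd (θ (a :: l).prod)))⁻¹ =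
          (geo2_sec t z * a * (geo2_sec t (z + Multiplicative.toAdd (θ a)))⁻¹) *
          (geo2_sec t (z + Multiplicative.toAdd (θ a)) * l.prod *
            (geo2_sec t (z + Multiplicative.toAdd (θ a) + Multiplicative.toAdd (θ l.prod)))⁻¹) := by
        rw [List.prod_cons, map_mul, toAdd_mul, ← add_assoc]
        group
      rw [e, List.length_cons]
      calc _ ≤ len A (geo2_sec t z * a * (geo2_sec t (z + Multiplicative.toAdd (θ a)))⁻¹) +
            len A (geo2_sec t (z + Multiplicative.toAdd (θ a)) * l.prod *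
            (geo2_sec t (z + Multiplicative.toAdd (θ a) + Multiplicative.toAdd (θ l.prod)))⁻¹) :=
            geo2_len_mul (hmA _ (hD _ _)) (hmA _ (hD _ _))
        _ ≤ (c + 1) * (geo2_nz z + (l.length + 1) + 1) * L ^ (2 * (geo2_nz z + (l.length + 1))) +
            l.length * ((c + 1) * (geo2_nz z + (l.length + 1) + 1) *
              L ^ (2 * (geo2_nz z + (l.length + 1)))) := by
            refine Nat.add_le_add (k1.trans (hF _ _ (by omega))) (ih'.trans ?_)
            exact Nat.mul_le_mul_left _ (hF _ _ (by omega))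
        _ = _ := by ring
  have := key l h2 z
  rw [h3, h1] at this
  exact this

end Geo2

section Main

variable {G : Type v} [Group G] {k : ℕ} {θ : G →* Multiplicative (Fin k → ℤ)} {A T : Finset G}

private theorem geo2_real (n c m L N c' : ℕ) (h : n ≤ c' * N) :
    ((n * ((c + 1) * (m + n + 1) * L ^ (2 * (m + n))) : ℕ) : ℝ) ≤
      Real.exp (((c : ℝ) + (2 + 2 * L) * (1 + c')) * (1 + m + N)) := by
  have h1 : (n : ℝ) ≤ Real.exp n := by
    have := Real.add_one_le_exp (n : ℝ)
    linarith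
  have h2 : (c : ℝ) + 1 ≤ Real.exp c := Real.add_one_le_exp _
  have h3 : (m : ℝ) + n + 1 ≤ Real.exp (m + n) := Real.add_one_le_exp _
  have h4 : (L : ℝ) ≤ Real.exp L := by
    have := Real.add_one_le_exp (L : ℝ)
    linarith
  have h5 : (L : ℝ) ^ (2 * (m + n)) ≤ Real.exp ((2 * (m + n) : ℕ) * L) := by
    rw [Real.exp_nat_mul]
    exact pow_le_pow_left₀ (Nat.cast_nonneg _) h4 _
  have hn : (n : ℝ) ≤ c' * N := by exact_mod_cast h
  push_cast at h5 ⊢
  calc (n : ℝ) * (((c : ℝ) + 1) * (m + n + 1) * (L : ℝ) ^ (2 * (m + n)))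
      ≤ Real.exp n * (Real.exp c * Real.exp (m + n) * Real.exp (2 * (m + n) * L)) := by gcongr
    _ = Real.exp (n + (c + (m + n) + 2 * (m + n) * L)) := by
        rw [← Real.exp_add, ← Real.exp_add, ← Real.exp_add]
    _ ≤ _ := by
        apply Real.exp_le_exp.mpr
        have hc0 : (0 : ℝ) ≤ c := Nat.cast_nonneg _
        have hm0 : (0 : ℝ) ≤ m := Nat.cast_nonneg _
        have hL0 : (0 : ℝ) ≤ L := Nat.cast_nonneg _
        have hN0 : (0 : ℝ) ≤ N := Nat.cast_nonneg _
        have hn0 : (0 : ℝ) ≤ n := Nat.cast_nonneg _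
        have hc'0 : (0 : ℝ) ≤ c' := Nat.cast_nonneg _
        have e1 : (n : ℝ) + (c + (m + n) + 2 * (m + n) * L) ≤ c + (2 + 2 * L) * (m + n) := by
          nlinarith [mul_nonneg hm0 hL0]
        have e2 : (m : ℝ) + n ≤ (1 + c') * (1 + m + N) := by
          nlinarith [mul_nonneg hc'0 hm0]
        have e3 : (2 + 2 * (L : ℝ)) * (m + n) ≤ (2 + 2 * L) * ((1 + c') * (1 + m + N)) :=
          mul_le_mul_of_nonneg_left e2 (by positivity)
        have e4 : (c : ℝ) ≤ c * (1 + m + N) := by
          nlinarith [mul_nonneg hc0 hm0, mul_nonneg hc0 hN0]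
        calc _ ≤ (c : ℝ) + (2 + 2 * L) * (m + n) := e1
          _ ≤ c * (1 + m + N) + (2 + 2 * L) * ((1 + c') * (1 + m + N)) := add_le_add e4 e3
          _ = _ := by ring

/-- a section with control of the kernel part -/
theorem exists_section (h : ExpExt θ A T) : ∃ (σ : (Fin k → ℤ) → G) (C : ℝ), 0 ≤ C ∧ σ 0 = 1 ∧
    (∀ z, Multiplicative.toAdd (θ (σ z)) = z) ∧
    (∀ z, (len T (σ z) : ℝ) ≤ C * ∑ i, |(z i : ℝ)|) ∧
    ∀ (z : Fin k → ℤ) (g : G),
      (len A (σ z * g * (σ (z + Multiplicative.toAdd (θ g)))⁻¹) : ℝ) ≤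
        Real.exp (C * (1 + ∑ i, |(z i : ℝ)| + len T g)) := by
  classical
  choose t ht using fun i : Fin k => h.surj (Multiplicative.ofAdd (Pi.single i 1))
  set B : Finset G := A ∪ Finset.univ.image t with hBdef
  have htB : ∀ i, t i ∈ B := fun i => by
    rw [hBdef]
    exact Finset.mem_union_right _ (Finset.mem_image_of_mem _ (Finset.mem_univ i))
  have hBt : ∀ b ∈ B, b ∈ A ∨ ∃ i, b = t i := by
    intro b hb
    rw [hBdef, Finset.mem_union, Finset.mem_image] at hb
    rcases hb with hb | ⟨i, -, hi⟩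
    · exact Or.inl hb
    · exact Or.inr ⟨i, hi.symm⟩
  have hAB : Subgroup.closure (A : Set G) ≤ Subgroup.closure (B : Set G) :=
    Subgroup.closure_mono (by rw [hBdef]; exact_mod_cast Finset.subset_union_left)
  have hsecB : ∀ z, geo2_sec t z ∈ Subgroup.closure (B : Set G) := by
    intro z
    unfold geo2_sec
    refine Subgroup.list_prod_mem _ fun x hx => ?_
    rw [List.mem_map] at hx
    obtain ⟨i, -, rfl⟩ := hx
    exact Subgroup.zpow_mem _ (Subgroup.subset_closure (htB i)) _
  have hB : Subgroup.closure (B : Set G) = ⊤ := by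
    rw [eq_top_iff]
    intro g _
    have h1 : g * (geo2_sec t (Multiplicative.toAdd (θ g)))⁻¹ ∈ θ.ker := by
      rw [MonoidHom.mem_ker, map_mul, map_inv, geo2_theta ht, ofAdd_toAdd, mul_inv_cancel]
    rw [← h.genA] at h1
    have h2 := Subgroup.mul_mem _ (hAB h1) (hsecB (Multiplicative.toAdd (θ g)))
    simpa using h2
  obtain ⟨L, hL1, hL⟩ := geo2_conj h.genA hB
  obtain ⟨c, hc⟩ := geo2_comm h.genA hB hL1 hL
  obtain ⟨c', hc'⟩ := geo2_len_change h.genT hB
  set c2 : ℕ := Finset.univ.sup fun i => len T (t i) with hc2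
  have hnz : ∀ z : Fin k → ℤ, ((geo2_nz z : ℕ) : ℝ) = ∑ i, |(z i : ℝ)| := by
    intro z
    rw [geo2_nz_eq, Nat.cast_sum]
    refine Finset.sum_congr rfl fun i _ => ?_
    rw [Nat.cast_natAbs, Int.cast_abs]
  have hnz0 : ∀ z : Fin k → ℤ, (0 : ℝ) ≤ ∑ i, |(z i : ℝ)| := fun z =>
    Finset.sum_nonneg fun i _ => abs_nonneg _
  have hC0 : (0 : ℝ) ≤ (c : ℝ) + (2 + 2 * L) * (1 + c') := by positivity
  have hc20 : (0 : ℝ) ≤ c2 := Nat.cast_nonneg _
  refine ⟨geo2_sec t, (c : ℝ) + (2 + 2 * L) * (1 + c') + c2, by positivity, ?_, ?_, ?_, ?_⟩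
  · unfold geo2_sec
    simp
  · intro z
    rw [geo2_theta ht, toAdd_ofAdd]
  · intro z
    have h1 := geo2_len_map h.genT (List.finRange k) t z c2
      (fun i => Finset.le_sup (f := fun i => len T (t i)) (Finset.mem_univ i))
    have h2 : len T (geo2_sec t z) ≤ c2 * geo2_nz z := h1
    have h3 : (len T (geo2_sec t z) : ℝ) ≤ c2 * (geo2_nz z : ℝ) := by exact_mod_cast h2
    rw [hnz z] at h3
    refine h3.trans (mul_le_mul_of_nonneg_right (by linarith) (hnz0 z))
  · intro z g
    have h1 := geo2_words h.genA hB ht htB hBt hL1 hL hc z g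
    have h2 : (len A (geo2_sec t z * g *
        (geo2_sec t (z + Multiplicative.toAdd (θ g)))⁻¹) : ℝ) ≤
        ((len B g * ((c + 1) * (geo2_nz z + len B g + 1) *
          L ^ (2 * (geo2_nz z + len B g))) : ℕ) : ℝ) := by exact_mod_cast h1
    refine h2.trans ((geo2_real _ c (geo2_nz z) L (len T g) c' (hc' g)).trans ?_)
    rw [hnz z]
    apply Real.exp_le_exp.mpr
    refine mul_le_mul_of_nonneg_right (by linarith) ?_
    have := hnz0 z
    positivity

end Main

end Vale.Agent.P188.SG
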