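import Vale.Agent.P188.SG.Defs
import Vale.Agent.P188.QI
import Vale.Agent.P188.SG.Geo2

/-!
P188, Theorem S: the path lemma.
-/

universe u v w

open Filter Topology

namespace Vale.Agent.P188.SG

section Geo

variable {G : Type v} [Group G] {k : ℕ} {θ : G →* Multiplicative (Fin k → ℤ)} {A T : Finset G}

theorem Geo3_list {S : Set G} {g : G} (hg : g ∈ Subgroup.closure S) :
    ∃ l : List G, l.length = wordDist S 1 g ∧ (∀ a ∈ l, a ∈ S ∨ a⁻¹ ∈ S) ∧ l.prod = g := by
  have hne : {n : ℕ | ∃ l : List G, l.length = n ∧ (∀ a ∈ l, a ∈ S ∨ a⁻¹ ∈ S) ∧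
      l.prod = 1⁻¹ * g}.Nonempty := by
    have hmem : (1 : G)⁻¹ * g ∈ (Subgroup.closure S).toSubmonoid := by
      rw [inv_one, one_mul]; exact hg
    rw [Subgroup.closure_toSubmonoid] at hmem
    obtain ⟨l, hl, hp⟩ := Submonoid.exists_list_of_mem_closure hmem
    exact ⟨l.length, l, rfl, fun a ha => hl a ha, hp⟩
  obtain ⟨l, h1, h2, h3⟩ := Nat.sInf_mem hne
  exact ⟨l, h1, h2, by rw [h3, inv_one, one_mul]⟩

theorem Geo3_len_mul {S : Finset G} {g h : G} (hg : g ∈ Subgroup.closure (S : Set G))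
    (hh : h ∈ Subgroup.closure (S : Set G)) : len S (g * h) ≤ len S g + len S h := by
  obtain ⟨l, h1, h2, h3⟩ := Geo3_list hg
  obtain ⟨m, k1, k2, k3⟩ := Geo3_list hh
  unfold len
  rw [← h1, ← k1]
  refine Nat.sInf_le ⟨l ++ m, by simp, fun a ha => ?_, by simp [h3, k3]⟩
  rcases List.mem_append.1 ha with h | h
  · exact h2 a h
  · exact k2 a h

theorem Geo3_len_one {S : Finset G} : len S (1 : G) = 0 :=
  Nat.le_zero.1 (Nat.sInf_le ⟨[], rfl, by simp, by simp⟩)

theorem path_lemma (h : ExpExt θ A T) (κ : ℕ) :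
    ∃ C : ℝ, 0 ≤ C ∧ ∀ (L : ℕ) (E : ℝ) (p : ℕ → G),
    0 ≤ E → (∀ i < L, len T ((p i)⁻¹ * p (i + 1)) ≤ κ) →
    (∀ i ≤ L, ∀ j, |co θ (p i) j - co θ (p 0) j| ≤ E) →
    (len T ((p 0)⁻¹ * p L) : ℝ) ≤ C * (1 + E + Real.log (1 + L)) := by
  obtain ⟨σ, C0, hC0, hσ0, hσθ, hσT, hσA⟩ := exists_section h
  obtain ⟨Cd, hCd⟩ := h.dist
  have hD0 : 0 ≤ max Cd 0 := le_max_right _ _
  refine ⟨max Cd 0 * (1 + C0 * (1 + κ) + C0 * k) + C0 * k, by positivity, ?_⟩
  intro L E p hE hstep hexc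
  -- the coordinates along the path
  set z : ℕ → Fin k → ℤ := fun i => Multiplicative.toAdd (θ ((p 0)⁻¹ * p i)) with hz
  have hz0 : z 0 = 0 := by simp [hz]
  have hzs : ∀ i, z (i + 1) = z i + Multiplicative.toAdd (θ ((p i)⁻¹ * p (i + 1))) := by
    intro i
    have : (p 0)⁻¹ * p (i + 1) = ((p 0)⁻¹ * p i) * ((p i)⁻¹ * p (i + 1)) := by group
    simp only [hz]
    rw [this, map_mul θ ((p 0)⁻¹ * p i), toAdd_mul]
  have hzsum : ∀ i ≤ L, ∑ j, |((z i j : ℤ) : ℝ)| ≤ k * E := by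
    intro i hi
    have h1 : ∀ j ∈ (Finset.univ : Finset (Fin k)), |((z i j : ℤ) : ℝ)| ≤ E := by
      intro j _
      have h2 := hexc i hi j
      have h3 : ((z i j : ℤ) : ℝ) = co θ (p i) j - co θ (p 0) j := by
        simp only [hz, co, map_mul, map_inv, toAdd_mul, toAdd_inv, Pi.add_apply, Pi.neg_apply]
        push_cast
        ring
      rw [h3]
      exact h2
    have h4 := Finset.sum_le_card_nsmul _ _ _ h1
    simpa using h4
  -- the kernel part
  set n : ℕ → G := fun i => (p 0)⁻¹ * p i * (σ (z i))⁻¹ with hn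
  set D : ℕ → G := fun i => σ (z i) * ((p i)⁻¹ * p (i + 1)) * (σ (z (i + 1)))⁻¹ with hDdef
  have hns : ∀ i, n (i + 1) = n i * D i := by
    intro i
    simp only [hn, hDdef]
    group
  have hθσ : ∀ w, θ (σ w) = Multiplicative.ofAdd w := fun w => by
    rw [← hσθ w, ofAdd_toAdd, hσθ w]
  have hnker : ∀ i, n i ∈ θ.ker := by
    intro i
    rw [MonoidHom.mem_ker]
    simp only [hn]
    rw [map_mul, map_inv, hθσ]
    simp [hz]
  have hDker : ∀ i, D i ∈ θ.ker := by
    intro i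
    have h1 : D i = (n i)⁻¹ * n (i + 1) := by rw [hns]; group
    rw [h1]
    exact θ.ker.mul_mem (θ.ker.inv_mem (hnker i)) (hnker (i + 1))
  have hM0 : 0 ≤ C0 * (1 + k * E + κ) := by positivity
  have hDlen : ∀ i < L, (len A (D i) : ℝ) ≤ Real.exp (C0 * (1 + k * E + κ)) := by
    intro i hi
    have h1 := hσA (z i) ((p i)⁻¹ * p (i + 1))
    rw [← hzs] at h1
    refine h1.trans (Real.exp_le_exp.2 (mul_le_mul_of_nonneg_left ?_ hC0))
    have h2 := hzsum i hi.le
    have h3 : (len T ((p i)⁻¹ * p (i + 1)) : ℝ) ≤ κ := by exact_mod_cast hstep i hi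
    linarith
  have hnlen : ∀ i ≤ L, (len A (n i) : ℝ) ≤ i * Real.exp (C0 * (1 + k * E + κ)) := by
    intro i
    induction i with
    | zero =>
      intro _
      have h1 : n 0 = 1 := by simp [hn, hz0, hσ0]
      rw [h1, Geo3_len_one]
      simp
    | succ i ih =>
      intro hi
      have h1 := ih (by omega)
      have h2 := hDlen i (by omega)
      have h3 : len A (n (i + 1)) ≤ len A (n i) + len A (D i) := by
        rw [hns]
        exact Geo3_len_mul (by rw [h.genA]; exact hnker i) (by rw [h.genA]; exact hDker i)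
      have h4 : (len A (n (i + 1)) : ℝ) ≤ len A (n i) + len A (D i) := by exact_mod_cast h3
      push_cast
      linarith
  -- conclusion
  have hsplit : (p 0)⁻¹ * p L = n L * σ (z L) := by simp only [hn]; group
  have h5 : (len T ((p 0)⁻¹ * p L) : ℝ) ≤ len T (n L) + len T (σ (z L)) := by
    rw [hsplit]
    exact_mod_cast Geo3_len_mul (by rw [h.genT]; trivial) (by rw [h.genT]; trivial)
  have h6 : (len T (σ (z L)) : ℝ) ≤ C0 * (k * E) :=
    (hσT (z L)).trans (mul_le_mul_of_nonneg_left (hzsum L le_rfl) hC0)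
  have hL1 : (0 : ℝ) < 1 + L := by positivity
  have hlog0 : 0 ≤ Real.log (1 + L) := Real.log_nonneg (by
    have : (0 : ℝ) ≤ L := Nat.cast_nonneg L
    linarith)
  have h7 : Real.log (1 + len A (n L)) ≤ Real.log (1 + L) + C0 * (1 + k * E + κ) := by
    have h8 := hnlen L le_rfl
    have h9 : (1 : ℝ) ≤ Real.exp (C0 * (1 + k * E + κ)) := Real.one_le_exp hM0
    have h10 : (1 : ℝ) + len A (n L) ≤ (1 + L) * Real.exp (C0 * (1 + k * E + κ)) := by
      linarith
    have h11 := Real.log_le_log (by positivity) h10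
    rwa [Real.log_mul hL1.ne' (Real.exp_pos _).ne', Real.log_exp] at h11
  have h12 : (len T (n L) : ℝ) ≤
      max Cd 0 * (1 + (Real.log (1 + L) + C0 * (1 + k * E + κ))) := by
    refine (hCd (n L) (hnker L)).trans ?_
    have h13 : 0 ≤ 1 + Real.log (1 + len A (n L)) := by
      have : 0 ≤ Real.log (1 + (len A (n L) : ℝ)) := Real.log_nonneg (by
        have : (0 : ℝ) ≤ len A (n L) := Nat.cast_nonneg _
        linarith)
      linarith
    refine (mul_le_mul_of_nonneg_right (le_max_left Cd 0) h13).trans ?_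
    exact mul_le_mul_of_nonneg_left (by linarith) hD0
  refine h5.trans ((add_le_add h12 h6).trans ?_)
  have e1 : 0 ≤ max Cd 0 * E := by positivity
  have e2 : 0 ≤ max Cd 0 * (C0 * (1 + κ)) * (E + Real.log (1 + L)) := by positivity
  have e3 : 0 ≤ max Cd 0 * (C0 * k) * (1 + Real.log (1 + L)) := by positivity
  have e4 : 0 ≤ C0 * k * (1 + Real.log (1 + L)) := by positivity
  nlinarith [e1, e2, e3, e4]

end Geo

end Vale.Agent.P188.SG
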