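import Vale.Agent.P188.SG.Len
import Vale.Agent.P188.SG.Geo1
import Vale.Agent.P188.SG.Geo3

/-!
P188, Theorem S+: word length of products of short elements whose partial products have bounded
displacement of `co θ ∘ F`.
-/

universe u v w

open Filter Topology Pointwise

namespace Vale.Agent.P188.SG

section Exc

variable {H : Type u} [Group H] {S : Finset H}

/-- concatenation of geodesics -/
lemma Exc_path (hS : Subgroup.closure (S : Set H) = ⊤) {M : ℝ} (l : List H)
    (hl : ∀ x ∈ l, (len S x : ℝ) ≤ M) (hM : 0 ≤ M) :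
    ∃ (L : ℕ) (q : ℕ → H), q 0 = 1 ∧ q L = l.prod ∧ (L : ℝ) ≤ l.length * M ∧
      (∀ i, len S ((q i)⁻¹ * q (i + 1)) ≤ 1) ∧
      ∀ i, ∃ j ≤ l.length, (len S ((l.take j).prod⁻¹ * q i) : ℝ) ≤ M := by
  have len_one' : len S (1 : H) = 0 := by
    have h1 : len S (1 : H) ≤ 0 := by
      unfold len wordDist
      exact Nat.sInf_le ⟨[], rfl, by simp, by simp⟩
    omega
  induction l with
  | nil =>
    refine ⟨0, fun _ => 1, rfl, by simp, by simp, fun i => by simp [len_one'], fun i => ?_⟩
    exact ⟨0, le_rfl, by simp [len_one', hM]⟩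
  | cons x l ih =>
    obtain ⟨L, q, hq0, hqL, hLM, hst, hnear⟩ := ih fun z hz => hl z (List.mem_cons_of_mem _ hz)
    obtain ⟨p, hp0, hpx, hpst, hplen, _⟩ := exists_path hS x
    have hx := hl x List.mem_cons_self
    refine ⟨len S x + L, fun i => if i < len S x then p i else x * q (i - len S x), ?_, ?_, ?_,
      ?_, ?_⟩
    · by_cases h0 : 0 < len S x
      · simp [h0, hp0]
      · have h1 : len S x = 0 := by omega
        have h2 : x = 1 := by rw [← hpx, h1, hp0]
        have h3 : ¬ (0 < len S x) := h0
        simp only [h3, if_false]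
        rw [h1, Nat.sub_zero, hq0, h2, mul_one]
    · have h1 : ¬ (len S x + L < len S x) := by omega
      simp only [h1, if_false]
      rw [Nat.add_sub_cancel_left, hqL, List.prod_cons]
    · rw [List.length_cons]
      push_cast
      have h1 : ((l.length : ℝ) + 1) * M = l.length * M + M := by ring
      rw [h1]
      linarith
    · intro i
      by_cases h1 : i + 1 < len S x
      · have h2 : i < len S x := by omega
        simp only [h1, h2, if_true]
        exact hpst i
      · by_cases h2 : i < len S x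
        · have h3 : i + 1 = len S x := by omega
          have h4 : i + 1 - len S x = 0 := by omega
          simp only [h1, h2, if_true, if_false]
          rw [h4, hq0, mul_one]
          conv_lhs => rw [← hpx, ← h3]
          exact hpst i
        · have h3 : i + 1 - len S x = (i - len S x) + 1 := by omega
          simp only [h1, h2, if_false]
          rw [h3]
          have h4 : (x * q (i - len S x))⁻¹ * (x * q (i - len S x + 1)) =
              (q (i - len S x))⁻¹ * q (i - len S x + 1) := by group
          rw [h4]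
          exact hst _
    · intro i
      by_cases h1 : i < len S x
      · refine ⟨0, Nat.zero_le _, ?_⟩
        simp only [h1, if_true, List.take_zero, List.prod_nil, inv_one, one_mul]
        exact le_trans (by exact_mod_cast hplen i) hx
      · obtain ⟨j, hj, hj'⟩ := hnear (i - len S x)
        refine ⟨j + 1, by simpa using hj, ?_⟩
        simp only [h1, if_false, List.take_succ_cons, List.prod_cons]
        have h4 : (x * (List.take j l).prod)⁻¹ * (x * q (i - len S x)) =
            (List.take j l).prod⁻¹ * q (i - len S x) := by group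
        rw [h4]
        exact hj'

end Exc

theorem excursion_len {H : Type u} [Group H] {S : Finset H} {G : Type v} [Group G] {k : ℕ}
    {θ : G →* Multiplicative (Fin k → ℤ)} {A T : Finset G}
    (h : ExpExt θ A T) (hS : Subgroup.closure (S : Set H) = ⊤)
    (K C : ℝ) (hK : 1 ≤ K) (hC : 0 ≤ C) (F : H → G)
    (hq : IsQuasiIsometry (wordDist (S : Set H)) (wordDist (T : Set G)) K C F) :
    ∃ C₁ : ℝ, 0 ≤ C₁ ∧ ∀ (M E : ℝ) (y : H) (l : List H), 0 ≤ M → 0 ≤ E →
      (∀ x ∈ l, (len S x : ℝ) ≤ M) →
      (∀ l' : List H, l' <+: l → ∀ i,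
        |co θ (F (y * l'.prod)) i - co θ (F y) i| ≤ E) →
      (len S l.prod : ℝ) ≤ C₁ * (1 + M + E + Real.log (1 + l.length * M)) := by
  obtain ⟨Lc, hLc, hLip⟩ := co_lip h
  obtain ⟨Cp, hCp, hpath⟩ := path_lemma h ⌊K + C⌋₊
  have hK0 : 0 < K := by linarith
  -- the quasi-isometry in terms of `len`
  have hup : ∀ y x : H, (len T ((F y)⁻¹ * F (y * x)) : ℝ) ≤ K * len S x + C := by
    intro y x
    have h2 := (hq.1 y (y * x)).2
    rw [wordDist_eq_len, wordDist_eq_len, inv_mul_cancel_left] at h2
    exact h2
  have hlow : ∀ y x : H, K⁻¹ * (len S x : ℝ) - C ≤ (len T ((F y)⁻¹ * F (y * x)) : ℝ) := by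
    intro y x
    have h2 := (hq.1 y (y * x)).1
    rw [wordDist_eq_len, wordDist_eq_len, inv_mul_cancel_left] at h2
    exact h2
  have hco : ∀ (y x : H) (i : Fin k),
      |co θ (F (y * x)) i - co θ (F y) i| ≤ Lc * (K * len S x + C) := by
    intro y x i
    have h1 := hLip (F y) ((F y)⁻¹ * F (y * x)) i
    rw [mul_inv_cancel_left] at h1
    exact h1.trans (mul_le_mul_of_nonneg_left (hup y x) hLc)
  refine ⟨K * (Cp * (1 + Lc * C + Lc * K) + C), by positivity, ?_⟩
  intro M E y l hM hE0 hlM hdisp'
  set w : ℕ → H := fun j => (l.take j).prod with hw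
  have hdisp : ∀ j i, |co θ (F (y * w j)) i - co θ (F y) i| ≤ E := fun j i =>
    hdisp' _ (List.take_prefix j l) i
  -- the path
  obtain ⟨L, q, hq0, hqL, hLM, hst, hnear⟩ := Exc_path hS l hlM hM
  have hE : 0 ≤ E + Lc * (K * M + C) := by positivity
  have key := hpath L (E + Lc * (K * M + C)) (fun i => F (y * q i)) hE ?_ ?_
  · rw [hq0, mul_one, hqL] at key
    have h1 := (hlow y l.prod).trans key
    have hlog : Real.log (1 + L) ≤ Real.log (1 + l.length * M) :=
      Real.log_le_log (by positivity) (by linarith)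
    have hlog0 : 0 ≤ Real.log (1 + l.length * M) := Real.log_nonneg (by
      have : (0 : ℝ) ≤ l.length * M := by positivity
      linarith)
    set lg := Real.log (1 + l.length * M) with hlg
    have h2 : Cp * (1 + (E + Lc * (K * M + C)) + Real.log (1 + L)) ≤
        Cp * (1 + (E + Lc * (K * M + C)) + lg) :=
      mul_le_mul_of_nonneg_left (by linarith) hCp
    have h3 : (len S l.prod : ℝ) ≤ K * (Cp * (1 + (E + Lc * (K * M + C)) + lg) + C) := by
      have h4 : K⁻¹ * (len S l.prod : ℝ) ≤ Cp * (1 + (E + Lc * (K * M + C)) + lg) + C := by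
        linarith
      have h5 := mul_le_mul_of_nonneg_left h4 hK0.le
      rwa [mul_inv_cancel_left₀ hK0.ne'] at h5
    refine h3.trans ?_
    rw [mul_assoc]
    refine mul_le_mul_of_nonneg_left ?_ hK0.le
    set s := 1 + M + E + lg with hs
    have hs1 : 1 ≤ s := by linarith
    have hsM : M ≤ s := by linarith
    have e1 : 1 + (E + Lc * (K * M + C)) + lg ≤ (1 + Lc * C + Lc * K) * s := by
      have e2 : Lc * C ≤ Lc * C * s := le_mul_of_one_le_right (by positivity) hs1
      have e3 : Lc * K * M ≤ Lc * K * s := mul_le_mul_of_nonneg_left hsM (by positivity)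
      have e4 : (1 + Lc * C + Lc * K) * s = s + Lc * C * s + Lc * K * s := by ring
      have e5 : Lc * (K * M + C) = Lc * K * M + Lc * C := by ring
      rw [e4, e5]
      linarith
    have e2 : Cp * (1 + (E + Lc * (K * M + C)) + lg) ≤ Cp * ((1 + Lc * C + Lc * K) * s) :=
      mul_le_mul_of_nonneg_left e1 hCp
    have e3 : C ≤ C * s := le_mul_of_one_le_right hC hs1
    calc Cp * (1 + (E + Lc * (K * M + C)) + lg) + C
        ≤ Cp * ((1 + Lc * C + Lc * K) * s) + C * s := add_le_add e2 e3
      _ = (Cp * (1 + Lc * C + Lc * K) + C) * s := by ring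
  · intro i _
    refine Nat.le_floor ?_
    have h1 := hup (y * q i) ((q i)⁻¹ * q (i + 1))
    rw [mul_assoc y, mul_inv_cancel_left] at h1
    refine h1.trans ?_
    have h2 : (len S ((q i)⁻¹ * q (i + 1)) : ℝ) ≤ 1 := by exact_mod_cast hst i
    have h3 : K * (len S ((q i)⁻¹ * q (i + 1)) : ℝ) ≤ K * 1 := mul_le_mul_of_nonneg_left h2 hK0.le
    linarith
  · intro i _ j
    rw [hq0, mul_one]
    obtain ⟨m, hm, hm'⟩ := hnear i
    have h1 := hdisp m j
    have h2 := hco (y * w m) ((w m)⁻¹ * q i) j
    rw [mul_assoc y, mul_inv_cancel_left] at h2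
    have h3 : Lc * (K * (len S ((w m)⁻¹ * q i) : ℝ) + C) ≤ Lc * (K * M + C) := by
      refine mul_le_mul_of_nonneg_left ?_ hLc
      have := mul_le_mul_of_nonneg_left hm' hK0.le
      linarith
    have h4 : co θ (F (y * q i)) j - co θ (F y) j =
        (co θ (F (y * w m)) j - co θ (F y) j) +
        (co θ (F (y * q i)) j - co θ (F (y * w m)) j) := by ring
    rw [h4]
    refine (abs_add_le _ _).trans ?_
    linarith

end Vale.Agent.P188.SG
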