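import Vale.Agent.P188.SG.Semi
import Vale.Agent.P188.Poly2

/-! P188: extensions of `ℤ^k` by `ℤ^d` with a hyperbolic element. -/

universe u v w

open Filter Topology Pointwise

namespace Vale.Agent.P188.SG

theorem expExt_extension {d k : ℕ} {G : Type u} [Group G]
    (ι : Multiplicative (Fin d → ℤ) →* G) (θ : G →* Multiplicative (Fin k → ℤ)) (g₀ : G)
    (M : Matrix (Fin d) (Fin d) ℤ) (hinj : Function.Injective ι) (hθ : Function.Surjective θ)
    (hker : ι.range = θ.ker)
    (hM : ∀ v : Fin d → ℤ, g₀ * ι (Multiplicative.ofAdd v) * g₀⁻¹ =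
      ι (Multiplicative.ofAdd (M.mulVec v)))
    (hyp : ∀ μ : ℂ, (M.map (Int.castRingHom ℂ)).charpoly.IsRoot μ → ‖μ‖ ≠ 1) :
    ∃ A T : Finset G, ExpExt θ A T := by
  classical
  choose σ hσ using hθ
  let eA : Fin d → G := fun i => ι (Multiplicative.ofAdd (Pi.single i (1 : ℤ)))
  let eT : Fin k → G := fun i => σ (Multiplicative.ofAdd (Pi.single i (1 : ℤ)))
  let A : Finset G := Finset.univ.image eA
  let T : Finset G := A ∪ Finset.univ.image eT
  have hAset : (A : Set G) = ι ''
      Set.range fun i : Fin d => (Multiplicative.ofAdd (Pi.single i (1 : ℤ) : Fin d → ℤ)) := by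
    rw [Finset.coe_image, Finset.coe_univ, Set.image_univ, ← Set.range_comp]
    rfl
  have hclA : Subgroup.closure (A : Set G) = ι.range := by
    rw [hAset, ← MonoidHom.map_closure, semi_closure_single, ← MonoidHom.range_eq_map]
  have hclT : Subgroup.closure (T : Set G) = ⊤ := by
    have h0 : θ.ker ≤ Subgroup.closure (T : Set G) := by
      rw [← hker, ← hclA]
      refine Subgroup.closure_mono ?_
      intro x hx
      exact Finset.mem_coe.mpr (Finset.mem_union_left _ hx)
    have h1 : (Subgroup.closure (T : Set G)).map θ = ⊤ := by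
      rw [eq_top_iff, ← semi_closure_single k, Subgroup.closure_le]
      rintro _ ⟨i, rfl⟩
      refine ⟨eT i, Subgroup.subset_closure (Finset.mem_coe.mpr (Finset.mem_union_right _
        (Finset.mem_image.mpr ⟨i, Finset.mem_univ _, rfl⟩))), hσ _⟩
    rw [eq_top_iff]
    intro g _
    have h2 : θ g ∈ (Subgroup.closure (T : Set G)).map θ := by rw [h1]; exact Subgroup.mem_top _
    obtain ⟨x, hx, hxg⟩ := h2
    have h3 : x⁻¹ * g ∈ θ.ker := by rw [MonoidHom.mem_ker, map_mul, map_inv, hxg, inv_mul_cancel]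
    have h4 := Subgroup.mul_mem _ hx (h0 h3)
    rwa [mul_inv_cancel_left] at h4
  -- lengths in the kernel
  have hlenA : ∀ x : G, x ∈ θ.ker →
      ∃ v : Fin d → ℤ, x = ι (Multiplicative.ofAdd v) ∧
        ∀ i, |v i| ≤ len A x := by
    intro x hx
    rw [← hker, ← hclA] at hx
    have hx' : x ∈ (Subgroup.closure (A : Set G)).toSubmonoid := hx
    rw [Subgroup.closure_toSubmonoid] at hx'
    obtain ⟨l, hl1, hl2⟩ := Submonoid.exists_list_of_mem_closure hx'
    have h1 : {n : ℕ | ∃ l : List G, l.length = n ∧ (∀ a ∈ l, a ∈ (A : Set G) ∨ a⁻¹ ∈ (A : Set G)) ∧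
        l.prod = (1 : G)⁻¹ * x}.Nonempty :=
      ⟨l.length, l, rfl, fun a ha => hl1 a ha, by rw [inv_one, one_mul, hl2]⟩
    obtain ⟨l', h2, h3, h4⟩ := Nat.sInf_mem h1
    obtain ⟨v, h5, h6⟩ := semi_list_bound
      ι l' (by
        intro a ha
        rcases h3 a ha with h | h
        · left
          obtain ⟨i, -, hi⟩ := Finset.mem_image.mp (Finset.mem_coe.mp h)
          exact ⟨i, hi.symm⟩
        · right
          obtain ⟨i, -, hi⟩ := Finset.mem_image.mp (Finset.mem_coe.mp h)
          exact ⟨i, hi.symm⟩)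
    refine ⟨v, ?_, fun i => ?_⟩
    · rw [← h5, h4, inv_one, one_mul]
    · have h7 : (l'.length : ℤ) = len A x := by
        rw [h2]; rfl
      rw [← h7]
      exact h6 i
  refine ⟨A, T, ⟨(fun x => ⟨σ x, hσ x⟩), hclA.trans hker, hclT, ⟨2 ^ d, d, ?_⟩, ?_⟩⟩
  · intro n
    have h1 : {x : G | x ∈ θ.ker ∧
        len A x ≤ n} ⊆ (((Fintype.piFinset fun _ : Fin d => Finset.Icc (-(n : ℤ)) n).image
          fun v => ι (Multiplicative.ofAdd v) : Finset G) : Set G) := by
      rintro x ⟨hx1, hx2⟩
      obtain ⟨v, hv1, hv2⟩ := hlenA x hx1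
      rw [Finset.mem_coe, Finset.mem_image]
      refine ⟨v, ?_, hv1.symm⟩
      rw [Fintype.mem_piFinset]
      intro i
      have h2 := abs_le.mp (hv2 i)
      have h3 : (len A x : ℤ) ≤ n := by exact_mod_cast hx2
      rw [Finset.mem_Icc]
      constructor <;> linarith [h2.1, h2.2]
    refine (Set.ncard_le_ncard h1 (Finset.finite_toSet _)).trans ?_
    rw [Set.ncard_coe_finset]
    refine Finset.card_image_le.trans ?_
    rw [Fintype.card_piFinset_const, Int.card_Icc, ← mul_pow]
    refine Nat.pow_le_pow_left ?_ d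
    omega
  · -- distortion
    obtain ⟨N, hN, q, j, hq, hj⟩ := exists_dominant M hyp
    -- the inverse matrix
    have hψ0 : ∀ v : Fin d → ℤ, ∃ w : Fin d → ℤ, g₀⁻¹ * ι (Multiplicative.ofAdd v) * g₀ =
        ι (Multiplicative.ofAdd w) := by
      intro v
      have h1 : g₀⁻¹ * ι (Multiplicative.ofAdd v) * g₀ ∈ ι.range := by
        have h2 : ι (Multiplicative.ofAdd v) ∈ θ.ker := by rw [← hker]; exact ⟨_, rfl⟩
        have h3 := (inferInstance : θ.ker.Normal).conj_mem _ h2 g₀⁻¹
        rw [inv_inv] at h3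
        rw [hker]
        exact h3
      obtain ⟨w, hw⟩ := h1
      exact ⟨Multiplicative.toAdd w, hw.symm⟩
    choose ψ₀ hψ₀ using hψ0
    have hιinj : ∀ v w : Fin d → ℤ, ι (Multiplicative.ofAdd v) = ι (Multiplicative.ofAdd w) →
        v = w := fun v w h => Multiplicative.ofAdd.injective (hinj h)
    let ψ : (Fin d → ℤ) →+ (Fin d → ℤ) := AddMonoidHom.mk' ψ₀ (by
      intro v w
      apply hιinj
      rw [← hψ₀, ofAdd_add, ofAdd_add, map_mul, map_mul, ← hψ₀, ← hψ₀]
      group)
    let M' : Matrix (Fin d) (Fin d) ℤ := LinearMap.toMatrix' ψ.toIntLinearMap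
    have hM' : ∀ v : Fin d → ℤ, g₀⁻¹ * ι (Multiplicative.ofAdd v) * g₀ =
        ι (Multiplicative.ofAdd (M'.mulVec v)) := by
      intro v
      have : M'.mulVec v = ψ v := by
        change (LinearMap.toMatrix' ψ.toIntLinearMap).mulVec v = ψ v
        rw [LinearMap.toMatrix'_mulVec]
        rfl
      rw [this]
      exact hψ₀ v
    have hMM' : M * M' = 1 := by
      apply Matrix.mulVec_injective
      funext v
      rw [← Matrix.mulVec_mulVec, Matrix.one_mulVec]
      apply hιinj
      rw [← hM, ← hM']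
      group
    have hM'M : M' * M = 1 := by
      apply Matrix.mulVec_injective
      funext v
      rw [← Matrix.mulVec_mulVec, Matrix.one_mulVec]
      apply hιinj
      rw [← hM', ← hM]
      group
    have hcomm : Commute M M' := by rw [Commute, SemiconjBy, hMM', hM'M]
    have hP1 : M ^ N * M' ^ N = 1 := by rw [← hcomm.mul_pow, hMM', one_pow]
    have hP2 : M' ^ N * M ^ N = 1 := by rw [← hcomm.symm.mul_pow, hM'M, one_pow]
    obtain ⟨C, hC⟩ := digits (M ^ N) (M' ^ N) hP1 hP2 q hq j hj
    have hpow : ∀ (n : ℕ) (v : Fin d → ℤ), g₀ ^ n * ι (Multiplicative.ofAdd v) =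
        ι (Multiplicative.ofAdd ((M ^ n).mulVec v)) * g₀ ^ n := by
      intro n
      induction n with
      | zero => intro v; simp
      | succ n ih =>
        intro v
        have h1 := hM v
        rw [mul_inv_eq_iff_eq_mul] at h1
        rw [pow_succ g₀, mul_assoc, h1, ← mul_assoc, ih, Matrix.mulVec_mulVec, ← pow_succ,
          mul_assoc]
    let t : G := g₀ ^ N
    have htpow : ∀ (l : ℕ) (v : Fin d → ℤ),
        t ^ l * ι (Multiplicative.ofAdd v) =
        ι (Multiplicative.ofAdd (((M ^ N) ^ l).mulVec v)) * t ^ l := by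
      intro l v
      have h1 : t ^ l = g₀ ^ (N * l) := by
        change (g₀ ^ N) ^ l = _
        rw [← pow_mul]
      rw [h1, ← pow_mul]
      exact hpow _ v
    set τ := len T t with hτ
    have hTA : ∀ i, ι (Multiplicative.ofAdd
        (Pi.single i (1 : ℤ) : Fin d → ℤ)) ∈ T := fun i =>
      Finset.mem_union_left _ (Finset.mem_image.mpr ⟨i, Finset.mem_univ _, rfl⟩)
    have hword : ∀ (c : ℕ → Fin d → ℤ), (∀ l i, |c l i| ≤ C) → ∀ K : ℕ,
        len T (ι (Multiplicative.ofAdd
          (∑ l ∈ Finset.range K, ((M ^ N) ^ l).mulVec (c l))) * t ^ K) ≤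
          K * (d * C + τ) := by
      intro c hc K
      induction K with
      | zero =>
        rw [Finset.range_zero, Finset.sum_empty, ofAdd_zero, map_one, pow_zero, one_mul, len_one]
        exact Nat.zero_le _
      | succ K ih =>
        have h1 : ι (Multiplicative.ofAdd
            (∑ l ∈ Finset.range (K + 1), ((M ^ N) ^ l).mulVec (c l))) * t ^ (K + 1) =
            (ι (Multiplicative.ofAdd
              (∑ l ∈ Finset.range K, ((M ^ N) ^ l).mulVec (c l))) * t ^ K) *
              (ι (Multiplicative.ofAdd (c K)) * t) := by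
          rw [Finset.sum_range_succ, ofAdd_add, map_mul, pow_succ, mul_assoc, mul_assoc,
            ← mul_assoc _ (t ^ K) t, ← mul_assoc (t ^ K) _ t, htpow]
        rw [h1, Nat.add_mul, one_mul]
        refine (len_mul_le hclT _ _).trans (Nat.add_le_add ih ?_)
        refine (len_mul_le hclT _ _).trans (Nat.add_le_add_right ?_ _)
        exact semi_len_vec hclT ι hTA C (c K) (hc K)
    refine ⟨2 * ((C + 1) * (4 * τ + 2 * (d * C)) : ℕ), fun x hx => ?_⟩
    obtain ⟨v, hv1, hv2⟩ := hlenA x hx
    set m := len A x with hm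
    have hmn : (m : ℤ) ≤ 2 ^ (Nat.log 2 (m + 1) + 1) := by
      have h1 : m + 1 < 2 ^ (Nat.log 2 (m + 1) + 1) :=
        Nat.lt_pow_succ_log_self (by norm_num) _
      have h2 : m ≤ 2 ^ (Nat.log 2 (m + 1) + 1) := by omega
      exact_mod_cast h2
    obtain ⟨L, c, hL, hc, hv⟩ := hC (Nat.log 2 (m + 1) + 1) v fun i => (hv2 i).trans hmn
    -- the word
    have hx2 : x = (t ^ L)⁻¹ * ((ι (Multiplicative.ofAdd
        (∑ l ∈ Finset.range (2 * L + 1), ((M ^ N) ^ l).mulVec (c l))) * t ^ (2 * L + 1)) *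
        (t ^ (L + 1))⁻¹) := by
      have h1 := htpow L v
      have h2 : ((M ^ N) ^ L).mulVec v =
          ∑ l ∈ Finset.range (2 * L + 1), ((M ^ N) ^ l).mulVec (c l) := by
        rw [hv, Matrix.mulVec_mulVec]
        have hc1 : Commute (M ^ N) (M' ^ N) := by rw [Commute, SemiconjBy, hP1, hP2]
        rw [← hc1.mul_pow, hP1, one_pow, Matrix.one_mulVec]
      rw [h2, ← hv1] at h1
      rw [eq_inv_mul_iff_mul_eq, h1, mul_assoc]
      congr 1
      rw [eq_mul_inv_iff_mul_eq, ← pow_add]
      congr 1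
      omega
    have hlen : len T x ≤ (L + 1) * (4 * τ + 2 * (d * C)) := by
      rw [hx2]
      have h1 : len T (t ^ L)⁻¹ ≤ L * τ := by
        rw [len_inv hclT]; exact semi_len_pow hclT t L
      have h2 : len T (t ^ (L + 1))⁻¹ ≤ (L + 1) * τ := by
        rw [len_inv hclT]; exact semi_len_pow hclT t (L + 1)
      have h3 := hword c hc (2 * L + 1)
      refine (len_mul_le hclT _ _).trans ((Nat.add_le_add h1 ((len_mul_le hclT _ _).trans
        (Nat.add_le_add h3 h2))).trans ?_)
      have : L * τ + ((2 * L + 1) * (d * C + τ) + (L + 1) * τ) ≤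
          (L + 1) * (4 * τ + 2 * (d * C)) := by
        nlinarith [Nat.zero_le (L * τ), Nat.zero_le τ, Nat.zero_le (d * C),
          Nat.zero_le (L * (d * C))]
      exact this
    have hL1 : L + 1 ≤ (C + 1) * (Nat.log 2 (m + 1) + 2) := by
      have : C * (Nat.log 2 (m + 1) + 1 + 1) = C * (Nat.log 2 (m + 1) + 2) := by ring
      rw [this] at hL
      nlinarith [Nat.zero_le (Nat.log 2 (m + 1))]
    have hlog : ((Nat.log 2 (m + 1) : ℕ) : ℝ) ≤ 2 * Real.log (1 + m) := by
      have h1 : (2 : ℝ) ^ (Nat.log 2 (m + 1)) ≤ 1 + m := by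
        have := Nat.pow_log_le_self 2 (x := m + 1) (by omega)
        have h2 : ((2 ^ (Nat.log 2 (m + 1)) : ℕ) : ℝ) ≤ ((m + 1 : ℕ) : ℝ) := by exact_mod_cast this
        push_cast at h2
        linarith
      have h2 := Real.log_le_log (by positivity) h1
      rw [Real.log_pow] at h2
      have h3 : (1 / 2 : ℝ) ≤ Real.log 2 := by
        have := Real.log_two_gt_d9
        linarith
      have h4 : (0 : ℝ) ≤ (Nat.log 2 (m + 1) : ℕ) := Nat.cast_nonneg _
      nlinarith
    have hm0 : (0 : ℝ) ≤ Real.log (1 + m) := Real.log_nonneg (by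
      have : (0 : ℝ) ≤ m := Nat.cast_nonneg _
      linarith)
    calc (len T x : ℝ) ≤ (((L + 1) * (4 * τ + 2 * (d * C)) : ℕ) : ℝ) := by exact_mod_cast hlen
      _ ≤ (((C + 1) * (Nat.log 2 (m + 1) + 2) * (4 * τ + 2 * (d * C)) : ℕ) : ℝ) := by
          exact_mod_cast Nat.mul_le_mul_right _ hL1
      _ = (((C + 1) * (4 * τ + 2 * (d * C)) : ℕ) : ℝ) * ((Nat.log 2 (m + 1) : ℕ) + 2) := by
          push_cast; ring
      _ ≤ (((C + 1) * (4 * τ + 2 * (d * C)) : ℕ) : ℝ) * (2 * (1 + Real.log (1 + m))) := by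
          refine mul_le_mul_of_nonneg_left ?_ (Nat.cast_nonneg _)
          linarith
      _ = 2 * (((C + 1) * (4 * τ + 2 * (d * C)) : ℕ) : ℝ) * (1 + Real.log (1 + m)) := by ring

theorem pcs_pi (d : ℕ) : PCS (⊤ : Subgroup (Multiplicative (Fin d → ℤ))) := by
  induction d with
  | zero =>
    have : (⊤ : Subgroup (Multiplicative (Fin 0 → ℤ))) = ⊥ := by
      rw [Subgroup.eq_bot_iff_forall]
      intro x _
      apply Multiplicative.toAdd.injective
      funext i
      exact i.elim0
    rw [this]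
    exact .bot
  | succ d ih =>
    let f : Multiplicative (Fin (d + 1) → ℤ) →* Multiplicative (Fin d → ℤ) :=
      AddMonoidHom.toMultiplicative
        { toFun := fun v i => v i.succ
          map_zero' := rfl
          map_add' := fun _ _ => rfl }
    have hf : Function.Surjective f := by
      intro x
      refine ⟨Multiplicative.ofAdd (Fin.cons 0 (Multiplicative.toAdd x)), ?_⟩
      apply Multiplicative.toAdd.injective
      funext i
      change (Fin.cons 0 (Multiplicative.toAdd x) : Fin (d + 1) → ℤ) i.succ = _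
      rw [Fin.cons_succ]
    have hker : PCS f.ker := by
      refine .step .bot (t := Multiplicative.ofAdd (Pi.single 0 (1 : ℤ))) ⟨bot_le, ?_, ?_, ?_, ?_⟩
      · rw [MonoidHom.mem_ker]
        apply Multiplicative.toAdd.injective
        funext i
        change (Pi.single 0 (1 : ℤ) : Fin (d + 1) → ℤ) i.succ = 0
        exact Pi.single_eq_of_ne (Fin.succ_ne_zero i) _
      · intro n hn
        rw [Subgroup.mem_bot] at hn ⊢
        rw [hn]; group
      · intro n hn
        rw [Subgroup.mem_bot] at hn ⊢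
        rw [hn]; group
      · intro g hg
        refine ⟨Multiplicative.toAdd g 0, ?_⟩
        rw [Subgroup.mem_bot, inv_mul_eq_one]
        apply Multiplicative.toAdd.injective
        rw [MonoidHom.mem_ker] at hg
        funext i
        rw [toAdd_zpow]
        refine Fin.cases ?_ (fun i => ?_) i
        · simp
        · have h1 : Multiplicative.toAdd g i.succ = 0 :=
            congrFun (congrArg Multiplicative.toAdd hg) i
          rw [h1]
          simp
    have := PCS.comap_surjective f hf hker ih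
    rwa [Subgroup.comap_top] at this

theorem isVirtuallyPolycyclic_extension {d k : ℕ} {G : Type u} [Group G]
    (ι : Multiplicative (Fin d → ℤ) →* G) (θ : G →* Multiplicative (Fin k → ℤ))
    (hθ : Function.Surjective θ) (hker : ι.range = θ.ker) : IsVirtuallyPolycyclic G := by
  refine isVirtuallyPolycyclic_iff.2 ⟨⊤, inferInstance, ?_⟩
  have h1 := (pcs_pi d).map ι
  rw [← MonoidHom.range_eq_map, hker] at h1
  have h2 := PCS.comap_surjective θ hθ h1 (pcs_pi k)
  rwa [Subgroup.comap_top] at h2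

end Vale.Agent.P188.SG
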