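import Vale.Agent.P188.SG.Defs
import Vale.Agent.P188.SG.Len

/-! P188, Theorem S: a cocycle is the sum of a harmonic cocycle and a limit of coboundaries. -/

universe u v w

open Filter Topology

namespace Vale.Agent.P188.SG

section Harm

variable {H : Type u} [Group H] {S : Finset H}
variable {V : Type v} [NormedAddCommGroup V] [InnerProductSpace ℝ V]

theorem harm_one {π : H →* (V ≃ₗᵢ[ℝ] V)} {c : H → V} (hc : IsCocycle π c) : c 1 = 0 := by
  have h := hc 1 1
  rw [mul_one, map_one] at h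
  have h2 : (1 : V ≃ₗᵢ[ℝ] V) (c 1) = c 1 := rfl
  rw [h2] at h
  exact left_eq_add.mp h

theorem harm_cobound (π : H →* (V ≃ₗᵢ[ℝ] V)) (v : V) : IsCocycle π (fun g => π g v - v) := by
  intro g h
  have e : π (g * h) v = π g (π h v) := by rw [map_mul]; rfl
  change π (g * h) v - v = π g v - v + π g (π h v - v)
  rw [e, map_sub]
  abel

theorem harm_sub {π : H →* (V ≃ₗᵢ[ℝ] V)} {c d : H → V} (hc : IsCocycle π c)
    (hd : IsCocycle π d) : IsCocycle π (fun g => c g - d g) := by
  intro g h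
  change c (g * h) - d (g * h) = c g - d g + π g (c h - d h)
  rw [hc, hd, map_sub]
  abel

theorem harm_bound (hS : SymGen S) {π : H →* (V ≃ₗᵢ[ℝ] V)} {c : H → V} (hc : IsCocycle π c)
    {M : ℝ} (hM : ∀ s ∈ S, ‖c s‖ ≤ M) (g : H) : ‖c g‖ ≤ M * len S g := by
  obtain ⟨l, h1, h2, h3⟩ := len_list hS.gen g
  rw [← h1, ← h3]
  clear h1 h3
  induction l with
  | nil => simp [harm_one hc]
  | cons a l ih =>
    have ha : a ∈ S := by
      rcases h2 a List.mem_cons_self with h | h
      · exact h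
      · have := hS.inv _ h
        rwa [inv_inv] at this
    have ih' := ih fun b hb => h2 b (List.mem_cons_of_mem _ hb)
    rw [List.prod_cons, hc, List.length_cons]
    calc ‖c a + π a (c l.prod)‖ ≤ ‖c a‖ + ‖π a (c l.prod)‖ := norm_add_le _ _
      _ = ‖c a‖ + ‖c l.prod‖ := by rw [LinearIsometryEquiv.norm_map]
      _ ≤ M + M * l.length := add_le_add (hM a ha) ih'
      _ = M * ((l.length + 1 : ℕ) : ℝ) := by push_cast; ring

/-- the coboundary operator, restricted to `S` -/
noncomputable def harm_D (S : Finset H) (π : H →* (V ≃ₗᵢ[ℝ] V)) :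
    V →ₗ[ℝ] PiLp 2 (fun _ : S => V) where
  toFun v := WithLp.toLp 2 (fun s : S => π s v - v)
  map_add' v w := by
    ext s
    simp only [map_add, PiLp.add_apply]
    abel
  map_smul' r v := by
    ext s
    simp only [map_smul, PiLp.smul_apply, RingHom.id_apply, smul_sub]

theorem harm_D_apply (S : Finset H) (π : H →* (V ≃ₗᵢ[ℝ] V)) (v : V) (s : S) :
    harm_D S π v s = π s v - v := rfl

theorem harm_D_bound (hS : SymGen S) (π : H →* (V ≃ₗᵢ[ℝ] V)) (v : V) (g : H) :
    ‖π g v - v‖ ≤ ‖harm_D S π v‖ * len S g :=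
  harm_bound hS (harm_cobound π v)
    (fun s hs => PiLp.norm_apply_le (harm_D S π v) ⟨s, hs⟩) g

theorem harm_sum_inv (hS : SymGen S) (f : H → V) : ∑ s ∈ S, f s⁻¹ = ∑ s ∈ S, f s := by
  refine Finset.sum_nbij' (fun s => s⁻¹) (fun s => s⁻¹) (fun s hs => hS.inv s hs)
    (fun s hs => hS.inv s hs) (fun s _ => inv_inv s) (fun s _ => inv_inv s) (fun s _ => rfl)

theorem harm_sum_zero (hS : SymGen S) {π : H →* (V ≃ₗᵢ[ℝ] V)} {h : H → V}
    (hh : IsCocycle π h) (ho : ∀ v : V, ∑ s ∈ S, inner ℝ (h s) (π s v - v) = 0) :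
    ∑ s ∈ S, h s = 0 := by
  have key : ∀ (s : H) (v : V), inner ℝ (h s) (π s v) = - inner ℝ (h s⁻¹) v := by
    intro s v
    have e1 : h s⁻¹ = - π s⁻¹ (h s) := by
      have := hh s⁻¹ s
      rw [inv_mul_cancel, harm_one hh] at this
      exact eq_neg_of_add_eq_zero_left this.symm
    have e2 : π s (π s⁻¹ (h s)) = h s := by
      have : (π s * π s⁻¹) (h s) = h s := by rw [← map_mul, mul_inv_cancel, map_one]; rfl
      exact this
    rw [e1, inner_neg_left, neg_neg]
    conv_lhs => rw [← e2]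
    exact LinearIsometryEquiv.inner_map_map _ _ _
  have h2 : ∀ v : V, inner ℝ (∑ s ∈ S, h s) v = 0 := by
    intro v
    have h3 := ho v
    simp only [inner_sub_right, key] at h3
    rw [Finset.sum_sub_distrib, Finset.sum_neg_distrib, ← sum_inner, ← sum_inner,
      harm_sum_inv hS] at h3
    linarith
  exact inner_self_eq_zero.mp (h2 _)

theorem harmonic_decomp [CompleteSpace V] (hS : SymGen S) (π : H →* (V ≃ₗᵢ[ℝ] V)) (b : H → V)
    (hb : IsCocycle π b) :
    ∃ h z : H → V, IsCocycle π h ∧ IsCocycle π z ∧ (∀ g, b g = h g + z g) ∧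
      ∑ s ∈ S, h s = 0 ∧ ∀ ε : ℝ, 0 < ε → ∃ C : ℝ, ∀ g, ‖z g‖ ≤ ε * len S g + C := by
  classical
  let E := PiLp 2 (fun _ : S => V)
  let D : V →ₗ[ℝ] E := harm_D S π
  let K : Submodule ℝ E := (LinearMap.range D).topologicalClosure
  haveI : IsClosed (K : Set E) := Submodule.isClosed_topologicalClosure _
  haveI : CompleteSpace K := this.completeSpace_coe
  let bS : E := WithLp.toLp 2 (fun s : S => b s)
  let zS : E := K.starProjection bS
  have hzK : zS ∈ closure (Set.range D) := by
    have : zS ∈ K := K.starProjection_apply_mem bS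
    exact this
  obtain ⟨x, hx, hxl⟩ := mem_closure_iff_seq_limit.mp hzK
  choose v hv using hx
  have hvl : Tendsto (fun n => D (v n)) atTop (𝓝 zS) := by simpa only [hv] using hxl
  have hcau : ∀ g : H, ∃ y : V, Tendsto (fun n => π g (v n) - v n) atTop (𝓝 y) := by
    intro g
    refine cauchySeq_tendsto_of_complete ?_
    have hC : CauchySeq (fun n => D (v n)) := hvl.cauchySeq
    rw [Metric.cauchySeq_iff] at hC ⊢
    intro ε hε
    obtain ⟨N, hN⟩ := hC (ε / (len S g + 1)) (by positivity)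
    refine ⟨N, fun m hm n hn => ?_⟩
    have h1 := hN m hm n hn
    rw [dist_eq_norm] at h1 ⊢
    have e : π g (v m) - v m - (π g (v n) - v n) = π g (v m - v n) - (v m - v n) := by
      rw [map_sub]; abel
    rw [e]
    refine (harm_D_bound hS π (v m - v n) g).trans_lt ?_
    have e2 : harm_D S π (v m - v n) = D (v m) - D (v n) := map_sub D _ _
    rw [e2]
    rw [lt_div_iff₀ (by positivity)] at h1
    nlinarith [norm_nonneg (D (v m) - D (v n))]
  choose z hz using hcau
  have hzc : IsCocycle π z := by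
    intro g h
    refine tendsto_nhds_unique (hz (g * h)) ?_
    have h1 : Tendsto (fun n => (π g (v n) - v n) + π g (π h (v n) - v n)) atTop
        (𝓝 (z g + π g (z h))) :=
      (hz g).add (((π g).continuous.tendsto _).comp (hz h))
    refine h1.congr fun n => ?_
    exact (harm_cobound π (v n) g h).symm
  have hzs : ∀ s : S, z s = zS s := by
    intro s
    refine tendsto_nhds_unique (hz s) ?_
    exact ((PiLp.continuous_apply 2 (fun _ : S => V) s).tendsto zS).comp hvl
  have hhc : IsCocycle π (fun g => b g - z g) := harm_sub hb hzc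
  refine ⟨fun g => b g - z g, z, hhc, hzc, fun g => by simp, ?_, ?_⟩
  · refine harm_sum_zero hS hhc fun w => ?_
    have h1 : bS - zS ∈ Kᗮ := Submodule.sub_starProjection_mem_orthogonal bS
    have h2 : D w ∈ K := Submodule.le_topologicalClosure _ (LinearMap.mem_range_self D w)
    have h3 : inner ℝ (D w) (bS - zS) = 0 := h1 _ h2
    rw [PiLp.inner_apply] at h3
    rw [← Finset.sum_coe_sort S]
    rw [← h3]
    refine Finset.sum_congr rfl fun s _ => ?_
    rw [real_inner_comm, PiLp.sub_apply, ← hzs s]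
    rfl
  · intro ε hε
    obtain ⟨n, hn⟩ := ((Metric.tendsto_atTop.mp hvl) ε hε)
    have hn' := hn n le_rfl
    refine ⟨2 * ‖v n‖, fun g => ?_⟩
    have hcc : IsCocycle π (fun g => z g - (π g (v n) - v n)) := harm_sub hzc (harm_cobound π _)
    have h1 : ‖z g - (π g (v n) - v n)‖ ≤ ε * len S g := by
      refine harm_bound hS hcc (fun s hs => ?_) g
      change ‖z s - (π s (v n) - v n)‖ ≤ ε
      have h2 : ‖(zS - D (v n)) ⟨s, hs⟩‖ ≤ ‖zS - D (v n)‖ := PiLp.norm_apply_le _ _
      have h3 : (zS - D (v n)) ⟨s, hs⟩ = z s - (π s (v n) - v n) := by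
        rw [PiLp.sub_apply, ← hzs ⟨s, hs⟩]
        rfl
      rw [h3] at h2
      rw [dist_comm, dist_eq_norm] at hn'
      exact h2.trans hn'.le
    have h4 : ‖π g (v n) - v n‖ ≤ 2 * ‖v n‖ := by
      refine (norm_sub_le _ _).trans ?_
      rw [LinearIsometryEquiv.norm_map]
      linarith
    calc ‖z g‖ = ‖(z g - (π g (v n) - v n)) + (π g (v n) - v n)‖ := by rw [sub_add_cancel]
      _ ≤ ‖z g - (π g (v n) - v n)‖ + ‖π g (v n) - v n‖ := norm_add_le _ _
      _ ≤ ε * len S g + 2 * ‖v n‖ := add_le_add h1 h4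

end Harm

end Vale.Agent.P188.SG
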