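import Vale.Agent.P188.SG.EO
import Vale.Agent.P188.SG.Harm
import Vale.Agent.P188.SG.Len

/-!
P188, Theorem S: approximation of a cocycle by a finite-dimensional one (for cautious walks).
-/

universe u v

open Filter Topology

namespace Vale.Agent.P188.SG

variable {H : Type u} [Group H] {S : Finset H}

section Rep

variable {V : Type v} [NormedAddCommGroup V] [InnerProductSpace ℝ V]

/-- The projection onto an invariant subspace commutes with the representation. -/
theorem fd_proj_comm (π : H →* (V ≃ₗᵢ[ℝ] V)) (W : Submodule ℝ V) [W.HasOrthogonalProjection]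
    (hi : Inv π W) (g : H) (v : V) :
    W.starProjection (π g v) = π g (W.starProjection v) := by
  refine Submodule.eq_starProjection_of_mem_of_inner_eq_zero
    (hi g _ (W.starProjection_apply_mem v)) fun w hw => ?_
  have e : w = π g (π g⁻¹ w) := by
    have h : (π g * π g⁻¹) w = w := by
      rw [← map_mul, mul_inv_cancel, map_one]
      rfl
    exact h.symm
  rw [← map_sub, e, LinearIsometryEquiv.inner_map_map]
  exact W.starProjection_inner_eq_zero v _ (hi g⁻¹ w hw)

theorem fd_inv_bot (π : H →* (V ≃ₗᵢ[ℝ] V)) : Inv π (⊥ : Submodule ℝ V) := by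
  intro g w hw
  rw [Submodule.mem_bot] at hw ⊢
  rw [hw, map_zero]

theorem fd_inv_sup (π : H →* (V ≃ₗᵢ[ℝ] V)) {W₁ W₂ : Submodule ℝ V} (h₁ : Inv π W₁)
    (h₂ : Inv π W₂) : Inv π (W₁ ⊔ W₂) := by
  intro g w hw
  obtain ⟨x, hx, y, hy, rfl⟩ := Submodule.mem_sup.1 hw
  rw [map_add]
  exact Submodule.add_mem_sup (h₁ g x hx) (h₂ g y hy)

/-- The finite-dimensional invariant subspaces. -/
def fdSet (π : H →* (V ≃ₗᵢ[ℝ] V)) : Set (Submodule ℝ V) :=
  {W | FiniteDimensional ℝ W ∧ Inv π W}

theorem fd_nonempty (π : H →* (V ≃ₗᵢ[ℝ] V)) : (fdSet π).Nonempty :=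
  ⟨⊥, inferInstance, fd_inv_bot π⟩

theorem fd_directed (π : H →* (V ≃ₗᵢ[ℝ] V)) : DirectedOn (· ≤ ·) (fdSet π) := by
  rintro W₁ ⟨hf₁, hi₁⟩ W₂ ⟨hf₂, hi₂⟩
  exact ⟨W₁ ⊔ W₂, ⟨inferInstance, fd_inv_sup π hi₁ hi₂⟩, le_sup_left, le_sup_right⟩

theorem fd_inv_closure (π : H →* (V ≃ₗᵢ[ℝ] V)) :
    Inv π (sSup (fdSet π)).topologicalClosure := by
  intro g w hw
  refine map_mem_closure (f := fun x => π g x) (π g).continuous hw fun x hx => ?_
  obtain ⟨W, hW, hxW⟩ := (Submodule.mem_sSup_of_directed (fd_nonempty π) (fd_directed π)).1 hx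
  exact (le_sSup hW : W ≤ sSup (fdSet π)) (hW.2 g x hxW)

/-- Finitely many vectors of the closure are approximated in one finite-dimensional invariant
subspace. -/
theorem fd_exists_approx (π : H →* (V ≃ₗᵢ[ℝ] V)) (h : H → V) (S : Finset H)
    (hh : ∀ s ∈ S, h s ∈ (sSup (fdSet π)).topologicalClosure) {δ : ℝ} (hδ : 0 < δ) :
    ∃ W : Submodule ℝ V, FiniteDimensional ℝ W ∧ Inv π W ∧
      ∀ s ∈ S, ∃ u ∈ W, ‖h s - u‖ ≤ δ := by
  classical
  induction S using Finset.induction_on with
  | empty => exact ⟨⊥, inferInstance, fd_inv_bot π, fun s hs => absurd hs (Finset.notMem_empty s)⟩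
  | insert a S ha ih =>
    obtain ⟨W₁, hf₁, hi₁, h₁⟩ := ih fun s hs => hh s (Finset.mem_insert_of_mem hs)
    obtain ⟨x, hx, hxd⟩ := Metric.mem_closure_iff.1 (hh a (Finset.mem_insert_self a S)) δ hδ
    obtain ⟨W₂, ⟨hf₂, hi₂⟩, hxW⟩ :=
      (Submodule.mem_sSup_of_directed (fd_nonempty π) (fd_directed π)).1 hx
    refine ⟨W₁ ⊔ W₂, inferInstance, fd_inv_sup π hi₁ hi₂, fun s hs => ?_⟩
    rcases Finset.mem_insert.1 hs with rfl | hs
    · exact ⟨x, (le_sup_right : W₂ ≤ W₁ ⊔ W₂) hxW, by rw [← dist_eq_norm]; exact hxd.le⟩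
    · obtain ⟨u, hu, hu'⟩ := h₁ s hs
      exact ⟨u, (le_sup_left : W₁ ≤ W₁ ⊔ W₂) hu, hu'⟩

theorem fd_norm_sub_proj_le (W : Submodule ℝ V) [W.HasOrthogonalProjection] {x u : V}
    (hu : u ∈ W) : ‖x - W.starProjection x‖ ≤ ‖x - u‖ := by
  have e : x - W.starProjection x = Wᗮ.starProjection (x - u) := by
    rw [Submodule.starProjection_orthogonal_val, map_sub,
      Submodule.starProjection_eq_self_iff.2 hu, sub_sub_sub_cancel_right]
  rw [e]
  exact Wᗮ.norm_starProjection_apply_le _

/-- A cocycle bounded on the generators grows linearly. -/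
theorem fd_norm_le_len (hS : SymGen S) (π : H →* (V ≃ₗᵢ[ℝ] V)) (e : H → V)
    (he : IsCocycle π e) {δ : ℝ} (hδ : 0 ≤ δ) (hs : ∀ s ∈ S, ‖e s‖ ≤ δ) (g : H) :
    ‖e g‖ ≤ δ * len S g := by
  obtain ⟨p, hp0, hp1, -, -, hp⟩ := exists_path hS.gen g
  have h1 : e 1 = 0 := by
    have h := he 1 1
    rw [mul_one, map_one] at h
    have h' : e 1 = e 1 + e 1 := h
    exact left_eq_add.1 h'
  have key : ∀ i : ℕ, ‖e (p i)‖ ≤ δ * i := by
    intro i
    induction i with
    | zero => rw [hp0, h1, norm_zero, Nat.cast_zero, mul_zero]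
    | succ i ih =>
      push_cast
      rcases hp i with h | ⟨s, hs', h⟩
      · rw [h]
        linarith
      · have hsS : s ∈ S := by
          rcases hs' with hs' | hs'
          · exact hs'
          · have := hS.inv _ hs'
            rwa [inv_inv] at this
        rw [h, he]
        refine (norm_add_le _ _).trans ?_
        rw [LinearIsometryEquiv.norm_map]
        have := hs s hsS
        linarith
  have := key (len S g)
  rwa [hp1] at this

variable [CompleteSpace V]

theorem fd_approx (hS : SymGen S) (hc : Cautious S) (π : H →* (V ≃ₗᵢ[ℝ] V)) (b : H → V)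
    (hb : IsCocycle π b) (ε : ℝ) (hε : 0 < ε) :
    ∃ (W : Submodule ℝ V) (c : H → V) (C : ℝ), FiniteDimensional ℝ W ∧ Inv π W ∧
      (∀ g, c g ∈ W) ∧ IsCocycle π c ∧ ∀ g, ‖b g - c g‖ ≤ ε * len S g + C := by
  obtain ⟨h, z, hh, -, hbz, hsum, hz⟩ := harmonic_decomp hS π b hb
  obtain ⟨C, hC⟩ := hz (ε / 2) (by positivity)
  -- the closure of the union of the finite-dimensional invariant subspaces
  set U : Submodule ℝ V := (sSup (fdSet π)).topologicalClosure with hU
  have hUi : Inv π U := fd_inv_closure π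
  have : CompleteSpace U := (Submodule.isClosed_topologicalClosure _).completeSpace_coe
  have hmem : ∀ g, h g ∈ U := by
    intro g
    have h0 := harmonic_eq_zero hS hc π (fun g => h g - U.starProjection (h g)) ?_ ?_ ?_ g
    · rw [← Submodule.starProjection_eq_self_iff]
      exact (sub_eq_zero.1 h0).symm
    · intro g k
      show h (g * k) - U.starProjection (h (g * k)) = _
      rw [hh g k, map_add, fd_proj_comm π U hUi, map_sub]
      exact add_sub_add_comm _ _ _ _
    · rw [Finset.sum_sub_distrib, ← map_sum, hsum, map_zero, sub_zero]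
    · intro s _ W hW hWi w hw
      have hwU : w ∈ U := (Submodule.le_topologicalClosure _)
        ((le_sSup (⟨hW, hWi⟩ : W ∈ fdSet π) : W ≤ sSup (fdSet π)) hw)
      rw [real_inner_comm]
      exact U.starProjection_inner_eq_zero (h s) w hwU
  obtain ⟨W, hWf, hWi, hW⟩ := fd_exists_approx π h S (fun s _ => hmem s) (half_pos hε)
  refine ⟨W, fun g => W.starProjection (h g), C, hWf, hWi,
    fun g => W.starProjection_apply_mem _, ?_, fun g => ?_⟩
  · intro g k
    show W.starProjection (h (g * k)) = _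
    rw [hh g k, map_add, fd_proj_comm π W hWi]
  · have he := fd_norm_le_len hS π (fun g => h g - W.starProjection (h g)) (by
      intro g k
      show h (g * k) - W.starProjection (h (g * k)) = _
      rw [hh g k, map_add, fd_proj_comm π W hWi, map_sub]
      exact add_sub_add_comm _ _ _ _) (half_pos hε).le (fun s hs => by
        obtain ⟨u, hu, hu'⟩ := hW s hs
        exact (fd_norm_sub_proj_le W hu).trans hu') g
    have e : b g - W.starProjection (h g) = (h g - W.starProjection (h g)) + z g := by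
      rw [hbz g]
      abel
    rw [e]
    refine (norm_add_le _ _).trans ?_
    have := hC g
    have h2 : ‖h g - W.starProjection (h g)‖ ≤ ε / 2 * len S g := he
    linarith

end Rep

end Vale.Agent.P188.SG
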