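import Vale.Agent.P188.SG.Defs
import Vale.Agent.P188.SG.Len

/-!
P188, Theorem S: controlled Følner pairs give a right-invariant mean.
-/

universe u v w

open Filter Topology

namespace Vale.Agent.P188.SG

section Fol2

variable {H : Type u} [Group H] {S : Finset H}

/-- The distance to the finite set `A`. -/
private noncomputable def fol2_d (S A : Finset H) (hA : A.Nonempty) (x : H) : ℕ :=
  A.inf' hA fun y => len S (y⁻¹ * x)

private theorem fol2_d_mul_le (hS : Subgroup.closure (S : Set H) = ⊤) (A : Finset H)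
    (hA : A.Nonempty) (x g : H) : fol2_d S A hA (x * g) ≤ fol2_d S A hA x + len S g := by
  obtain ⟨y, hy, hxy⟩ := Finset.exists_mem_eq_inf' hA fun y => len S (y⁻¹ * x)
  have h1 : fol2_d S A hA (x * g) ≤ len S (y⁻¹ * (x * g)) :=
    Finset.inf'_le (fun y => len S (y⁻¹ * (x * g))) hy
  have h2 := len_mul_le hS (y⁻¹ * x) g
  rw [mul_assoc] at h2
  have h3 : fol2_d S A hA x = len S (y⁻¹ * x) := hxy
  omega

private theorem fol2_d_le_mul (hS : Subgroup.closure (S : Set H) = ⊤) (A : Finset H)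
    (hA : A.Nonempty) (x g : H) : fol2_d S A hA x ≤ fol2_d S A hA (x * g) + len S g := by
  have h := fol2_d_mul_le hS A hA (x * g) g⁻¹
  rwa [mul_inv_cancel_right, len_inv hS] at h

private theorem fol2_abs_sub_le (hS : Subgroup.closure (S : Set H) = ⊤) (A : Finset H)
    (hA : A.Nonempty) (r : ℕ) (x g : H) :
    |((r - fol2_d S A hA (x * g) : ℕ) : ℝ) - ((r - fol2_d S A hA x : ℕ) : ℝ)| ≤ len S g := by
  have h1 := fol2_d_mul_le hS A hA x g
  have h2 := fol2_d_le_mul hS A hA x g
  have h3 : r - fol2_d S A hA (x * g) ≤ r - fol2_d S A hA x + len S g := by omega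
  have h4 : r - fol2_d S A hA x ≤ r - fol2_d S A hA (x * g) + len S g := by omega
  have h3' : ((r - fol2_d S A hA (x * g) : ℕ) : ℝ) ≤
      ((r - fol2_d S A hA x : ℕ) : ℝ) + len S g := by exact_mod_cast h3
  have h4' : ((r - fol2_d S A hA x : ℕ) : ℝ) ≤
      ((r - fol2_d S A hA (x * g) : ℕ) : ℝ) + len S g := by exact_mod_cast h4
  rw [abs_le]
  constructor <;> linarith

/-- The estimate for right translations. -/
private theorem fol2_est (hS : Subgroup.closure (S : Set H) = ⊤) (A E : Finset H)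
    (hA : A.Nonempty) (r : ℕ) (hE : ∀ x ∈ A, ∀ h : H, len S h ≤ r → x * h ∈ E)
    (g : H) {f : H → ℝ} {M : ℝ} (hM : ∀ x, |f x| ≤ M) :
    |∑ x ∈ E, ((r - fol2_d S A hA x : ℕ) : ℝ) * f (x * g) -
      ∑ x ∈ E, ((r - fol2_d S A hA x : ℕ) : ℝ) * f x| ≤ 2 * E.card * (len S g * M) := by
  classical
  set φ : H → ℝ := fun x => ((r - fol2_d S A hA x : ℕ) : ℝ) with hφ
  have hsupp : ∀ x, x ∉ E → φ x = 0 := by
    intro x hx
    by_contra hne
    have h1 : fol2_d S A hA x < r := by
      by_contra hlt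
      exact hne (by simp [hφ, Nat.sub_eq_zero_of_le (not_lt.1 hlt)])
    obtain ⟨y, hy, hxy⟩ := Finset.exists_mem_eq_inf' hA fun y => len S (y⁻¹ * x)
    have h2 := hE y hy (y⁻¹ * x) (by
      have h3 : fol2_d S A hA x = len S (y⁻¹ * x) := hxy
      omega)
    rw [mul_inv_cancel_left] at h2
    exact hx h2
  set U : Finset H := E ∪ E.image (· * g) with hU
  have e1 : ∑ x ∈ E, φ x * f (x * g) = ∑ z ∈ U, φ (z * g⁻¹) * f z := by
    have h1 : ∑ z ∈ E.image (· * g), φ (z * g⁻¹) * f z = ∑ x ∈ E, φ x * f (x * g) := by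
      rw [Finset.sum_image (fun x _ y _ h => mul_right_cancel h)]
      simp only [mul_inv_cancel_right]
    rw [← h1]
    refine Finset.sum_subset Finset.subset_union_right fun z _ hz => ?_
    rw [hsupp (z * g⁻¹) fun h => hz (Finset.mem_image.2 ⟨_, h, inv_mul_cancel_right z g⟩), zero_mul]
  have e2 : ∑ x ∈ E, φ x * f x = ∑ z ∈ U, φ z * f z :=
    Finset.sum_subset Finset.subset_union_left fun z _ hz => by rw [hsupp z hz, zero_mul]
  have e3 : ∑ x ∈ E, φ x * f (x * g) - ∑ x ∈ E, φ x * f x =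
      ∑ z ∈ U, (φ (z * g⁻¹) - φ z) * f z := by
    rw [e1, e2, ← Finset.sum_sub_distrib]
    exact Finset.sum_congr rfl fun z _ => by ring
  have hM0 : 0 ≤ M := (abs_nonneg _).trans (hM 1)
  rw [e3]
  calc |∑ z ∈ U, (φ (z * g⁻¹) - φ z) * f z| ≤ ∑ z ∈ U, |(φ (z * g⁻¹) - φ z) * f z| :=
        Finset.abs_sum_le_sum_abs _ _
    _ ≤ ∑ _z ∈ U, (len S g * M : ℝ) := Finset.sum_le_sum fun z _ => by
        rw [abs_mul]
        refine mul_le_mul ?_ (hM z) (abs_nonneg _) (Nat.cast_nonneg _)
        have := fol2_abs_sub_le hS A hA r z g⁻¹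
        rwa [len_inv hS] at this
    _ = U.card * (len S g * M) := by rw [Finset.sum_const, nsmul_eq_mul]
    _ ≤ 2 * E.card * (len S g * M) := by
        refine mul_le_mul_of_nonneg_right ?_ (mul_nonneg (Nat.cast_nonneg _) hM0)
        have h1 : U.card ≤ 2 * E.card := by
          have h2 := Finset.card_union_le E (E.image (· * g))
          have h3 : (E.image (· * g)).card ≤ E.card := Finset.card_image_le
          rw [hU]
          omega
        exact_mod_cast h1

theorem hasMean_of_folner (hS : SymGen S) (hF : Folner S) : HasMean H := by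
  obtain ⟨C, hC⟩ := hF
  choose A E hA hAE _ hcard using hC
  set φ : ℕ → H → ℝ := fun n x => ((n + 1 - fol2_d S (A (n + 1)) (hA (n + 1)) x : ℕ) : ℝ) with hφ
  have hφ0 : ∀ n x, 0 ≤ φ n x := fun n x => Nat.cast_nonneg _
  set Φ : ℕ → ℝ := fun n => ∑ x ∈ E (n + 1), φ n x with hΦdef
  have hAsub : ∀ n, A n ⊆ E n := by
    intro n x hx
    have := hAE n x hx 1 (by rw [len_one]; exact Nat.zero_le _)
    rwa [mul_one] at this
  have hΦ : ∀ n : ℕ, ((n : ℝ) + 1) * (A (n + 1)).card ≤ Φ n := by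
    intro n
    have h1 : ∀ x ∈ A (n + 1), φ n x = (n : ℝ) + 1 := by
      intro x hx
      have h2 : fol2_d S (A (n + 1)) (hA (n + 1)) x ≤ len S (x⁻¹ * x) :=
        Finset.inf'_le (fun y => len S (y⁻¹ * x)) hx
      rw [inv_mul_cancel, len_one] at h2
      have h3 : fol2_d S (A (n + 1)) (hA (n + 1)) x = 0 := Nat.le_zero.1 h2
      simp [hφ, h3]
    calc ((n : ℝ) + 1) * (A (n + 1)).card = ∑ x ∈ A (n + 1), φ n x := by
          rw [Finset.sum_congr rfl h1, Finset.sum_const, nsmul_eq_mul, mul_comm]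
      _ ≤ Φ n := Finset.sum_le_sum_of_subset_of_nonneg (hAsub (n + 1)) fun x _ _ => hφ0 n x
  have hApos : ∀ n : ℕ, (0 : ℝ) < (A n).card := fun n => by
    exact_mod_cast Finset.card_pos.2 (hA n)
  have hΦpos : ∀ n, 0 < Φ n := fun n =>
    lt_of_lt_of_le (mul_pos (by positivity) (hApos (n + 1))) (hΦ n)
  set av : (H → ℝ) → ℕ → ℝ := fun f n => (∑ x ∈ E (n + 1), φ n x * f x) / Φ n with hav
  have hbdd : ∀ f, Bdd f → Bdd (av f) := by
    rintro f ⟨M, hM⟩
    refine ⟨M, fun n => ?_⟩
    simp only [hav]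
    rw [abs_div, abs_of_pos (hΦpos n), div_le_iff₀ (hΦpos n)]
    calc |∑ x ∈ E (n + 1), φ n x * f x| ≤ ∑ x ∈ E (n + 1), |φ n x * f x| :=
          Finset.abs_sum_le_sum_abs _ _
      _ ≤ ∑ x ∈ E (n + 1), φ n x * M := Finset.sum_le_sum fun x _ => by
          rw [abs_mul, abs_of_nonneg (hφ0 n x)]
          exact mul_le_mul_of_nonneg_left (hM x) (hφ0 n x)
      _ = M * Φ n := by rw [← Finset.sum_mul, mul_comm]
  refine ⟨fun f => ulim (av f), ⟨?_, ?_, ?_, ?_⟩, ?_⟩
  · intro f g hf hg
    apply ulim_eq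
    have h : av (f + g) = fun n => av f n + av g n := by
      funext n
      simp only [hav, Pi.add_apply, mul_add, Finset.sum_add_distrib, add_div]
    rw [h]
    exact (tendsto_ulim (hbdd f hf)).add (tendsto_ulim (hbdd g hg))
  · intro a f hf
    apply ulim_eq
    have h : av (fun x => a * f x) = fun n => a * av f n := by
      funext n
      simp only [hav]
      rw [← mul_div_assoc, Finset.mul_sum]
      congr 1
      exact Finset.sum_congr rfl fun x _ => by ring
    rw [h]
    exact (tendsto_ulim (hbdd f hf)).const_mul a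
  · intro f hf h
    apply ge_of_tendsto' (tendsto_ulim (hbdd f hf))
    intro n
    exact div_nonneg (Finset.sum_nonneg fun x _ => mul_nonneg (hφ0 n x) (h x)) (hΦpos n).le
  · apply ulim_eq
    have h : av (fun _ => (1 : ℝ)) = fun _ => 1 := by
      funext n
      simp only [hav, mul_one]
      exact div_self (hΦpos n).ne'
    rw [h]
    exact tendsto_const_nhds
  · intro g f hf
    apply ulim_eq
    have h : av (fun x => f (x * g)) = fun n => av f n + (av (fun x => f (x * g)) n - av f n) := by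
      funext n
      ring
    rw [h]
    have h2 : Tendsto (fun n : ℕ => av (fun x => f (x * g)) n - av f n) atTop (𝓝 0) := by
      obtain ⟨M, hM⟩ := hf
      have hM0 : 0 ≤ M := (abs_nonneg _).trans (hM 1)
      have h3 : Tendsto (fun n : ℕ => (2 * C * (len S g * M)) / ((n : ℝ) + 1)) atTop (𝓝 0) := by
        have := (tendsto_one_div_add_atTop_nhds_zero_nat (𝕜 := ℝ)).const_mul
          (2 * C * (len S g * M))
        simpa [div_eq_mul_inv] using this
      apply squeeze_zero_norm _ h3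
      intro n
      have h4 := fol2_est hS.gen (A (n + 1)) (E (n + 1)) (hA (n + 1)) (n + 1) (hAE (n + 1)) g hM
      have h5 : ((E (n + 1)).card : ℝ) ≤ C * (A (n + 1)).card := by
        exact_mod_cast hcard (n + 1)
      have hn : (0 : ℝ) < (n : ℝ) + 1 := by positivity
      have hL : (0 : ℝ) ≤ len S g * M := mul_nonneg (Nat.cast_nonneg _) hM0
      rw [Real.norm_eq_abs]
      simp only [hav]
      rw [← sub_div, abs_div, abs_of_pos (hΦpos n), div_le_div_iff₀ (hΦpos n) hn]
      calc _ ≤ 2 * (E (n + 1)).card * (len S g * M) * ((n : ℝ) + 1) :=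
            mul_le_mul_of_nonneg_right h4 hn.le
        _ ≤ 2 * (C * (A (n + 1)).card) * (len S g * M) * ((n : ℝ) + 1) := by gcongr
        _ = 2 * C * (len S g * M) * (((n : ℝ) + 1) * (A (n + 1)).card) := by ring
        _ ≤ 2 * C * (len S g * M) * Φ n := by
            gcongr
            exact hΦ n
    have h3 : (hyperfilter ℕ : Filter ℕ) ≤ atTop := by
      rw [← Nat.cofinite_eq_atTop]
      exact Filter.hyperfilter_le_cofinite
    have := (tendsto_ulim (hbdd f hf)).add (h2.mono_left h3)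
    rw [add_zero] at this
    exact this

end Fol2

end Vale.Agent.P188.SG
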