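import Vale.Agent.P188.SG.Len

/-! P188, Theorem S, T7c: controlled Følner pairs are preserved by quasi-isometries. -/

universe u v w

open Filter Topology Pointwise

namespace Vale.Agent.P188.SG


section Fol

variable {H : Type u} [Group H] {S : Finset H}

/-- a finite set of small diameter -/
theorem fol3_card (hS : Subgroup.closure (S : Set H) = ⊤) (A : Finset H) (n : ℕ)
    (hA : ∀ x ∈ A, ∀ y ∈ A, len S (x⁻¹ * y) ≤ n) : A.card ≤ (2 * S.card + 1) ^ n := by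
  classical
  rcases A.eq_empty_or_nonempty with h | ⟨x, hx⟩
  · rw [h]
    exact Nat.zero_le _
  · obtain ⟨h1, h2⟩ := ncard_ball_le hS n
    have h3 : (A.image fun y => x⁻¹ * y).card = A.card :=
      Finset.card_image_of_injective _ (mul_right_injective _)
    rw [← h3, ← Set.ncard_coe_finset]
    refine (Set.ncard_le_ncard ?_ h1).trans h2
    intro z hz
    obtain ⟨y, hy, rfl⟩ := Finset.mem_image.1 (Finset.mem_coe.1 hz)
    exact hA x hx y hy

/-- the set of points mapped into a finite set -/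
theorem fol3_preimage {G : Type v} [Group G] {T : Finset G}
    (hS : Subgroup.closure (S : Set H) = ⊤) (K C : ℝ) (hK : 1 ≤ K) (F : H → G)
    (hq : ∀ x y : H, K⁻¹ * (len S (x⁻¹ * y) : ℝ) - C ≤ (len T ((F x)⁻¹ * F y) : ℝ))
    (E : Finset G) :
    ∃ A : Finset H, (∀ h, h ∈ A ↔ F h ∈ E) ∧
      A.card ≤ (2 * S.card + 1) ^ ⌊K * C⌋₊ * E.card := by
  classical
  have hK0 : 0 < K := by linarith
  have hfib : ∀ x y : H, F x = F y → len S (x⁻¹ * y) ≤ ⌊K * C⌋₊ := by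
    intro x y hxy
    have h1 := hq x y
    rw [hxy, inv_mul_cancel, len_one, Nat.cast_zero] at h1
    refine Nat.le_floor ?_
    have h2 : K⁻¹ * (len S (x⁻¹ * y) : ℝ) ≤ C := by linarith
    rwa [inv_mul_le_iff₀ hK0] at h2
  have hfin : {h : H | F h ∈ E}.Finite := by
    have h1 : {h : H | F h ∈ E} = ⋃ g ∈ E, {h : H | F h = g} := by
      ext h
      simp
    rw [h1]
    refine E.finite_toSet.biUnion fun g _ => ?_
    by_cases hne : ∃ x, F x = g
    · obtain ⟨x, hx⟩ := hne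
      refine ((ncard_ball_le hS ⌊K * C⌋₊).1.image fun z => x * z).subset ?_
      intro y hy
      exact ⟨x⁻¹ * y, hfib x y (hx.trans (Eq.symm hy)), mul_inv_cancel_left x y⟩
    · convert Set.finite_empty
      ext y
      simp only [Set.mem_ofPred_eq, Set.mem_empty_iff_false, iff_false]
      exact fun hy => hne ⟨y, hy⟩
  refine ⟨hfin.toFinset, fun h => hfin.mem_toFinset, ?_⟩
  refine Finset.card_le_mul_card_image_of_maps_to (f := F) (fun a ha => hfin.mem_toFinset.1 ha)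
    _ fun b _ => fol3_card hS _ _ ?_
  intro x hx y hy
  exact hfib x y ((Finset.mem_filter.1 hx).2.trans (Finset.mem_filter.1 hy).2.symm)

theorem folner_of_qi {G : Type v} [Group G] {T : Finset G}
    (hS : Subgroup.closure (S : Set H) = ⊤) (hT : Subgroup.closure (T : Set G) = ⊤)
    (hF : Folner T) (K C : ℝ) (hK : 1 ≤ K) (hC : 0 ≤ C) (F : H → G)
    (hq : IsQuasiIsometry (wordDist (S : Set H)) (wordDist (T : Set G)) K C F) :
    Folner S := by
  classical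
  obtain ⟨CG, hF⟩ := hF
  obtain ⟨hq1, hq2⟩ := hq
  have hK0 : 0 < K := by linarith
  have hlo : ∀ x y : H, K⁻¹ * (len S (x⁻¹ * y) : ℝ) - C ≤ (len T ((F x)⁻¹ * F y) : ℝ) := by
    intro x y
    have h := (hq1 x y).1
    rwa [wordDist_eq_len, wordDist_eq_len] at h
  have hup : ∀ x y : H, (len T ((F x)⁻¹ * F y) : ℝ) ≤ K * (len S (x⁻¹ * y) : ℝ) + C := by
    intro x y
    have h := (hq1 x y).2
    rwa [wordDist_eq_len, wordDist_eq_len] at h
  have hsur : ∀ g : G, ∃ h : H, (len T (g⁻¹ * F h) : ℝ) ≤ C := by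
    intro g
    obtain ⟨x, hx⟩ := hq2 g
    rw [wordDist_eq_len] at hx
    exact ⟨x, hx⟩
  choose s hs using hsur
  have hdiam : ∀ (g g' : G) (h : H), (len T (g⁻¹ * F h) : ℝ) ≤ C →
      (len T (g'⁻¹ * F h) : ℝ) ≤ C → len T (g⁻¹ * g') ≤ ⌊2 * C⌋₊ := by
    intro g g' h h1 h2
    refine Nat.le_floor ?_
    have h3 : g⁻¹ * g' = (g⁻¹ * F h) * (g'⁻¹ * F h)⁻¹ := by group
    have h4 := len_mul_le hT (g⁻¹ * F h) (g'⁻¹ * F h)⁻¹
    rw [← h3, len_inv hT] at h4
    have h5 : (len T (g⁻¹ * g') : ℝ) ≤ len T (g⁻¹ * F h) + len T (g'⁻¹ * F h) := by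
      exact_mod_cast h4
    linarith
  set D1 : ℕ := (2 * S.card + 1) ^ ⌊K * C⌋₊ with hD1
  set D2 : ℕ := (2 * T.card + 1) ^ ⌊2 * C⌋₊ with hD2
  refine ⟨⌈K * (CG * (K + 2 * C + 2) + C)⌉₊ + D1 * (CG * D2), fun r => ?_⟩
  obtain ⟨E', E, hne, hmul, hdia, hcard⟩ := hF ⌈K * r + 2 * C⌉₊
  obtain ⟨A, hA, hAc⟩ := fol3_preimage (T := T) hS K C hK F hlo E
  have hstep : ∀ g ∈ E', ∀ h : H, (len T (g⁻¹ * F h) : ℝ) ≤ C → ∀ h' : H, len S h' ≤ r →
      h * h' ∈ A := by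
    intro g hg h h1 h' h2
    rw [hA]
    have h3 : F (h * h') = g * ((g⁻¹ * F h) * ((F h)⁻¹ * F (h * h'))) := by group
    rw [h3]
    refine hmul g hg _ ((len_mul_le hT _ _).trans ?_)
    have h4 := hup h (h * h')
    rw [inv_mul_cancel_left] at h4
    have h5 : (len S h' : ℝ) ≤ r := by exact_mod_cast h2
    have h6 : K * (len S h' : ℝ) ≤ K * r := mul_le_mul_of_nonneg_left h5 hK0.le
    have h7 : ((len T (g⁻¹ * F h) + len T ((F h)⁻¹ * F (h * h')) : ℕ) : ℝ) ≤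
        K * r + 2 * C := by
      push_cast
      linarith
    exact_mod_cast h7.trans (Nat.le_ceil _)
  have hA' : ∀ h : H, (∃ g ∈ E', (len T (g⁻¹ * F h) : ℝ) ≤ C) → h ∈ A := by
    rintro h ⟨g, hg, h1⟩
    have h2 := hstep g hg h h1 1 (by rw [len_one]; exact Nat.zero_le _)
    rwa [mul_one] at h2
  refine ⟨A.filter fun h => ∃ g ∈ E', (len T (g⁻¹ * F h) : ℝ) ≤ C, A, ?_, ?_, ?_, ?_⟩
  · obtain ⟨g, hg⟩ := hne
    exact ⟨s g, Finset.mem_filter.2 ⟨hA' _ ⟨g, hg, hs g⟩, g, hg, hs g⟩⟩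
  · intro x hx h hh
    obtain ⟨-, g, hg, h1⟩ := Finset.mem_filter.1 hx
    exact hstep g hg x h1 h hh
  · intro x hx y hy
    have h1 := hdia _ ((hA x).1 hx) _ ((hA y).1 hy)
    have h2 : (len T ((F x)⁻¹ * F y) : ℝ) ≤ CG * (⌈K * r + 2 * C⌉₊ + 1) := by exact_mod_cast h1
    have h3 : (⌈K * r + 2 * C⌉₊ : ℝ) < K * r + 2 * C + 1 := Nat.ceil_lt_add_one (by positivity)
    have h4 : (CG : ℝ) * (⌈K * r + 2 * C⌉₊ + 1) ≤ CG * ((K + 2 * C + 2) * (r + 1)) := by
      refine mul_le_mul_of_nonneg_left ?_ (Nat.cast_nonneg _)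
      have h5 : (0 : ℝ) ≤ (2 * C + 2) * r := by positivity
      nlinarith
    have h5 := hlo x y
    have h6 : K⁻¹ * (len S (x⁻¹ * y) : ℝ) ≤ (CG * (K + 2 * C + 2) + C) * (r + 1) := by
      have h7 : (0 : ℝ) ≤ C * r := by positivity
      nlinarith
    rw [inv_mul_le_iff₀ hK0] at h6
    have h7 : (len S (x⁻¹ * y) : ℝ) ≤
        ((⌈K * (CG * (K + 2 * C + 2) + C)⌉₊ + D1 * (CG * D2) : ℕ) : ℝ) * (r + 1) := by
      refine h6.trans ?_
      rw [← mul_assoc]
      refine mul_le_mul_of_nonneg_right ((Nat.le_ceil _).trans ?_) (by positivity)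
      exact_mod_cast Nat.le_add_right _ _
    exact_mod_cast h7
  · have h1 : E'.card ≤ D2 *
        (A.filter fun h => ∃ g ∈ E', (len T (g⁻¹ * F h) : ℝ) ≤ C).card := by
      refine Finset.card_le_mul_card_image_of_maps_to (f := s)
        (fun g hg => Finset.mem_filter.2 ⟨hA' _ ⟨g, hg, hs g⟩, g, hg, hs g⟩) _
        fun h _ => fol3_card hT _ _ ?_
      intro g hg g' hg'
      obtain ⟨-, e1⟩ := Finset.mem_filter.1 hg
      obtain ⟨-, e2⟩ := Finset.mem_filter.1 hg'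
      exact hdiam g g' h (e1 ▸ hs g) (e2 ▸ hs g')
    calc A.card ≤ D1 * E.card := hAc
      _ ≤ D1 * (CG * (D2 * _)) := Nat.mul_le_mul_left _ (hcard.trans (Nat.mul_le_mul_left _ h1))
      _ = D1 * (CG * D2) * _ := by ring
      _ ≤ _ := Nat.mul_le_mul_right _ (Nat.le_add_left _ _)

end Fol

end Vale.Agent.P188.SG
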