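import Vale.Agent.P188.SG.Defs
import Vale.Agent.P188.SG.Len
import Vale.Agent.P188.SG.Geo1
import Vale.Agent.P188.SG.Geo2
import Vale.Agent.P188.QI

/-!
P188, Theorem S: controlled Følner pairs in exponentially distorted extensions.
-/

universe u v w

open Filter Topology Pointwise

namespace Vale.Agent.P188.SG

section Geo4aux

variable {G : Type v} [Group G]

theorem Geo4_list {S : Set G} {g : G} (hg : g ∈ Subgroup.closure S) :
    ∃ l : List G, l.length = wordDist S 1 g ∧ (∀ a ∈ l, a ∈ S ∨ a⁻¹ ∈ S) ∧ l.prod = g := by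
  have hne : {n : ℕ | ∃ l : List G, l.length = n ∧ (∀ a ∈ l, a ∈ S ∨ a⁻¹ ∈ S) ∧
      l.prod = 1⁻¹ * g}.Nonempty := by
    have hmem : (1 : G)⁻¹ * g ∈ (Subgroup.closure S).toSubmonoid := by
      rw [inv_one, one_mul]; exact hg
    rw [Subgroup.closure_toSubmonoid] at hmem
    obtain ⟨l, hl, hp⟩ := Submonoid.exists_list_of_mem_closure hmem
    exact ⟨l.length, l, rfl, fun a ha => hl a ha, hp⟩
  obtain ⟨l, h1, h2, h3⟩ := Nat.sInf_mem hne
  exact ⟨l, h1, h2, by rw [h3, inv_one, one_mul]⟩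

theorem Geo4_len_mul {S : Finset G} {g h : G} (hg : g ∈ Subgroup.closure (S : Set G))
    (hh : h ∈ Subgroup.closure (S : Set G)) : len S (g * h) ≤ len S g + len S h := by
  obtain ⟨l, h1, h2, h3⟩ := Geo4_list hg
  obtain ⟨m, k1, k2, k3⟩ := Geo4_list hh
  unfold len
  rw [← h1, ← k1]
  refine Nat.sInf_le ⟨l ++ m, by simp, fun a ha => ?_, by simp [h3, k3]⟩
  rcases List.mem_append.1 ha with h | h
  · exact h2 a h
  · exact k2 a h

theorem Geo4_finite {S : Finset G} (n : ℕ) :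
    {x : G | x ∈ Subgroup.closure (S : Set G) ∧ len S x ≤ n}.Finite := by
  classical
  let U : Finset G := insert 1 (S ∪ S.image fun x => x⁻¹)
  have hU1 : (1 : G) ∈ U := Finset.mem_insert_self _ _
  have hmem : ∀ l : List G, (∀ a ∈ l, a ∈ S ∨ a⁻¹ ∈ S) → l.prod ∈ U ^ l.length := by
    intro l
    induction l with
    | nil => intro _; simp
    | cons a l ih =>
      intro hl
      rw [List.prod_cons, List.length_cons, pow_succ']
      refine Finset.mul_mem_mul ?_ (ih fun b hb => hl b (List.mem_cons_of_mem _ hb))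
      rcases hl a List.mem_cons_self with h | h
      · exact Finset.mem_insert_of_mem (Finset.mem_union_left _ h)
      · refine Finset.mem_insert_of_mem (Finset.mem_union_right _ ?_)
        exact Finset.mem_image.mpr ⟨a⁻¹, h, inv_inv a⟩
  refine (Finset.finite_toSet (U ^ n)).subset ?_
  rintro x ⟨hx, hxn⟩
  obtain ⟨l, h1, h2, h3⟩ := Geo4_list hx
  have h4 := hmem l h2
  rw [h3, h1] at h4
  exact Finset.mem_coe.mpr (Finset.pow_subset_pow_right hU1 hxn h4)

/-- a scale at which a function of polynomial growth is doubling. -/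
theorem Geo4_pigeon (β : ℕ → ℕ) (Cg D M : ℕ) (h1 : ∀ n, 1 ≤ β n)
    (hg : ∀ n, β n ≤ Cg * (n + 1) ^ D) :
    ∃ Q : ℕ, ∀ r R0 : ℕ, 1 ≤ R0 → R0 ≤ 2 ^ (M * (r + 1)) →
      ∃ j ≤ r, β (2 * (2 ^ j * R0)) ≤ Q * β (2 ^ j * R0) := by
  refine ⟨(Cg + 1) * 2 ^ ((M + 2) * D), fun r R0 hR1 hR0 => ?_⟩
  set Q : ℕ := (Cg + 1) * 2 ^ ((M + 2) * D) with hQ
  by_contra hcon
  push Not at hcon
  have key : ∀ j ≤ r + 1, Q ^ j ≤ β (2 ^ j * R0) := by
    intro j
    induction j with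
    | zero =>
      intro _
      rw [pow_zero]
      exact h1 _
    | succ j ih =>
      intro hj
      have h2 := ih (by omega)
      have h3 := hcon j (by omega)
      have h4 : 2 * (2 ^ j * R0) = 2 ^ (j + 1) * R0 := by ring
      rw [h4] at h3
      calc Q ^ (j + 1) = Q * Q ^ j := by ring
        _ ≤ Q * β (2 ^ j * R0) := Nat.mul_le_mul_left _ h2
        _ ≤ β (2 ^ (j + 1) * R0) := h3.le
  have h5 := (key (r + 1) le_rfl).trans (hg _)
  have h6 : 2 ^ (r + 1) * R0 + 1 ≤ 2 ^ ((M + 2) * (r + 1)) := by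
    have h7 : 2 ^ (r + 1) * R0 ≤ 2 ^ (r + 1) * 2 ^ (M * (r + 1)) := Nat.mul_le_mul_left _ hR0
    have h8 : 1 ≤ 2 ^ (r + 1) * R0 := Nat.mul_pos (by positivity) hR1
    have h9 : 2 * (2 ^ (r + 1) * 2 ^ (M * (r + 1))) ≤ 2 ^ ((M + 2) * (r + 1)) := by
      have e : 2 * (2 ^ (r + 1) * 2 ^ (M * (r + 1))) = 2 ^ (1 + (r + 1) + M * (r + 1)) := by
        rw [Nat.add_assoc, pow_add 2 1, pow_one, pow_add 2 (r + 1)]
      rw [e]
      refine Nat.pow_le_pow_right (by norm_num) ?_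
      nlinarith
    omega
  have h10 : (2 ^ (r + 1) * R0 + 1) ^ D ≤ 2 ^ ((M + 2) * D * (r + 1)) := by
    refine (Nat.pow_le_pow_left h6 D).trans ?_
    rw [← pow_mul]
    exact Nat.pow_le_pow_right (by norm_num) (le_of_eq (by ring))
  have h11 : Q ^ (r + 1) = (Cg + 1) ^ (r + 1) * 2 ^ ((M + 2) * D * (r + 1)) := by
    rw [hQ, mul_pow, ← pow_mul]
  have h12 : Cg + 1 ≤ (Cg + 1) ^ (r + 1) := Nat.le_self_pow (by omega) _
  have h13 : 0 < 2 ^ ((M + 2) * D * (r + 1)) := by positivity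
  have h14 : (Cg + 1) * 2 ^ ((M + 2) * D * (r + 1)) ≤ Cg * 2 ^ ((M + 2) * D * (r + 1)) := by
    calc (Cg + 1) * 2 ^ ((M + 2) * D * (r + 1))
        ≤ (Cg + 1) ^ (r + 1) * 2 ^ ((M + 2) * D * (r + 1)) := Nat.mul_le_mul_right _ h12
      _ = Q ^ (r + 1) := h11.symm
      _ ≤ Cg * (2 ^ (r + 1) * R0 + 1) ^ D := h5
      _ ≤ Cg * 2 ^ ((M + 2) * D * (r + 1)) := Nat.mul_le_mul_left _ h10
  have h15 := Nat.le_of_mul_le_mul_right h14 h13
  omega

/-- the initial scale. -/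
theorem Geo4_scale {C : ℝ} (hC : 0 ≤ C) (k : ℕ) : ∃ M : ℕ, ∀ r : ℕ,
    1 ≤ ⌈Real.exp (C * (1 + k * r + r))⌉₊ ∧
    ⌈Real.exp (C * (1 + k * r + r))⌉₊ ≤ 2 ^ (M * (r + 1)) := by
  refine ⟨2 * ⌈C * (k + 1)⌉₊, fun r => ⟨Nat.ceil_pos.2 (Real.exp_pos _), ?_⟩⟩
  rw [Nat.ceil_le]
  set N0 : ℕ := ⌈C * (k + 1)⌉₊ with hN0
  have h1 : C * (k + 1) ≤ N0 := Nat.le_ceil _
  have h2 : C * (1 + k * r + r) ≤ ((N0 * (r + 1) : ℕ) : ℝ) := by
    have h3 : C * (1 + k * r + r) ≤ C * (k + 1) * (r + 1) := by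
      have h4 : (1 : ℝ) + k * r + r ≤ (k + 1) * (r + 1) := by
        have : (0 : ℝ) ≤ k := Nat.cast_nonneg k
        nlinarith
      rw [mul_assoc]
      exact mul_le_mul_of_nonneg_left h4 hC
    refine h3.trans ?_
    push_cast
    exact mul_le_mul_of_nonneg_right h1 (by positivity)
  refine (Real.exp_le_exp.2 h2).trans ?_
  have h5 : Real.exp ((N0 * (r + 1) : ℕ) : ℝ) = Real.exp 1 ^ (N0 * (r + 1)) := by
    rw [← Real.exp_nat_mul, mul_one]
  rw [h5]
  have h6 : Real.exp 1 ≤ 2 ^ 2 := by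
    have := Real.exp_one_lt_d9
    norm_num at this ⊢
    linarith
  refine (pow_le_pow_left₀ (Real.exp_pos 1).le h6 _).trans ?_
  rw [← pow_mul]
  push_cast
  exact le_of_eq (by ring)

end Geo4aux

section Geo

variable {G : Type v} [Group G] {k : ℕ} {θ : G →* Multiplicative (Fin k → ℤ)} {A T : Finset G}

/-- boxes -/
theorem Geo4_box_sum {z : Fin k → ℤ} {s : ℕ}
    (hz : z ∈ Finset.Icc (fun _ => -(s : ℤ)) (fun _ => (s : ℤ))) : ∑ i, |(z i : ℝ)| ≤ k * s := by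
  rw [Finset.mem_Icc] at hz
  have h1 : ∀ i ∈ (Finset.univ : Finset (Fin k)), |(z i : ℝ)| ≤ s := by
    intro i _
    rw [abs_le]
    have h2 := hz.1 i
    have h3 := hz.2 i
    constructor
    · exact_mod_cast h2
    · exact_mod_cast h3
  have h4 := Finset.sum_le_card_nsmul _ _ _ h1
  simpa using h4

theorem Geo4_box_card (s : ℕ) :
    (Finset.Icc (fun _ : Fin k => -(s : ℤ)) (fun _ => (s : ℤ))).card = (2 * s + 1) ^ k := by
  rw [Pi.card_Icc]
  simp only [Int.card_Icc, Finset.prod_const, Finset.card_univ, Fintype.card_fin]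
  congr 1
  omega

open Classical in
/-- the sets `{x σ(z) : len A x ≤ R, z in the box of size s}` -/
noncomputable def Geo4_set (hfin : ∀ n, {x : G | x ∈ θ.ker ∧ len A x ≤ n}.Finite)
    (σ : (Fin k → ℤ) → G) (R s : ℕ) : Finset G :=
  ((hfin R).toFinset ×ˢ Finset.Icc (fun _ : Fin k => -(s : ℤ)) (fun _ => (s : ℤ))).image
    fun p => p.1 * σ p.2

theorem Geo4_mem {hfin : ∀ n, {x : G | x ∈ θ.ker ∧ len A x ≤ n}.Finite}
    {σ : (Fin k → ℤ) → G} {R s : ℕ} {g : G} : g ∈ Geo4_set hfin σ R s ↔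
      ∃ x z, (x ∈ θ.ker ∧ len A x ≤ R) ∧
        z ∈ Finset.Icc (fun _ : Fin k => -(s : ℤ)) (fun _ => (s : ℤ)) ∧ x * σ z = g := by
  classical
  unfold Geo4_set
  rw [Finset.mem_image]
  constructor
  · rintro ⟨⟨x, z⟩, hp, rfl⟩
    obtain ⟨h1, h2⟩ := Finset.mem_product.1 hp
    exact ⟨x, z, (hfin R).mem_toFinset.1 h1, h2, rfl⟩
  · rintro ⟨x, z, h1, h2, rfl⟩
    exact ⟨(x, z), Finset.mem_product.2 ⟨(hfin R).mem_toFinset.2 h1, h2⟩, rfl⟩

theorem Geo4_card_eq {hfin : ∀ n, {x : G | x ∈ θ.ker ∧ len A x ≤ n}.Finite}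
    {σ : (Fin k → ℤ) → G} (hσ : ∀ z, Multiplicative.toAdd (θ (σ z)) = z) {R s : ℕ} :
    (Geo4_set hfin σ R s).card = {x : G | x ∈ θ.ker ∧ len A x ≤ R}.ncard * (2 * s + 1) ^ k := by
  classical
  unfold Geo4_set
  rw [Finset.card_image_of_injOn, Finset.card_product, Geo4_box_card,
    Set.ncard_eq_toFinset_card _ (hfin R)]
  rintro ⟨x, z⟩ hp ⟨y, w⟩ hq heq
  have hx : x ∈ θ.ker := ((hfin R).mem_toFinset.1 (Finset.mem_product.1 hp).1).1
  have hy : y ∈ θ.ker := ((hfin R).mem_toFinset.1 (Finset.mem_product.1 hq).1).1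
  have heq' : x * σ z = y * σ w := heq
  have h1 : z = w := by
    have h2 := congrArg (fun g => Multiplicative.toAdd (θ g)) heq'
    simp only [map_mul, MonoidHom.mem_ker.1 hx, MonoidHom.mem_ker.1 hy, one_mul, hσ] at h2
    exact h2
  subst h1
  rw [mul_right_cancel heq']

theorem folner_expExt (h : ExpExt θ A T) : Folner T := by
  obtain ⟨σ, Cs, hCs, hσ0, hσθ, hσT, hσA⟩ := exists_section h
  obtain ⟨C1, hC1, hlip⟩ := co_lip h
  obtain ⟨Cg, D, hgr⟩ := h.growth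
  obtain ⟨Cd, hCd⟩ := h.dist
  have hfin : ∀ n, {x : G | x ∈ θ.ker ∧ len A x ≤ n}.Finite := by
    intro n
    rw [← h.genA]
    exact Geo4_finite n
  have hone : ∀ n, (1 : G) ∈ {x : G | x ∈ θ.ker ∧ len A x ≤ n} := fun n =>
    ⟨θ.ker.one_mem, by rw [len_one]; exact Nat.zero_le _⟩
  have hβ1 : ∀ n, 1 ≤ {x : G | x ∈ θ.ker ∧ len A x ≤ n}.ncard := fun n =>
    (Set.ncard_pos (hfin n)).2 ⟨1, hone n⟩
  obtain ⟨M, hM⟩ := Geo4_scale hCs k
  obtain ⟨Q, hQ⟩ := Geo4_pigeon (fun n => {x : G | x ∈ θ.ker ∧ len A x ≤ n}.ncard) Cg D M hβ1 hgr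
  set b : ℕ := ⌈C1⌉₊ with hb
  have hbC : C1 ≤ b := Nat.le_ceil _
  have hθσ : ∀ w, θ (σ w) = Multiplicative.ofAdd w := fun w => by
    rw [← hσθ w, ofAdd_toAdd, hσθ w]
  -- the diameter
  set K : ℝ := max Cd 0 * (1 + (M + 3)) + Cs * (k * (1 + b)) with hK
  have hD0 : 0 ≤ max Cd 0 := le_max_right _ _
  refine ⟨⌈2 * K⌉₊ + Q * (1 + b) ^ k, fun r => ?_⟩
  obtain ⟨hR01, hR0M⟩ := hM r
  set R0 : ℕ := ⌈Real.exp (Cs * (1 + k * r + r))⌉₊ with hR0
  obtain ⟨j, hj, hjQ⟩ := hQ r R0 hR01 hR0M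
  set R : ℕ := 2 ^ j * R0 with hR
  have hR0R : R0 ≤ R := Nat.le_mul_of_pos_left _ (by positivity)
  refine ⟨Geo4_set hfin σ R r, Geo4_set hfin σ (2 * R) ((1 + b) * r), ?_, ?_, ?_, ?_⟩
  · refine ⟨1 * σ 0, Geo4_mem.2 ⟨1, 0, hone R, ?_, rfl⟩⟩
    rw [Finset.mem_Icc]
    exact ⟨fun i => by simp, fun i => by simp⟩
  · intro g hg y hy
    obtain ⟨x, z, ⟨hx, hxR⟩, hz, rfl⟩ := Geo4_mem.1 hg
    set w : Fin k → ℤ := z + Multiplicative.toAdd (θ y) with hw
    set D' : G := σ z * y * (σ w)⁻¹ with hD'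
    have hDker : D' ∈ θ.ker := by
      rw [MonoidHom.mem_ker, hD', map_mul, map_mul, map_inv, hθσ, hθσ, hw]
      rw [ofAdd_add, ofAdd_toAdd]
      group
    have hDlen : len A D' ≤ R0 := by
      have h1 := hσA z y
      have h2 : (len A D' : ℝ) ≤ Real.exp (Cs * (1 + k * r + r)) := by
        refine h1.trans (Real.exp_le_exp.2 (mul_le_mul_of_nonneg_left ?_ hCs))
        have h3 := Geo4_box_sum hz
        have h4 : (len T y : ℝ) ≤ r := by exact_mod_cast hy
        linarith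
      have h5 : (len A D' : ℝ) ≤ R0 := h2.trans (Nat.le_ceil _)
      exact_mod_cast h5
    refine Geo4_mem.2 ⟨x * D', w, ⟨θ.ker.mul_mem hx hDker, ?_⟩, ?_, ?_⟩
    · refine (Geo4_len_mul (by rw [h.genA]; exact hx) (by rw [h.genA]; exact hDker)).trans ?_
      omega
    · rw [Finset.mem_Icc] at hz ⊢
      have h6 : ∀ i, |(Multiplicative.toAdd (θ y)) i| ≤ ((b * r : ℕ) : ℤ) := by
        intro i
        have h7 := hlip 1 y i
        rw [one_mul, geo1_co_one, sub_zero] at h7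
        have h8 : |co θ y i| ≤ b * r := by
          refine h7.trans ?_
          have h4 : (len T y : ℝ) ≤ r := by exact_mod_cast hy
          exact mul_le_mul hbC h4 (Nat.cast_nonneg _) (Nat.cast_nonneg _)
        unfold co at h8
        exact_mod_cast h8
      constructor
      · intro i
        have h9 := (abs_le.1 (h6 i)).1
        have h10 := hz.1 i
        show -(((1 + b) * r : ℕ) : ℤ) ≤ z i + (Multiplicative.toAdd (θ y)) i
        push_cast at h9 h10 ⊢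
        linarith
      · intro i
        have h9 := (abs_le.1 (h6 i)).2
        have h10 := hz.2 i
        show z i + (Multiplicative.toAdd (θ y)) i ≤ (((1 + b) * r : ℕ) : ℤ)
        push_cast at h9 h10 ⊢
        linarith
    · rw [hD']
      group
  · have hpt : ∀ g ∈ Geo4_set hfin σ (2 * R) ((1 + b) * r), (len T g : ℝ) ≤ K * (r + 1) := by
      intro g hg
      obtain ⟨x, z, ⟨hx, hxR⟩, hz, rfl⟩ := Geo4_mem.1 hg
      have h1 : (len T (x * σ z) : ℝ) ≤ len T x + len T (σ z) := by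
        exact_mod_cast len_mul_le h.genT x (σ z)
      have h2 : (len T (σ z) : ℝ) ≤ Cs * (k * ((1 + b) * r)) := by
        refine (hσT z).trans (mul_le_mul_of_nonneg_left ?_ hCs)
        have := Geo4_box_sum hz
        push_cast at this
        exact this
      have hRle : R ≤ 2 ^ ((M + 1) * (r + 1)) := by
        calc R ≤ 2 ^ r * 2 ^ (M * (r + 1)) :=
              Nat.mul_le_mul (Nat.pow_le_pow_right (by norm_num) hj) hR0M
          _ = 2 ^ (r + M * (r + 1)) := by rw [pow_add]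
          _ ≤ 2 ^ ((M + 1) * (r + 1)) := Nat.pow_le_pow_right (by norm_num) (by nlinarith)
      have h3 : Real.log (1 + len A x) ≤ (M + 3) * (r + 1) := by
        have h4 : 1 + len A x ≤ 2 ^ ((M + 3) * (r + 1)) := by
          have h5 : 1 ≤ 2 ^ ((M + 1) * (r + 1)) := Nat.one_le_two_pow
          have h6 : 1 + len A x ≤ 2 ^ 2 * 2 ^ ((M + 1) * (r + 1)) := by omega
          refine h6.trans ?_
          rw [← pow_add]
          exact Nat.pow_le_pow_right (by norm_num) (by nlinarith)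
        have h7 : (1 + len A x : ℝ) ≤ 2 ^ ((M + 3) * (r + 1)) := by exact_mod_cast h4
        have h8 := Real.log_le_log (by positivity) h7
        rw [Real.log_pow] at h8
        refine h8.trans ?_
        have h9 : Real.log 2 ≤ 1 := by
          have := Real.log_two_lt_d9
          linarith
        have h10 : (0 : ℝ) ≤ ((M + 3) * (r + 1) : ℕ) := Nat.cast_nonneg _
        calc (((M + 3) * (r + 1) : ℕ) : ℝ) * Real.log 2
            ≤ (((M + 3) * (r + 1) : ℕ) : ℝ) * 1 := mul_le_mul_of_nonneg_left h9 h10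
          _ = (M + 3) * (r + 1) := by push_cast; ring
      have hlog0 : 0 ≤ Real.log (1 + (len A x : ℝ)) := Real.log_nonneg (by
        have : (0 : ℝ) ≤ len A x := Nat.cast_nonneg _
        linarith)
      have h11 : (len T x : ℝ) ≤ max Cd 0 * (1 + (M + 3) * (r + 1)) := by
        refine (hCd x hx).trans ?_
        refine (mul_le_mul_of_nonneg_right (le_max_left Cd 0) (by linarith)).trans ?_
        exact mul_le_mul_of_nonneg_left (by linarith) hD0
      have e1 : max Cd 0 * (1 + (M + 3) * (r + 1)) ≤ max Cd 0 * (1 + (M + 3)) * (r + 1) := by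
        rw [mul_assoc]
        refine mul_le_mul_of_nonneg_left ?_ hD0
        have : (0 : ℝ) ≤ r := Nat.cast_nonneg _
        linarith
      have e2 : Cs * (k * ((1 + b) * r)) ≤ Cs * (k * (1 + b)) * (r + 1) := by
        have e3 : (0 : ℝ) ≤ Cs * (k * (1 + b)) := by positivity
        nlinarith
      rw [hK, add_mul]
      linarith
    intro g hg y hy
    have h1 : len T (g⁻¹ * y) ≤ len T g + len T y := by
      have := len_mul_le h.genT g⁻¹ y
      rwa [len_inv h.genT] at this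
    have h2 : (len T (g⁻¹ * y) : ℝ) ≤ 2 * K * (r + 1) := by
      have h3 : (len T (g⁻¹ * y) : ℝ) ≤ len T g + len T y := by exact_mod_cast h1
      have h4 := hpt g hg
      have h5 := hpt y hy
      linarith
    have h6 : (len T (g⁻¹ * y) : ℝ) ≤ ((⌈2 * K⌉₊ * (r + 1) : ℕ) : ℝ) := by
      refine h2.trans ?_
      push_cast
      exact mul_le_mul_of_nonneg_right (Nat.le_ceil _) (by positivity)
    have h7 : len T (g⁻¹ * y) ≤ ⌈2 * K⌉₊ * (r + 1) := by exact_mod_cast h6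
    exact h7.trans (Nat.mul_le_mul_right _ (Nat.le_add_right _ _))
  · rw [Geo4_card_eq hσθ, Geo4_card_eq hσθ]
    have h1 : (2 * ((1 + b) * r) + 1) ^ k ≤ (1 + b) ^ k * (2 * r + 1) ^ k := by
      rw [← mul_pow]
      exact Nat.pow_le_pow_left (by nlinarith) k
    calc {x : G | x ∈ θ.ker ∧ len A x ≤ 2 * R}.ncard * (2 * ((1 + b) * r) + 1) ^ k
        ≤ (Q * {x : G | x ∈ θ.ker ∧ len A x ≤ R}.ncard) * ((1 + b) ^ k * (2 * r + 1) ^ k) :=
          Nat.mul_le_mul hjQ h1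
      _ = Q * (1 + b) ^ k * ({x : G | x ∈ θ.ker ∧ len A x ≤ R}.ncard * (2 * r + 1) ^ k) := by
          ring
      _ ≤ _ := Nat.mul_le_mul_right _ (Nat.le_add_left _ _)

end Geo

end Vale.Agent.P188.SG
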