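import Vale.Agent.P188.SG.Harm

/-! P188, Theorem S+: a cocycle is the sum of a harmonic cocycle and an almost coboundary, with
linear control of the error. -/

universe u v w

open Filter Topology Pointwise

namespace Vale.Agent.P188.SG

theorem harmonic_decomp' {H : Type u} [Group H] {S : Finset H} {V : Type v}
    [NormedAddCommGroup V] [InnerProductSpace ℝ V] [CompleteSpace V] (hS : SymGen S)
    (π : H →* (V ≃ₗᵢ[ℝ] V)) (b : H → V) (hb : IsCocycle π b) :
    ∃ h z : H → V, IsCocycle π h ∧ IsCocycle π z ∧ (∀ g, b g = h g + z g) ∧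
      ∑ s ∈ S, h s = 0 ∧ (∀ ε : ℝ, 0 < ε → ∃ C : ℝ, ∀ g, ‖z g‖ ≤ ε * len S g + C) ∧
      ∀ ε : ℝ, 0 < ε → ∃ v : V, ∀ g, ‖z g - (π g v - v)‖ ≤ ε * len S g := by
  classical
  let E := PiLp 2 (fun _ : S => V)
  let D : V →ₗ[ℝ] E := harm_D S π
  let K : Submodule ℝ E := (LinearMap.range D).topologicalClosure
  haveI : IsClosed (K : Set E) := Submodule.isClosed_topologicalClosure _
  haveI : CompleteSpace K := this.completeSpace_coe
  let bS : E := WithLp.toLp 2 (fun s : S => b s)
  let zS : E := K.starProjection bS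
  have hzK : zS ∈ closure (Set.range D) := by
    have : zS ∈ K := K.starProjection_apply_mem bS
    exact this
  obtain ⟨x, hx, hxl⟩ := mem_closure_iff_seq_limit.mp hzK
  choose v hv using hx
  have hvl : Tendsto (fun n => D (v n)) atTop (𝓝 zS) := by simpa only [hv] using hxl
  have hcau : ∀ g : H, ∃ y : V, Tendsto (fun n => π g (v n) - v n) atTop (𝓝 y) := by
    intro g
    refine cauchySeq_tendsto_of_complete ?_
    have hC : CauchySeq (fun n => D (v n)) := hvl.cauchySeq
    rw [Metric.cauchySeq_iff] at hC ⊢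
    intro ε hε
    obtain ⟨N, hN⟩ := hC (ε / (len S g + 1)) (by positivity)
    refine ⟨N, fun m hm n hn => ?_⟩
    have h1 := hN m hm n hn
    rw [dist_eq_norm] at h1 ⊢
    have e : π g (v m) - v m - (π g (v n) - v n) = π g (v m - v n) - (v m - v n) := by
      rw [map_sub]; abel
    rw [e]
    refine (harm_D_bound hS π (v m - v n) g).trans_lt ?_
    have e2 : harm_D S π (v m - v n) = D (v m) - D (v n) := map_sub D _ _
    rw [e2]
    rw [lt_div_iff₀ (by positivity)] at h1
    nlinarith [norm_nonneg (D (v m) - D (v n))]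
  choose z hz using hcau
  have hzc : IsCocycle π z := by
    intro g h
    refine tendsto_nhds_unique (hz (g * h)) ?_
    have h1 : Tendsto (fun n => (π g (v n) - v n) + π g (π h (v n) - v n)) atTop
        (𝓝 (z g + π g (z h))) :=
      (hz g).add (((π g).continuous.tendsto _).comp (hz h))
    refine h1.congr fun n => ?_
    exact (harm_cobound π (v n) g h).symm
  have hzs : ∀ s : S, z s = zS s := by
    intro s
    refine tendsto_nhds_unique (hz s) ?_
    exact ((PiLp.continuous_apply 2 (fun _ : S => V) s).tendsto zS).comp hvl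
  have hhc : IsCocycle π (fun g => b g - z g) := harm_sub hb hzc
  have hlin : ∀ ε : ℝ, 0 < ε → ∃ v : V, ∀ g, ‖z g - (π g v - v)‖ ≤ ε * len S g := by
    intro ε hε
    obtain ⟨n, hn⟩ := ((Metric.tendsto_atTop.mp hvl) ε hε)
    have hn' := hn n le_rfl
    refine ⟨v n, fun g => ?_⟩
    have hcc : IsCocycle π (fun g => z g - (π g (v n) - v n)) := harm_sub hzc (harm_cobound π _)
    refine harm_bound hS hcc (fun s hs => ?_) g
    change ‖z s - (π s (v n) - v n)‖ ≤ ε
    have h2 : ‖(zS - D (v n)) ⟨s, hs⟩‖ ≤ ‖zS - D (v n)‖ := PiLp.norm_apply_le _ _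
    have h3 : (zS - D (v n)) ⟨s, hs⟩ = z s - (π s (v n) - v n) := by
      rw [PiLp.sub_apply, ← hzs ⟨s, hs⟩]
      rfl
    rw [h3] at h2
    rw [dist_comm, dist_eq_norm] at hn'
    exact h2.trans hn'.le
  refine ⟨fun g => b g - z g, z, hhc, hzc, fun g => by simp, ?_, ?_, hlin⟩
  · refine harm_sum_zero hS hhc fun w => ?_
    have h1 : bS - zS ∈ Kᗮ := Submodule.sub_starProjection_mem_orthogonal bS
    have h2 : D w ∈ K := Submodule.le_topologicalClosure _ (LinearMap.mem_range_self D w)
    have h3 : inner ℝ (D w) (bS - zS) = 0 := h1 _ h2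
    rw [PiLp.inner_apply] at h3
    rw [← Finset.sum_coe_sort S]
    rw [← h3]
    refine Finset.sum_congr rfl fun s _ => ?_
    rw [real_inner_comm, PiLp.sub_apply, ← hzs s]
    rfl
  · intro ε hε
    obtain ⟨w, hw⟩ := hlin ε hε
    refine ⟨2 * ‖w‖, fun g => ?_⟩
    have h4 : ‖π g w - w‖ ≤ 2 * ‖w‖ := by
      refine (norm_sub_le _ _).trans ?_
      rw [LinearIsometryEquiv.norm_map]
      linarith
    calc ‖z g‖ = ‖(z g - (π g w - w)) + (π g w - w)‖ := by rw [sub_add_cancel]
      _ ≤ ‖z g - (π g w - w)‖ + ‖π g w - w‖ := norm_add_le _ _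
      _ ≤ ε * len S g + 2 * ‖w‖ := add_le_add (hw g) h4

end Vale.Agent.P188.SG
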