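import Vale.Agent.P188.SG.Defs2

/-!
P188, Theorem S+, Q0b: the Hilbert space of a mean and the cocycle of a coarse map, with the map
from bounded functions to the Hilbert space and its equivariance.
-/

universe u v w

open Filter Topology

namespace Vale.Agent.P188.SG

section Completion

variable {H : Type u} [Group H] {X₀ : Type v}

/-- An isometric representation with a cocycle on a semi-inner product space extends to the
completion. -/
private theorem meanL2c_completion [SeminormedAddCommGroup X₀] [InnerProductSpace ℝ X₀]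
    (ρ : H → X₀ →ₗᵢ[ℝ] X₀) (h1 : ∀ x, ρ 1 x = x)
    (hmul : ∀ g h x, ρ (g * h) x = ρ g (ρ h x)) (b₀ : H → X₀)
    (hb : ∀ g h, b₀ (g * h) = b₀ g + ρ g (b₀ h)) :
    ∃ (V : Type v) (_ : NormedAddCommGroup V) (_ : InnerProductSpace ℝ V)
      (_ : CompleteSpace V) (π : H →* (V ≃ₗᵢ[ℝ] V)) (b : H → V) (j : X₀ → V), IsCocycle π b ∧
      (∀ h, b h = j (b₀ h)) ∧ (∀ x y, j (x + y) = j x + j y) ∧
      (∀ (a : ℝ) x, j (a • x) = a • j x) ∧ (∀ x, ‖j x‖ = ‖x‖) ∧
      (∀ (v : V) (η : ℝ), 0 < η → ∃ x, ‖v - j x‖ ≤ η) ∧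
      (∀ h x, π h (j x) = j (ρ h x)) := by
  let C : H → UniformSpace.Completion X₀ →L[ℝ] UniformSpace.Completion X₀ :=
    fun h => (ρ h).toContinuousLinearMap.completion
  have hC : ∀ h (x : X₀), C h (x : UniformSpace.Completion X₀) = ((ρ h x : X₀) : _) := fun h x =>
    ContinuousLinearMap.completion_apply_coe _ _
  have hC1 : ∀ x, C 1 x = x := fun x => by
    induction x using UniformSpace.Completion.induction_on with
    | hp => exact isClosed_eq (C 1).continuous continuous_id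
    | ih x => rw [hC, h1]
  have hCmul : ∀ g h x, C (g * h) x = C g (C h x) := fun g h x => by
    induction x using UniformSpace.Completion.induction_on with
    | hp => exact isClosed_eq (C _).continuous ((C g).continuous.comp (C h).continuous)
    | ih x => rw [hC, hC, hC, hmul]
  have hCn : ∀ h x, ‖C h x‖ = ‖x‖ := fun h x => by
    induction x using UniformSpace.Completion.induction_on with
    | hp => exact isClosed_eq (C h).continuous.norm continuous_norm
    | ih x => rw [hC, UniformSpace.Completion.norm_coe, UniformSpace.Completion.norm_coe,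
        LinearIsometry.norm_map]
  have hinv1 : ∀ h x, C h (C h⁻¹ x) = x := fun h x => by
    rw [← hCmul, mul_inv_cancel, hC1]
  have hinv2 : ∀ h x, C h⁻¹ (C h x) = x := fun h x => by
    rw [← hCmul, inv_mul_cancel, hC1]
  let E : H → UniformSpace.Completion X₀ ≃ₗᵢ[ℝ] UniformSpace.Completion X₀ := fun h =>
    { toLinearEquiv := LinearEquiv.ofLinearMap (C h).toLinearMap (C h⁻¹).toLinearMap
        (LinearMap.ext fun x => hinv1 h x) (LinearMap.ext fun x => hinv2 h x)
      norm_map' := fun x => hCn h x }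
  have hE : ∀ h x, E h x = C h x := fun h x => rfl
  let π : H →* (UniformSpace.Completion X₀ ≃ₗᵢ[ℝ] UniformSpace.Completion X₀) :=
    { toFun := E
      map_one' := LinearIsometryEquiv.ext fun x => by rw [hE, hC1]; rfl
      map_mul' := fun g h => LinearIsometryEquiv.ext fun x => by
        rw [hE, hCmul]; rfl }
  refine ⟨UniformSpace.Completion X₀, inferInstance, inferInstance, inferInstance, π,
    fun h => ((b₀ h : X₀) : _), fun x => (x : _), fun g h => ?_, fun h => rfl,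
    fun x y => UniformSpace.Completion.coe_add _ _,
    fun a x => UniformSpace.Completion.coe_smul _ _,
    fun x => UniformSpace.Completion.norm_coe _, fun v η hη => ?_, fun h x => hC h x⟩
  · show ((b₀ (g * h) : X₀) : UniformSpace.Completion X₀) = (b₀ g : _) + C g (b₀ h : _)
    rw [hC, hb, UniformSpace.Completion.coe_add]
  · have hd : DenseRange ((↑) : X₀ → UniformSpace.Completion X₀) :=
      UniformSpace.Completion.denseRange_coe
    obtain ⟨x, hx⟩ := Metric.denseRange_iff.1 hd v η hη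
    exact ⟨x, by rw [← dist_eq_norm]; exact hx.le⟩

/-- The same for a positive semidefinite form. -/
private theorem meanL2c_core [AddCommGroup X₀] [Module ℝ X₀] (c : PreInnerProductSpace.Core ℝ X₀)
    (ρ : H → X₀ →ₗ[ℝ] X₀) (h1 : ∀ x, ρ 1 x = x)
    (hmul : ∀ g h x, ρ (g * h) x = ρ g (ρ h x))
    (hρ : ∀ h x, c.inner (ρ h x) (ρ h x) = c.inner x x) (b₀ : H → X₀)
    (hb : ∀ g h, b₀ (g * h) = b₀ g + ρ g (b₀ h)) :
    ∃ (V : Type v) (_ : NormedAddCommGroup V) (_ : InnerProductSpace ℝ V)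
      (_ : CompleteSpace V) (π : H →* (V ≃ₗᵢ[ℝ] V)) (b : H → V) (j : X₀ → V), IsCocycle π b ∧
      (∀ h, b h = j (b₀ h)) ∧ (∀ x y, j (x + y) = j x + j y) ∧
      (∀ (a : ℝ) x, j (a • x) = a • j x) ∧ (∀ x, ‖j x‖ ^ 2 = c.inner x x) ∧
      (∀ (v : V) (η : ℝ), 0 < η → ∃ x, ‖v - j x‖ ≤ η) ∧
      (∀ h x, π h (j x) = j (ρ h x)) := by
  let i1 : SeminormedAddCommGroup X₀ :=
    @InnerProductSpace.Core.toSeminormedAddCommGroup ℝ X₀ _ _ _ c
  let i2 : InnerProductSpace ℝ X₀ := InnerProductSpace.ofCore c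
  have hnorm : ∀ x : X₀, ‖x‖ ^ 2 = c.inner x x := fun x => by
    rw [← real_inner_self_eq_norm_sq]
  obtain ⟨V, j1, j2, j3, π, b, j, hc, hbj, hadd, hsmul, hn, hd, he⟩ :=
    meanL2c_completion (X₀ := X₀)
    (fun h => { toLinearMap := ρ h
                norm_map' := fun x => by
                  have h2 : ‖ρ h x‖ ^ 2 = ‖x‖ ^ 2 := by rw [hnorm, hnorm, hρ]
                  exact (pow_left_inj₀ (norm_nonneg _) (norm_nonneg _) two_ne_zero).1 h2 })
    h1 hmul b₀ hb
  exact ⟨V, j1, j2, j3, π, b, j, hc, hbj, hadd, hsmul, fun x => by rw [hn, hnorm], hd,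
    fun h x => he h x⟩

end Completion

/-- Vector valued functions with bounded coordinates. -/
private def meanL2cX (H : Type u) (k : ℕ) : Submodule ℝ (H → Fin k → ℝ) where
  carrier := {φ | ∀ i, Bdd (fun y => φ y i)}
  add_mem' := fun ha hb i => (ha i).add (hb i)
  zero_mem' := fun _ => Bdd.const 0
  smul_mem' := fun c _ ha i => (ha i).const_mul c

private lemma meanL2c_bdd_mul {X : Type u} {f g : X → ℝ} (hf : Bdd f) (hg : Bdd g) :
    Bdd (fun x => f x * g x) := by
  obtain ⟨M, hM⟩ := hf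
  obtain ⟨N, hN⟩ := hg
  refine ⟨M * N, fun x => ?_⟩
  rw [abs_mul]
  exact mul_le_mul (hM x) (hN x) (abs_nonneg _) ((abs_nonneg _).trans (hM x))

private lemma meanL2c_bdd_sum {X : Type u} {k : ℕ} {f : X → Fin k → ℝ}
    (hf : ∀ i, Bdd (fun x => f x i)) : Bdd (fun x => ∑ i, f x i) := by
  choose M hM using hf
  refine ⟨∑ i, M i, fun x => (Finset.abs_sum_le_sum_abs _ _).trans ?_⟩
  exact Finset.sum_le_sum fun i _ => hM i x

private lemma meanL2c_bdd {X : Type u} {k : ℕ} {φ ψ : X → Fin k → ℝ}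
    (hφ : ∀ i, Bdd (fun y => φ y i)) (hψ : ∀ i, Bdd (fun y => ψ y i)) :
    Bdd (fun y => ∑ i, φ y i * ψ y i) :=
  meanL2c_bdd_sum fun i => meanL2c_bdd_mul (hφ i) (hψ i)

theorem exists_rep'' {H : Type u} [Group H] (μ : (H → ℝ) → ℝ) (hμ : IsMean μ)
    (hinv : ∀ (g : H) (f : H → ℝ), Bdd f → μ (fun x => f (x * g)) = μ f) {k : ℕ}
    (f : H → Fin k → ℝ) (hf : ∀ h i, Bdd (fun y => f (y * h) i - f y i)) :
    ∃ (V : Type u) (_ : NormedAddCommGroup V) (_ : InnerProductSpace ℝ V)
      (_ : CompleteSpace V) (π : H →* (V ≃ₗᵢ[ℝ] V)) (b : H → V) (ι : (H → Fin k → ℝ) → V),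
      IsCocycle π b ∧
      (∀ h, b h = ι (fun y i => f (y * h) i - f y i)) ∧
      (∀ φ ψ, VBdd φ → VBdd ψ → ι (fun y i => φ y i + ψ y i) = ι φ + ι ψ) ∧
      (∀ (a : ℝ) φ, VBdd φ → ι (fun y i => a * φ y i) = a • ι φ) ∧
      (∀ φ, VBdd φ → ‖ι φ‖ ^ 2 = μ (fun y => ∑ i, (φ y i) ^ 2)) ∧
      (∀ (v : V) (η : ℝ), 0 < η → ∃ φ, VBdd φ ∧ ‖v - ι φ‖ ≤ η) ∧
      (∀ h φ, VBdd φ → π h (ι φ) = ι (fun y i => φ (y * h) i)) := by
  let c : PreInnerProductSpace.Core ℝ (meanL2cX H k) :=
    { inner := fun φ ψ => μ (fun y => ∑ i, (φ : H → Fin k → ℝ) y i * (ψ : H → Fin k → ℝ) y i)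
      conj_inner_symm := fun φ ψ => by
        show μ _ = μ _
        congr 1
        funext y
        exact Finset.sum_congr rfl fun i _ => mul_comm _ _
      re_inner_nonneg := fun φ => hμ.nonneg _ (meanL2c_bdd φ.2 φ.2) fun y =>
        Finset.sum_nonneg fun i _ => mul_self_nonneg _
      add_left := fun φ ψ χ => by
        rw [← hμ.add _ _ (meanL2c_bdd φ.2 χ.2) (meanL2c_bdd ψ.2 χ.2)]
        congr 1
        funext y
        simp only [Pi.add_apply, Submodule.coe_add]
        rw [← Finset.sum_add_distrib]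
        exact Finset.sum_congr rfl fun i _ => by ring
      smul_left := fun φ ψ r => by
        show μ _ = r * μ _
        rw [← hμ.smul r _ (meanL2c_bdd φ.2 ψ.2)]
        congr 1
        funext y
        simp only [Submodule.coe_smul, Pi.smul_apply, smul_eq_mul]
        rw [Finset.mul_sum]
        exact Finset.sum_congr rfl fun i _ => by ring }
  let ρ : H → meanL2cX H k →ₗ[ℝ] meanL2cX H k := fun h =>
    { toFun := fun φ => ⟨fun y => (φ : H → Fin k → ℝ) (y * h), fun i =>
        (φ.2 i).comp (fun y => y * h)⟩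
      map_add' := fun φ ψ => rfl
      map_smul' := fun r φ => rfl }
  let b₀ : H → meanL2cX H k := fun h => ⟨fun y i => f (y * h) i - f y i, fun i => hf h i⟩
  obtain ⟨V, j1, j2, j3, π, b, j, hc, hbj, hadd, hsmul, hn, hd, he⟩ := meanL2c_core c ρ
    (fun φ => Subtype.ext (funext fun y => by
      show (φ : H → Fin k → ℝ) (y * 1) = _
      rw [mul_one]))
    (fun g h φ => Subtype.ext (funext fun y => by
      show (φ : H → Fin k → ℝ) (y * (g * h)) = (φ : H → Fin k → ℝ) (y * g * h)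
      rw [mul_assoc]))
    (fun h φ => hinv h (fun y => ∑ i, (φ : H → Fin k → ℝ) y i * (φ : H → Fin k → ℝ) y i)
      (meanL2c_bdd φ.2 φ.2))
    b₀
    (fun g h => Subtype.ext (funext fun y => funext fun i => by
      show f (y * (g * h)) i - f y i =
        (f (y * g) i - f y i) + (f (y * g * h) i - f (y * g) i)
      rw [mul_assoc]
      ring))
  classical
  let ι : (H → Fin k → ℝ) → V := fun φ => if h : VBdd φ then j ⟨φ, h⟩ else 0
  have hι : ∀ (φ : H → Fin k → ℝ) (h : VBdd φ), ι φ = j ⟨φ, h⟩ := fun φ h => dif_pos h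
  refine ⟨V, j1, j2, j3, π, b, ι, hc, fun h => ?_, fun φ ψ hφ hψ => ?_, fun a φ hφ => ?_,
    fun φ hφ => ?_, fun v η hη => ?_, fun h φ hφ => ?_⟩
  · rw [hι _ (fun i => hf h i), hbj]
  · have h2 : VBdd (fun y i => φ y i + ψ y i) := fun i => (hφ i).add (hψ i)
    rw [hι φ hφ, hι ψ hψ, hι _ h2]
    exact hadd ⟨φ, hφ⟩ ⟨ψ, hψ⟩
  · have h2 : VBdd (fun y i => a * φ y i) := fun i => (hφ i).const_mul a
    rw [hι φ hφ, hι _ h2]
    exact hsmul a ⟨φ, hφ⟩
  · rw [hι φ hφ]
    refine (hn ⟨φ, hφ⟩).trans ?_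
    show μ _ = μ _
    congr 1
    funext y
    exact Finset.sum_congr rfl fun i _ => (sq _).symm
  · obtain ⟨x, hx⟩ := hd v η hη
    refine ⟨x.1, x.2, ?_⟩
    rw [hι x.1 x.2]
    exact hx
  · have h2 : VBdd (fun y i => φ (y * h) i) := fun i => (hφ i).comp (fun y => y * h)
    rw [hι φ hφ, hι _ h2]
    exact he h ⟨φ, hφ⟩

end Vale.Agent.P188.SG
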