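import Vale.Agent.P188.SG.Defs2

/-!
P188, Theorem S+: preparatory lemmas for `no_indep` (means, nets, linear algebra).
-/

universe u v w

open Filter Topology

namespace Vale.Agent.P188.SG

section Mean

variable {X : Type u} {μ : (X → ℝ) → ℝ}

theorem NoInd1_bdd_ind (P : X → Prop) [DecidablePred P] :
    Bdd (fun y => if P y then (1 : ℝ) else 0) :=
  ⟨1, fun y => by
    show |if P y then (1 : ℝ) else 0| ≤ 1
    split_ifs <;> simp⟩

theorem NoInd1_bdd_sum {ι : Type*} (s : Finset ι) (f : ι → X → ℝ) (hf : ∀ i ∈ s, Bdd (f i)) :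
    Bdd (fun y => ∑ i ∈ s, f i y) := by
  classical
  induction s using Finset.induction_on with
  | empty => simpa using (Bdd.const (X := X) 0)
  | insert a s ha ih =>
    have h1 := (hf a (Finset.mem_insert_self a s)).add
      (ih fun i hi => hf i (Finset.mem_insert_of_mem hi))
    refine (congrArg Bdd ?_).mp h1
    funext y
    rw [Pi.add_apply, Finset.sum_insert ha]

theorem NoInd1_mean_sum (hμ : IsMean μ) {ι : Type*} (s : Finset ι) (f : ι → X → ℝ)
    (hf : ∀ i ∈ s, Bdd (f i)) : μ (fun y => ∑ i ∈ s, f i y) = ∑ i ∈ s, μ (f i) := by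
  classical
  induction s using Finset.induction_on with
  | empty =>
    simp only [Finset.sum_empty]
    exact hμ.const 0
  | insert a s ha ih =>
    have h0 : (fun y => ∑ i ∈ insert a s, f i y) = f a + fun y => ∑ i ∈ s, f i y := by
      funext y
      rw [Pi.add_apply, Finset.sum_insert ha]
    rw [h0, hμ.add _ _ (hf a (Finset.mem_insert_self a s))
      (NoInd1_bdd_sum s f fun i hi => hf i (Finset.mem_insert_of_mem hi)),
      ih fun i hi => hf i (Finset.mem_insert_of_mem hi), Finset.sum_insert ha]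

/-- Markov's inequality. -/
theorem NoInd1_markov (hμ : IsMean μ) {φ : X → ℝ} (hφ : Bdd φ) (h0 : ∀ y, 0 ≤ φ y) {a : ℝ}
    (ha : 0 < a) : μ (fun y => if a < φ y then (1 : ℝ) else 0) ≤ a⁻¹ * μ φ := by
  rw [← hμ.smul a⁻¹ φ hφ]
  refine hμ.le (NoInd1_bdd_ind _) (hφ.const_mul _) fun y => ?_
  have h1 : 0 ≤ a⁻¹ * φ y := mul_nonneg (inv_nonneg.2 ha.le) (h0 y)
  split_ifs with h
  · rw [inv_mul_eq_div, le_div_iff₀ ha, one_mul]
    exact h.le
  · exact h1

/-- Markov's inequality for the complement. -/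
theorem NoInd1_markov' (hμ : IsMean μ) {φ : X → ℝ} (hφ : Bdd φ) (h0 : ∀ y, 0 ≤ φ y) {a : ℝ}
    (ha : 0 < a) : 1 - a⁻¹ * μ φ ≤ μ (fun y => if φ y ≤ a then (1 : ℝ) else 0) := by
  have h1 := NoInd1_markov hμ hφ h0 ha
  have h2 : μ (fun y => if φ y ≤ a then (1 : ℝ) else 0) +
      μ (fun y => if a < φ y then (1 : ℝ) else 0) = 1 := by
    have h3 : ((fun y => if φ y ≤ a then (1 : ℝ) else 0) + fun y => if a < φ y then (1 : ℝ) else 0)
        = fun _ => (1 : ℝ) := by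
      funext y
      rw [Pi.add_apply]
      by_cases h : φ y ≤ a
      · rw [if_pos h, if_neg (not_lt.2 h), add_zero]
      · rw [if_neg h, if_pos (not_le.1 h), zero_add]
    rw [← hμ.add _ _ (NoInd1_bdd_ind _) (NoInd1_bdd_ind _), h3, hμ.one]
  linarith

/-- A point of `Y` outside of finitely many bad sets of small mean. -/
theorem NoInd1_exists_good (hμ : IsMean μ) (Y : X → Prop) [DecidablePred Y] {ι : Type*}
    (s : Finset ι) (bad : ι → X → Prop) [∀ j, DecidablePred (bad j)]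
    (h : ∑ j ∈ s, μ (fun y => if bad j y then (1 : ℝ) else 0) <
      μ (fun y => if Y y then (1 : ℝ) else 0)) : ∃ y, Y y ∧ ∀ j ∈ s, ¬ bad j y := by
  by_contra hcon
  push Not at hcon
  refine absurd h (not_lt.2 ?_)
  rw [← NoInd1_mean_sum hμ s _ fun j _ => NoInd1_bdd_ind (bad j)]
  refine hμ.le (NoInd1_bdd_ind _) (NoInd1_bdd_sum s _ fun j _ => NoInd1_bdd_ind (bad j))
    fun y => ?_
  have hnn : ∀ j ∈ s, (0 : ℝ) ≤ if bad j y then (1 : ℝ) else 0 := fun j _ => by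
    split_ifs <;> norm_num
  split_ifs with hY
  · obtain ⟨j, hj, hb⟩ := hcon y hY
    calc (1 : ℝ) = if bad j y then (1 : ℝ) else 0 := by rw [if_pos hb]
      _ ≤ ∑ j ∈ s, if bad j y then (1 : ℝ) else 0 := Finset.single_le_sum hnn hj
  · exact Finset.sum_nonneg hnn

/-- Pigeonhole for a finite covering. -/
theorem NoInd1_pigeon (hμ : IsMean μ) (Y : X → Prop) [DecidablePred Y] {ι : Type*}
    (Q : Finset ι) (hQ : Q.Nonempty) (Yq : ι → X → Prop) [∀ q, DecidablePred (Yq q)] {c : ℝ}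
    (hY : c ≤ μ (fun y => if Y y then (1 : ℝ) else 0)) (hcov : ∀ y, Y y → ∃ q ∈ Q, Yq q y) :
    ∃ q ∈ Q, c / Q.card ≤ μ (fun y => if Yq q y then (1 : ℝ) else 0) := by
  by_contra hcon
  push Not at hcon
  have hcard : (0 : ℝ) < Q.card := by exact_mod_cast hQ.card_pos
  have h1 : ∑ q ∈ Q, μ (fun y => if Yq q y then (1 : ℝ) else 0) < c := by
    calc ∑ q ∈ Q, μ (fun y => if Yq q y then (1 : ℝ) else 0) < ∑ _q ∈ Q, c / Q.card :=
          Finset.sum_lt_sum_of_nonempty hQ hcon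
      _ = c := by
          rw [Finset.sum_const, nsmul_eq_mul]
          field_simp
  obtain ⟨y, hy, hbad⟩ := NoInd1_exists_good hμ Y Q Yq (h1.trans_le hY)
  obtain ⟨q, hq, hqy⟩ := hcov y hy
  exact hbad q hq hqy

end Mean

/-- finite nets of the unit sphere. -/
theorem NoInd1_exists_net (k : ℕ) {η : ℝ} (hη : 0 < η) :
    ∃ Q : Finset (EuclideanSpace ℝ (Fin (k + 1))), Q.Nonempty ∧ (∀ q ∈ Q, ‖q‖ = 1) ∧
      ∀ v : EuclideanSpace ℝ (Fin (k + 1)), ‖v‖ = 1 → ∃ q ∈ Q, ‖v - q‖ ≤ η := by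
  obtain ⟨t, hts, htf, hcov⟩ :=
    (isCompact_sphere (0 : EuclideanSpace ℝ (Fin (k + 1))) 1).finite_cover_balls hη
  have key : ∀ v : EuclideanSpace ℝ (Fin (k + 1)), ‖v‖ = 1 →
      ∃ q ∈ htf.toFinset, ‖v - q‖ ≤ η := by
    intro v hv
    have h1 : v ∈ Metric.sphere (0 : EuclideanSpace ℝ (Fin (k + 1))) 1 := by
      rw [mem_sphere_zero_iff_norm]
      exact hv
    obtain ⟨q, hq, hvq⟩ := Set.mem_iUnion₂.1 (hcov h1)
    refine ⟨q, htf.mem_toFinset.2 hq, ?_⟩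
    rw [← dist_eq_norm]
    exact (Metric.mem_ball.1 hvq).le
  refine ⟨htf.toFinset, ?_, fun q hq => ?_, key⟩
  · obtain ⟨q, hq, -⟩ := key (EuclideanSpace.single 0 1) (by simp)
    exact ⟨q, hq⟩
  · have h1 := hts (htf.mem_toFinset.1 hq)
    rwa [mem_sphere_zero_iff_norm] at h1

/-- `k + 1` vectors of `ℝ^k` satisfy a relation with a unit vector of coefficients. -/
theorem NoInd1_exists_rel {k : ℕ} (E : Fin (k + 1) → Fin k → ℝ) :
    ∃ a : EuclideanSpace ℝ (Fin (k + 1)), ‖a‖ = 1 ∧ ∀ j, ∑ i, a i * E i j = 0 := by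
  let T : EuclideanSpace ℝ (Fin (k + 1)) →ₗ[ℝ] (Fin k → ℝ) :=
    { toFun := fun a j => ∑ i, a i * E i j
      map_add' := fun a b => by
        funext j
        rw [Pi.add_apply, ← Finset.sum_add_distrib]
        exact Finset.sum_congr rfl fun i _ => by rw [PiLp.add_apply]; ring
      map_smul' := fun c a => by
        funext j
        rw [RingHom.id_apply, Pi.smul_apply, smul_eq_mul, Finset.mul_sum]
        exact Finset.sum_congr rfl fun i _ => by rw [PiLp.smul_apply, smul_eq_mul]; ring }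
  have hker : LinearMap.ker T ≠ ⊥ := by
    apply LinearMap.ker_ne_bot_of_finrank_lt
    rw [finrank_euclideanSpace_fin, Module.finrank_fin_fun]
    exact Nat.lt_succ_self k
  obtain ⟨a, ha, ha0⟩ := (Submodule.ne_bot_iff _).1 hker
  have hT : T a = 0 := ha
  have hn : ‖a‖ ≠ 0 := norm_ne_zero_iff.2 ha0
  refine ⟨‖a‖⁻¹ • a, by rw [norm_smul, norm_inv, norm_norm, inv_mul_cancel₀ hn], fun j => ?_⟩
  have h1 : T (‖a‖⁻¹ • a) = 0 := by rw [map_smul, hT, smul_zero]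
  exact congrFun h1 j

/-- the combination of the above. -/
theorem NoInd1_exists_dir {X : Type u} {μ : (X → ℝ) → ℝ} (hμ : IsMean μ) {k : ℕ}
    (φ : Fin (k + 1) → X → Fin k → ℝ) (hφ : ∀ i j, Bdd (fun y => φ i y j))
    (h4 : ∀ i, μ (fun y => ∑ j, (φ i y j) ^ 2) ≤ 4) {τ : ℝ} (hτ : 0 < τ)
    (Q : Finset (EuclideanSpace ℝ (Fin (k + 1)))) (hQ : Q.Nonempty)
    (hnet : ∀ v : EuclideanSpace ℝ (Fin (k + 1)), ‖v‖ = 1 →
      ∃ q ∈ Q, ‖v - q‖ ≤ τ / (4 * Real.sqrt (k + 1))) :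
    ∃ q ∈ Q, (3 / 4) / (Q.card : ℝ) ≤
      μ (fun y => if ∑ j, (∑ i, q i * φ i y j) ^ 2 ≤ τ ^ 2 then (1 : ℝ) else 0) := by
  have hk : (0 : ℝ) < k + 1 := by positivity
  have hsq : ∀ i j, Bdd (fun y => (φ i y j) ^ 2) := by
    intro i j
    obtain ⟨M, hM⟩ := hφ i j
    refine ⟨M ^ 2, fun y => ?_⟩
    rw [abs_pow]
    exact pow_le_pow_left₀ (abs_nonneg _) (hM y) 2
  have hsum : ∀ i, Bdd (fun y => ∑ j, (φ i y j) ^ 2) := fun i =>
    NoInd1_bdd_sum _ _ fun j _ => hsq i j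
  have hΨ : Bdd (fun y => ∑ i, ∑ j, (φ i y j) ^ 2) := NoInd1_bdd_sum _ _ fun i _ => hsum i
  have hμΨ : μ (fun y => ∑ i, ∑ j, (φ i y j) ^ 2) ≤ 4 * (k + 1) := by
    rw [NoInd1_mean_sum hμ _ _ fun i _ => hsum i]
    refine (Finset.sum_le_card_nsmul _ _ 4 fun i _ => h4 i).trans (le_of_eq ?_)
    rw [Finset.card_univ, Fintype.card_fin, nsmul_eq_mul]
    push_cast
    ring
  have hY := NoInd1_markov' hμ hΨ (fun y => Finset.sum_nonneg fun i _ =>
    Finset.sum_nonneg fun j _ => sq_nonneg _) (a := 16 * (k + 1)) (by positivity)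
  refine NoInd1_pigeon hμ (fun y => ∑ i, ∑ j, (φ i y j) ^ 2 ≤ 16 * ((k : ℝ) + 1)) Q hQ
    (fun q y => ∑ j, (∑ i, q i * φ i y j) ^ 2 ≤ τ ^ 2) ?_ ?_
  · refine le_trans ?_ hY
    have h1 : (16 * ((k : ℝ) + 1))⁻¹ * μ (fun y => ∑ i, ∑ j, (φ i y j) ^ 2) ≤
        (16 * ((k : ℝ) + 1))⁻¹ * (4 * (k + 1)) :=
      mul_le_mul_of_nonneg_left hμΨ (by positivity)
    have h2 : (16 * ((k : ℝ) + 1))⁻¹ * (4 * (k + 1)) = 1 / 4 := by
      field_simp
      norm_num
    linarith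
  · intro y hy
    obtain ⟨a, ha, ha0⟩ := NoInd1_exists_rel fun i => φ i y
    obtain ⟨q, hq, hqa⟩ := hnet a ha
    refine ⟨q, hq, ?_⟩
    have h1 : ∀ j, (∑ i, q i * φ i y j) ^ 2 ≤ ‖a - q‖ ^ 2 * ∑ i, (φ i y j) ^ 2 := by
      intro j
      have h2 : ∑ i, q i * φ i y j = ∑ i, (q i - a i) * φ i y j := by
        rw [← sub_zero (∑ i, q i * φ i y j), ← ha0 j, ← Finset.sum_sub_distrib]
        exact Finset.sum_congr rfl fun i _ => by ring
      rw [h2]
      refine (Finset.sum_mul_sq_le_sq_mul_sq _ _ _).trans (le_of_eq ?_)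
      congr 1
      rw [EuclideanSpace.norm_sq_eq]
      exact Finset.sum_congr rfl fun i _ => by
        rw [Real.norm_eq_abs, sq_abs, PiLp.sub_apply]
        ring
    calc ∑ j, (∑ i, q i * φ i y j) ^ 2 ≤ ∑ j, ‖a - q‖ ^ 2 * ∑ i, (φ i y j) ^ 2 :=
          Finset.sum_le_sum fun j _ => h1 j
      _ = ‖a - q‖ ^ 2 * ∑ i, ∑ j, (φ i y j) ^ 2 := by
          rw [← Finset.mul_sum, Finset.sum_comm]
      _ ≤ (τ / (4 * Real.sqrt (k + 1))) ^ 2 * (16 * (k + 1)) := by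
          refine mul_le_mul (pow_le_pow_left₀ (norm_nonneg _) hqa 2) hy ?_ (sq_nonneg _)
          exact Finset.sum_nonneg fun i _ => Finset.sum_nonneg fun j _ => sq_nonneg _
      _ = τ ^ 2 := by
          rw [div_pow, mul_pow, Real.sq_sqrt hk.le]
          field_simp
          norm_num

end Vale.Agent.P188.SG
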