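import Vale.Agent.P188.SG.HarmFd
import Vale.Agent.P188.SG.Rel
import Vale.Agent.P188.SG.NoInd1

/-! P188, Theorem S+: there are no `k + 1` independent realized vectors. -/

universe u v

open Filter Topology

namespace Vale.Agent.P188.SG

/-! ### means -/

open Classical in
theorem NoIndep_markov {X : Type u} {μ : (X → ℝ) → ℝ} (hμ : IsMean μ) {φ : X → ℝ} (hφ : Bdd φ)
    (h0 : ∀ x, 0 ≤ φ x) {a : ℝ} (ha : 0 < a) :
    μ (fun x => if a < φ x then 1 else 0) ≤ a⁻¹ * μ φ := by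
  rw [← hμ.smul _ _ hφ]
  refine hμ.le ⟨1, fun x => ?_⟩ (hφ.const_mul _) fun x => ?_
  · dsimp only
    split_ifs <;> simp
  · split_ifs with h
    · rw [← inv_mul_cancel₀ ha.ne']
      exact mul_le_mul_of_nonneg_left h.le (inv_nonneg.2 ha.le)
    · exact mul_nonneg (inv_nonneg.2 ha.le) (h0 x)

theorem NoIndep_sum_bdd {X : Type u} (F : ℕ → X → ℝ) (hF : ∀ j, Bdd (F j)) (n : ℕ) :
    Bdd (fun x => ∑ j ∈ Finset.range n, F j x) := by
  induction n with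
  | zero => simpa using Bdd.const (X := X) 0
  | succ n ih =>
    simp only [Finset.sum_range_succ]
    exact ih.add (hF n)

theorem NoIndep_mean_sum {X : Type u} {μ : (X → ℝ) → ℝ} (hμ : IsMean μ) (F : ℕ → X → ℝ)
    (hF : ∀ j, Bdd (F j)) (n : ℕ) :
    μ (fun x => ∑ j ∈ Finset.range n, F j x) = ∑ j ∈ Finset.range n, μ (F j) := by
  induction n with
  | zero => simpa using hμ.const 0
  | succ n ih =>
    simp only [Finset.sum_range_succ]
    rw [← ih]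
    exact hμ.add _ _ (NoIndep_sum_bdd F hF n) (hF n)

open Classical in
theorem NoIndep_exists_good {X : Type u} {μ : (X → ℝ) → ℝ} (hμ : IsMean μ) (Y : X → Prop)
    (bad : ℕ → X → Prop) (n : ℕ)
    (h : ∑ j ∈ Finset.range n, μ (fun x => if bad j x then 1 else 0) <
      μ (fun x => if Y x then 1 else 0)) :
    ∃ x, Y x ∧ ∀ j < n, ¬ bad j x := by
  by_contra hcon
  push Not at hcon
  have hB : ∀ j, Bdd (fun x => if bad j x then (1 : ℝ) else 0) := fun j =>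
    ⟨1, fun x => by dsimp only; split_ifs <;> simp⟩
  rw [← NoIndep_mean_sum hμ (fun j x => if bad j x then (1 : ℝ) else 0) hB n] at h
  refine absurd h (not_lt.2 (hμ.le ⟨1, fun x => by dsimp only; split_ifs <;> simp⟩
    (NoIndep_sum_bdd _ hB n) fun x => ?_))
  have hnn : ∀ j ∈ Finset.range n, (0 : ℝ) ≤ if bad j x then (1 : ℝ) else 0 := fun j _ => by
    split_ifs <;> simp
  by_cases hx : Y x
  · obtain ⟨j, hj, hb⟩ := hcon x hx
    rw [if_pos hx]
    refine le_trans (le_of_eq ?_) (Finset.single_le_sum hnn (Finset.mem_range.2 hj))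
    rw [if_pos hb]
  · rw [if_neg hx]
    exact Finset.sum_nonneg hnn

theorem NoIndep_log {A B a : ℝ} (hA : 0 ≤ A) (hB : 0 ≤ B) (ha : 0 < a) :
    ∀ᶠ n : ℕ in atTop, A * (1 + Real.log (1 + B * n)) ≤ a * n := by
  rcases hB.eq_or_lt with h0 | h0
  · have h1 : Tendsto (fun n : ℕ => a * (n : ℝ)) atTop atTop :=
      tendsto_natCast_atTop_atTop.const_mul_atTop ha
    filter_upwards [h1.eventually_ge_atTop A] with n hn
    rw [← h0, zero_mul, add_zero, Real.log_one, add_zero, mul_one]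
    exact hn
  · have h1 : Tendsto (fun n : ℕ => 1 + B * (n : ℝ)) atTop atTop :=
      tendsto_atTop_add_const_left _ _ (tendsto_natCast_atTop_atTop.const_mul_atTop h0)
    have h2 := Real.isLittleO_log_id_atTop.comp_tendsto h1
    obtain ⟨κ, hκ⟩ : ∃ κ : ℝ, κ = a / (4 * (A + 1) * (B + 1)) := ⟨_, rfl⟩
    have hκ0 : 0 < κ := by rw [hκ]; positivity
    have h3 := h2.bound hκ0
    have h4 : Tendsto (fun n : ℕ => a / 2 * (n : ℝ)) atTop atTop :=
      tendsto_natCast_atTop_atTop.const_mul_atTop (by positivity)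
    filter_upwards [h3, h4.eventually_ge_atTop (A + A * κ)] with n hn hn2
    have h5 : Real.log (1 + B * n) ≤ κ * (1 + B * n) := by
      have h6 : (0 : ℝ) < 1 + B * n := by positivity
      simp only [Function.comp_apply, id_eq, Real.norm_eq_abs, abs_of_pos h6] at hn
      exact (le_abs_self _).trans hn
    have h6 : A * κ * B ≤ a / 2 := by
      rw [hκ]
      have h7 : A * (a / (4 * (A + 1) * (B + 1))) * B =
          a / 4 * (A / (A + 1)) * (B / (B + 1)) := by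
        field_simp
      rw [h7]
      have h8 : A / (A + 1) ≤ 1 := by rw [div_le_one (by positivity)]; linarith
      have h9 : B / (B + 1) ≤ 1 := by rw [div_le_one (by positivity)]; linarith
      have h10 : 0 ≤ A / (A + 1) := by positivity
      have h11 : 0 ≤ B / (B + 1) := by positivity
      calc a / 4 * (A / (A + 1)) * (B / (B + 1)) ≤ a / 4 * 1 * 1 := by gcongr
        _ ≤ a / 2 := by linarith
    have hn0 : (0 : ℝ) ≤ n := Nat.cast_nonneg n
    calc A * (1 + Real.log (1 + B * n)) ≤ A * (1 + κ * (1 + B * n)) := by gcongr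
      _ = (A + A * κ) + A * κ * B * n := by ring
      _ ≤ a / 2 * n + a / 2 * n := by gcongr
      _ = a * n := by ring

section Walk

variable {H : Type u} [Group H] {S : Finset H}
variable {V : Type v} [NormedAddCommGroup V] [InnerProductSpace ℝ V]

theorem NoIndep_walk (hS : SymGen S) (π : H →* (V ≃ₗᵢ[ℝ] V)) (c : H → V)
    (hc : IsCocycle π c) {L : ℝ} (hL : 0 ≤ L) (hcL : ∀ g, ‖c g‖ ≤ L * len S g) {u : V}
    (hTB : TB π u) {ρ : ℝ} (hR : Rel S c u ρ) {η : ℝ} (hη : 0 < η) (hη1 : η ≤ 1 / 2) :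
    ∃ n₀ : ℕ, ∀ n, n₀ ≤ n → ∃ x p : ℕ → H, p 0 = 1 ∧ (∀ j, p (j + 1) = p j * x j) ∧
      (∀ j, (len S (x j) : ℝ) ≤ (ρ + 1) * n) ∧
      ∀ j : ℕ, ‖c (p j) - ((j : ℝ) * n) • u‖ ≤ 3 * η * j * n := by
  obtain ⟨F, hF⟩ := hTB η hη
  choose r hrF hr using hF
  obtain ⟨R, hRR⟩ : ∃ R : ℕ, R = F.sup (len S) := ⟨_, rfl⟩
  have hlr : ∀ g, (len S (r g) : ℝ) ≤ R := by
    intro g
    rw [hRR]
    exact_mod_cast Finset.le_sup (f := len S) (hrF g)
  obtain ⟨n₁, hn₁⟩ := hR η hη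
  have hc1 : c 1 = 0 := by
    have := hcL 1
    rw [len_one, Nat.cast_zero, mul_zero] at this
    exact norm_le_zero_iff.1 this
  refine ⟨max n₁ ⌈2 * R + L * R / η⌉₊, fun n hn => ?_⟩
  obtain ⟨g, hg1, hg2⟩ := hn₁ n ((le_max_left _ _).trans hn)
  have hnR : 2 * R + L * R / η ≤ (n : ℝ) := by
    refine (Nat.le_ceil _).trans ?_
    exact_mod_cast (le_max_right _ _).trans hn
  have hR0 : (0 : ℝ) ≤ R := Nat.cast_nonneg R
  have hR1 : 2 * (R : ℝ) ≤ n := by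
    have : 0 ≤ L * R / η := by positivity
    linarith
  have hR2 : L * R ≤ η * n := by
    have h1 : L * R / η ≤ (n : ℝ) := by linarith
    rw [div_le_iff₀ hη] at h1
    linarith
  have hn0 : (0 : ℝ) ≤ n := Nat.cast_nonneg n
  let p : ℕ → H := fun j => Nat.rec 1 (fun _ q => q * (r q⁻¹ * g)) j
  have hp0 : p 0 = 1 := rfl
  have hp1 : ∀ j, p (j + 1) = p j * (r (p j)⁻¹ * g) := fun j => rfl
  refine ⟨fun j => r (p j)⁻¹ * g, p, hp0, hp1, fun j => ?_, fun j => ?_⟩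
  · have h1 : (len S (r (p j)⁻¹ * g) : ℝ) ≤ len S (r (p j)⁻¹) + len S g := by
      exact_mod_cast len_mul_le hS.gen _ _
    have h2 := hlr (p j)⁻¹
    have h3 : η * n ≤ 1 / 2 * n := mul_le_mul_of_nonneg_right hη1 hn0
    nlinarith
  · induction j with
    | zero =>
      rw [hp0, hc1]
      simp
    | succ j ih =>
      have h1 : c (p (j + 1)) = c (p j) + π (p j) (c (r (p j)⁻¹)) +
          π (p j) (π (r (p j)⁻¹) (c g)) := by
        rw [hp1, hc, hc, map_add, add_assoc]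
      have h2 : c (p (j + 1)) - (((j + 1 : ℕ) : ℝ) * n) • u =
          (c (p j) - ((j : ℝ) * n) • u) + π (p j) (c (r (p j)⁻¹)) +
          π (p j) (π (r (p j)⁻¹) (c g - (n : ℝ) • u)) +
          (n : ℝ) • π (p j) (π (r (p j)⁻¹) u - π (p j)⁻¹ u) := by
        have h3 : π (p j) (π (p j)⁻¹ u) = u := by
          have : (π (p j) * π (p j)⁻¹) u = u := by
            rw [← map_mul, mul_inv_cancel, map_one]
            rfl
          exact this
        rw [h1, map_sub, map_sub, map_sub, map_smul, map_smul, h3]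
        push_cast
        rw [add_mul, one_mul, add_smul, smul_sub]
        abel
      rw [h2]
      have h4 : ‖π (p j) (c (r (p j)⁻¹))‖ ≤ η * n := by
        rw [LinearIsometryEquiv.norm_map]
        exact ((hcL _).trans (mul_le_mul_of_nonneg_left (hlr _) hL)).trans hR2
      have h5 : ‖π (p j) (π (r (p j)⁻¹) (c g - (n : ℝ) • u))‖ ≤ η * n := by
        rw [LinearIsometryEquiv.norm_map, LinearIsometryEquiv.norm_map]
        exact hg2
      have h6 : ‖(n : ℝ) • π (p j) (π (r (p j)⁻¹) u - π (p j)⁻¹ u)‖ ≤ η * n := by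
        rw [norm_smul, LinearIsometryEquiv.norm_map, Real.norm_eq_abs, abs_of_nonneg hn0,
          norm_sub_rev, mul_comm]
        exact mul_le_mul_of_nonneg_right (hr _) hn0
      refine (norm_add_le _ _).trans ?_
      refine (add_le_add ((norm_add_le _ _).trans (add_le_add (norm_add_le _ _) le_rfl))
        le_rfl).trans ?_
      push_cast
      nlinarith

theorem NoIndep_prod (x p : ℕ → H) (hp0 : p 0 = 1) (hp1 : ∀ j, p (j + 1) = p j * x j) (j : ℕ) :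
    ((List.range j).map x).prod = p j := by
  induction j with
  | zero => simp [hp0]
  | succ j ih => rw [List.range_succ, List.map_append, List.prod_append, ih, hp1]; simp

theorem NoIndep_len (hS : SymGen S) (x p : ℕ → H) (hp0 : p 0 = 1)
    (hp1 : ∀ j, p (j + 1) = p j * x j) {M : ℝ} (hx : ∀ j, (len S (x j) : ℝ) ≤ M) (j : ℕ) :
    (len S (p j) : ℝ) ≤ j * M := by
  induction j with
  | zero => rw [hp0, len_one]; simp
  | succ j ih =>
    rw [hp1]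
    have h1 : (len S (p j * x j) : ℝ) ≤ len S (p j) + len S (x j) := by
      exact_mod_cast len_mul_le hS.gen _ _
    have h2 := hx j
    push_cast
    linarith

theorem NoIndep_mean_sq {μ : (H → ℝ) → ℝ} {k : ℕ}
    {f : H → Fin k → ℝ} {Lf : ℝ} (hLf : ∀ y h i, |f (y * h) i - f y i| ≤ Lf * len S h)
    {b c z : H → V} {ι : (H → Fin k → ℝ) → V}
    (hbι : ∀ h, b h = ι (fun y i => f (y * h) i - f y i))
    (hadd : ∀ φ ψ, VBdd φ → VBdd ψ → ι (fun y i => φ y i + ψ y i) = ι φ + ι ψ)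
    (hsmul : ∀ (a : ℝ) φ, VBdd φ → ι (fun y i => a * φ y i) = a • ι φ)
    (hnorm : ∀ φ, VBdd φ → ‖ι φ‖ ^ 2 = μ (fun y => ∑ i, (φ y i) ^ 2))
    (hbcz : ∀ g, b g = c g + z g) {φ : H → Fin k → ℝ} (hφ : VBdd φ) {u : V} {t A₁ A₂ A₃ : ℝ}
    (ht : 0 ≤ t) (p : H) (h1 : ‖c p - t • u‖ ≤ A₁) (h2 : ‖z p‖ ≤ A₂) (h3 : ‖u - ι φ‖ ≤ A₃) :
    μ (fun y => ∑ i, (f (y * p) i - f y i - t * φ y i) ^ 2) ≤ (A₁ + A₂ + t * A₃) ^ 2 := by
  have hψ : VBdd (fun y i => f (y * p) i - f y i) := fun i => ⟨_, fun y => hLf y p i⟩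
  have hχ : VBdd (fun y i => (-t) * φ y i) := fun i => (hφ i).const_mul (-t)
  have h4 : ι (fun y i => (f (y * p) i - f y i) + (-t) * φ y i) = b p - t • ι φ := by
    rw [hadd _ _ hψ hχ, hsmul _ _ hφ, ← hbι, neg_smul, sub_eq_add_neg]
  have h5 : VBdd (fun y i => (f (y * p) i - f y i) + (-t) * φ y i) := fun i => (hψ i).add (hχ i)
  have h6 := hnorm _ h5
  have h7 : (fun y => ∑ i, (f (y * p) i - f y i - t * φ y i) ^ 2) =
      fun y => ∑ i, ((f (y * p) i - f y i) + (-t) * φ y i) ^ 2 := by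
    funext y
    refine Finset.sum_congr rfl fun i _ => ?_
    ring
  rw [h7, ← h6, h4]
  refine pow_le_pow_left₀ (norm_nonneg _) ?_ 2
  have h8 : b p - t • ι φ = (c p - t • u) + z p + t • (u - ι φ) := by
    rw [hbcz, smul_sub]; abel
  rw [h8]
  refine (norm_add_le _ _).trans (add_le_add ((norm_add_le _ _).trans (add_le_add h1 h2)) ?_)
  rw [norm_smul, Real.norm_eq_abs, abs_of_nonneg ht]
  exact mul_le_mul_of_nonneg_left h3 ht

open Classical in
theorem NoIndep_key (hS : SymGen S)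
    (μ : (H → ℝ) → ℝ) (hμ : IsMean μ) {k : ℕ}
    (f : H → Fin k → ℝ) (Lf : ℝ) (hLf : ∀ y h i, |f (y * h) i - f y i| ≤ Lf * len S h)
    (C₁ : ℝ) (hC₁ : 0 ≤ C₁)
    (hexc : ∀ (M E : ℝ) (y : H) (l : List H), 0 ≤ M → 0 ≤ E →
      (∀ x ∈ l, (len S x : ℝ) ≤ M) →
      (∀ l' : List H, l' <+: l → ∀ i, |f (y * l'.prod) i - f y i| ≤ E) →
      (len S l.prod : ℝ) ≤ C₁ * (1 + M + E + Real.log (1 + l.length * M)))
    (π : H →* (V ≃ₗᵢ[ℝ] V)) (b c z : H → V) (ι : (H → Fin k → ℝ) → V)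
    (hbι : ∀ h, b h = ι (fun y i => f (y * h) i - f y i))
    (hadd : ∀ φ ψ, VBdd φ → VBdd ψ → ι (fun y i => φ y i + ψ y i) = ι φ + ι ψ)
    (hsmul : ∀ (a : ℝ) φ, VBdd φ → ι (fun y i => a * φ y i) = a • ι φ)
    (hnorm : ∀ φ, VBdd φ → ‖ι φ‖ ^ 2 = μ (fun y => ∑ i, (φ y i) ^ 2))
    (hc : IsCocycle π c) (hbcz : ∀ g, b g = c g + z g)
    (hz : ∀ ε : ℝ, 0 < ε → ∃ C : ℝ, ∀ g, ‖z g‖ ≤ ε * len S g + C)
    {L τ ρ β δ : ℝ} {m : ℕ} (hL : 1 ≤ L) (hcL : ∀ g, ‖c g‖ ≤ L * len S g) (hτ : 0 < τ)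
    (hτ2 : 2 * τ * (L * C₁) ≤ 1 / 8) (hρ : 0 ≤ ρ) (hm1 : 1 ≤ m)
    (hm : 8 * (L * C₁) * (ρ + 1) ≤ m) (hδ : 0 < δ)
    (hδm : ((m : ℝ) + 1) * (δ ^ 2 / τ ^ 2) < β) {u : V} (hu : ‖u‖ = 1) (hTB : TB π u)
    (hR : Rel S c u ρ) {φ : H → Fin k → ℝ} (hφ : VBdd φ) (huφ : ‖u - ι φ‖ ≤ δ / 2)
    (hY : β ≤ μ (fun y => if ∑ j, (φ y j) ^ 2 ≤ τ ^ 2 then 1 else 0)) : False := by
  have hL0 : 0 ≤ L := by linarith
  have hLC : 0 ≤ L * C₁ := mul_nonneg hL0 hC₁
  have hmr : (1 : ℝ) ≤ m := by exact_mod_cast hm1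
  obtain ⟨η, hη⟩ : ∃ η : ℝ, η = min (1 / 6) (δ / 12) := ⟨_, rfl⟩
  have hη0 : 0 < η := by rw [hη]; positivity
  have hη1 : η ≤ 1 / 6 := by rw [hη]; exact min_le_left _ _
  have hη2 : η ≤ δ / 12 := by rw [hη]; exact min_le_right _ _
  obtain ⟨ε, hε⟩ : ∃ ε : ℝ, ε = δ / (4 * (ρ + 2)) := ⟨_, rfl⟩
  have hε0 : 0 < ε := by rw [hε]; positivity
  have hε1 : ε * (ρ + 2) = δ / 4 := by rw [hε]; field_simp
  obtain ⟨Cz, hCz⟩ := hz ε hε0
  obtain ⟨n₀, hn₀⟩ := NoIndep_walk hS π c hc hL0 hcL hTB hR hη0 (by linarith)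
  have hlog := NoIndep_log (A := L * C₁) (B := m * (ρ + 1)) (a := 1 / 8) hLC (by positivity)
    (by norm_num)
  have hεn : Tendsto (fun n : ℕ => ε * (n : ℝ)) atTop atTop :=
    tendsto_natCast_atTop_atTop.const_mul_atTop hε0
  obtain ⟨n, hn1, hn2, hn3, hn4⟩ := ((eventually_ge_atTop n₀).and (hlog.and
    ((hεn.eventually_ge_atTop Cz).and (eventually_ge_atTop 1)))).exists
  have hnr : (1 : ℝ) ≤ n := by exact_mod_cast hn4
  obtain ⟨x, p, hp0, hp1, hx, hp⟩ := hn₀ n hn1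
  have hmn : (1 : ℝ) ≤ m * n := by nlinarith
  -- the walk, `z`
  have hzp : ∀ j, j ≤ m → ‖z (p j)‖ ≤ δ / 4 * (m * n) := by
    intro j hj
    have h1 := hCz (p j)
    have h2 := NoIndep_len hS x p hp0 hp1 hx j
    have hjm : (j : ℝ) ≤ m := by exact_mod_cast hj
    have h3 : (len S (p j) : ℝ) ≤ m * ((ρ + 1) * n) :=
      h2.trans (mul_le_mul_of_nonneg_right hjm (by positivity))
    have h4 : ε * len S (p j) ≤ ε * (m * ((ρ + 1) * n)) := mul_le_mul_of_nonneg_left h3 hε0.le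
    have h5 : ε * n ≤ ε * (m * n) := by
      refine mul_le_mul_of_nonneg_left ?_ hε0.le
      nlinarith
    calc ‖z (p j)‖ ≤ ε * (m * ((ρ + 1) * n)) + ε * (m * n) := by linarith
      _ = ε * (ρ + 2) * (m * n) := by ring
      _ = δ / 4 * (m * n) := by rw [hε1]
  -- the bad sets
  obtain ⟨Fj, hFj⟩ : ∃ Fj : ℕ → H → ℝ, Fj = fun (j : ℕ) (y : H) =>
    ∑ i, (f (y * p j) i - f y i - ((j : ℝ) * n) * φ y i) ^ 2 := ⟨_, rfl⟩
  have hFb : ∀ j, Bdd (Fj j) := by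
    intro j
    have h1 : VBdd (fun y i => f (y * p j) i - f y i - ((j : ℝ) * n) * φ y i) := by
      intro i
      have h2 : Bdd (fun y => f (y * p j) i - f y i) := ⟨_, fun y => hLf y (p j) i⟩
      have h3 := h2.add ((hφ i).const_mul (-((j : ℝ) * n)))
      obtain ⟨K, hK⟩ := h3
      refine ⟨K, fun y => ?_⟩
      refine le_trans (le_of_eq ?_) (hK y)
      congr 1
      simp only [Pi.add_apply]
      ring
    choose K hK using h1
    refine ⟨∑ i, K i ^ 2, fun y => ?_⟩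
    rw [hFj, abs_of_nonneg (Finset.sum_nonneg fun i _ => sq_nonneg _)]
    refine Finset.sum_le_sum fun i _ => ?_
    rw [← sq_abs]
    exact pow_le_pow_left₀ (abs_nonneg _) (hK i y) 2
  have hFm : ∀ j, j ≤ m → μ (Fj j) ≤ (δ * (m * n)) ^ 2 := by
    intro j hj
    have hjm : (j : ℝ) ≤ m := by exact_mod_cast hj
    have h1 := NoIndep_mean_sq hLf hbι hadd hsmul hnorm hbcz hφ (t := (j : ℝ) * n)
      (by positivity) (p j) (hp j) (hzp j hj) huφ
    rw [hFj]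
    refine h1.trans (pow_le_pow_left₀ (by positivity) ?_ 2)
    have h2 : (j : ℝ) * n ≤ m * n := by gcongr
    have h3 : 3 * η * j * n ≤ δ / 4 * (m * n) := by
      calc 3 * η * j * n = 3 * η * (j * n) := by ring
        _ ≤ 3 * (δ / 12) * (m * n) := by gcongr
        _ = δ / 4 * (m * n) := by ring
    have h4 : (j : ℝ) * n * (δ / 2) ≤ m * n * (δ / 2) := by gcongr
    calc 3 * η * j * n + δ / 4 * (m * n) + (j : ℝ) * n * (δ / 2) ≤
          δ / 4 * (m * n) + δ / 4 * (m * n) + m * n * (δ / 2) := by linarith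
      _ = δ * (m * n) := by ring
  have hbad : ∀ j, j ≤ m →
      μ (fun y => if (τ * (m * n)) ^ 2 < Fj j y then 1 else 0) ≤ δ ^ 2 / τ ^ 2 := by
    intro j hj
    have h1 := NoIndep_markov hμ (hFb j) (fun y => by
      rw [hFj]; exact Finset.sum_nonneg fun i _ => sq_nonneg _)
      (a := (τ * (m * n)) ^ 2) (by positivity)
    refine h1.trans ?_
    calc ((τ * (m * n)) ^ 2)⁻¹ * μ (Fj j) ≤ ((τ * (m * n)) ^ 2)⁻¹ * (δ * (m * n)) ^ 2 :=
          mul_le_mul_of_nonneg_left (hFm j hj) (by positivity)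
      _ = δ ^ 2 / τ ^ 2 := by
          have : (m : ℝ) * n ≠ 0 := by positivity
          field_simp
  obtain ⟨y, hyY, hy⟩ := NoIndep_exists_good hμ (fun y => ∑ j, (φ y j) ^ 2 ≤ τ ^ 2)
    (fun j y => (τ * (m * n)) ^ 2 < Fj j y) (m + 1) (by
      refine lt_of_le_of_lt (Finset.sum_le_sum fun j hj =>
        hbad j (Nat.lt_succ_iff.1 (Finset.mem_range.1 hj))) (lt_of_lt_of_le ?_ hY)
      rw [Finset.sum_const, Finset.card_range, nsmul_eq_mul]
      push_cast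
      exact hδm)
  have hfy : ∀ j, j ≤ m → ∀ i, |f (y * p j) i - f y i| ≤ 2 * τ * (m * n) := by
    intro j hj i
    have hjm : (j : ℝ) ≤ m := by exact_mod_cast hj
    have h1 := not_lt.1 (hy j (Nat.lt_succ_of_le hj))
    have h2 : (f (y * p j) i - f y i - ((j : ℝ) * n) * φ y i) ^ 2 ≤ (τ * (m * n)) ^ 2 := by
      refine le_trans ?_ h1
      rw [hFj]
      exact Finset.single_le_sum (f := fun i =>
        (f (y * p j) i - f y i - ((j : ℝ) * n) * φ y i) ^ 2) (fun i _ => sq_nonneg _)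
        (Finset.mem_univ i)
    have h3 : (φ y i) ^ 2 ≤ τ ^ 2 :=
      le_trans (Finset.single_le_sum (f := fun i => (φ y i) ^ 2) (fun i _ => sq_nonneg _)
        (Finset.mem_univ i)) hyY
    have h4 := abs_le_of_sq_le_sq h2 (by positivity)
    have h5 := abs_le_of_sq_le_sq h3 hτ.le
    have h6 : |f (y * p j) i - f y i - ((j : ℝ) * n) * φ y i| ≤ τ * (m * n) := h4
    have h7 : |φ y i| ≤ τ := h5
    have h8 : |((j : ℝ) * n) * φ y i| ≤ (m * n) * τ := by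
      rw [abs_mul, abs_of_nonneg (by positivity : (0 : ℝ) ≤ (j : ℝ) * n)]
      gcongr
    calc |f (y * p j) i - f y i| = |(f (y * p j) i - f y i - ((j : ℝ) * n) * φ y i) +
          ((j : ℝ) * n) * φ y i| := by ring_nf
      _ ≤ τ * (m * n) + (m * n) * τ := (abs_add_le _ _).trans (add_le_add h6 h8)
      _ = 2 * τ * (m * n) := by ring
  -- the excursion lemma
  have hlist := hexc ((ρ + 1) * n) (2 * τ * (m * n)) y ((List.range m).map x) (by positivity)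
    (by positivity) (fun a ha => by
      obtain ⟨j, -, rfl⟩ := List.mem_map.1 ha
      exact hx j) (fun l' hl' i => by
      have h1 : l' = (List.range (min l'.length m)).map x := by
        rw [← List.take_range, List.map_take]
        exact List.prefix_iff_eq_take.1 hl'
      rw [h1, NoIndep_prod x p hp0 hp1]
      exact hfy _ (min_le_right _ _) i)
  rw [NoIndep_prod x p hp0 hp1, List.length_map, List.length_range] at hlist
  have h1 : (m : ℝ) * n / 2 ≤ ‖c (p m)‖ := by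
    have h2 := hp m
    have h3 : ‖((m : ℝ) * n) • u‖ = m * n := by
      rw [norm_smul, hu, mul_one, Real.norm_eq_abs, abs_of_nonneg (by positivity)]
    have h4 := norm_sub_norm_le (((m : ℝ) * n) • u) (c (p m))
    rw [norm_sub_rev, h3] at h4
    have h5 : 3 * η * m * n ≤ m * n / 2 := by
      calc 3 * η * m * n = 3 * η * (m * n) := by ring
        _ ≤ 3 * (1 / 6) * (m * n) := by gcongr
        _ = m * n / 2 := by ring
    linarith
  have h2 : ‖c (p m)‖ ≤ L * (C₁ * (1 + (ρ + 1) * n + 2 * τ * (m * n) +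
      Real.log (1 + m * ((ρ + 1) * n)))) :=
    (hcL _).trans (mul_le_mul_of_nonneg_left hlist hL0)
  have h3 : L * (C₁ * (1 + (ρ + 1) * n + 2 * τ * (m * n) + Real.log (1 + m * ((ρ + 1) * n)))) =
      L * C₁ * (1 + Real.log (1 + m * (ρ + 1) * n)) + L * C₁ * (ρ + 1) * n +
      2 * τ * (L * C₁) * (m * n) := by
    rw [← mul_assoc (m : ℝ) (ρ + 1) n]
    ring
  have h4 : L * C₁ * (ρ + 1) * n ≤ m / 8 * n := by
    refine mul_le_mul_of_nonneg_right ?_ (by positivity)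
    linarith
  have h5 : 2 * τ * (L * C₁) * (m * n) ≤ 1 / 8 * (m * n) :=
    mul_le_mul_of_nonneg_right hτ2 (by positivity)
  have h6 : (1 / 8 : ℝ) * n ≤ 1 / 8 * (m * n) := by nlinarith
  have h7 : (m : ℝ) / 8 * n = 1 / 8 * (m * n) := by ring
  rw [h3] at h2
  linarith

end Walk

theorem NoIndep_iota {H : Type u} {V : Type v} [NormedAddCommGroup V] [InnerProductSpace ℝ V]
    {k : ℕ} {ι : (H → Fin k → ℝ) → V}
    (hadd : ∀ φ ψ, VBdd φ → VBdd ψ → ι (fun y i => φ y i + ψ y i) = ι φ + ι ψ)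
    (hsmul : ∀ (a : ℝ) φ, VBdd φ → ι (fun y i => a * φ y i) = a • ι φ)
    {α : Type} (s : Finset α) (φ : α → H → Fin k → ℝ) (hφ : ∀ a, VBdd (φ a)) (q : α → ℝ) :
    VBdd (fun y j => ∑ a ∈ s, q a * φ a y j) ∧
      ι (fun y j => ∑ a ∈ s, q a * φ a y j) = ∑ a ∈ s, q a • ι (φ a) := by
  classical
  induction s using Finset.induction_on with
  | empty =>
    refine ⟨fun j => by simpa using Bdd.const (X := H) 0, ?_⟩
    have h0 : VBdd (fun (_ : H) (_ : Fin k) => (0 : ℝ)) := fun j => Bdd.const 0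
    have h1 := hsmul 0 _ h0
    simpa using h1
  | insert a s ha ih =>
    obtain ⟨ih1, ih2⟩ := ih
    have h1 : VBdd (fun y j => q a * φ a y j) := fun j => (hφ a j).const_mul (q a)
    have h2 := hadd _ _ h1 ih1
    simp only [Finset.sum_insert ha]
    refine ⟨fun j => (h1 j).add (ih1 j), ?_⟩
    rw [h2, ih2, hsmul _ _ (hφ a)]

theorem no_indep {H : Type u} [Group H] {S : Finset H} (hS : SymGen S)
    (μ : (H → ℝ) → ℝ) (hμ : IsMean μ)
    (hinv : ∀ (g : H) (f : H → ℝ), Bdd f → μ (fun x => f (x * g)) = μ f) {k : ℕ}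
    (f : H → Fin k → ℝ) (Lf : ℝ) (hLf : ∀ y h i, |f (y * h) i - f y i| ≤ Lf * len S h)
    (C₁ : ℝ) (hC₁ : 0 ≤ C₁)
    (hexc : ∀ (M E : ℝ) (y : H) (l : List H), 0 ≤ M → 0 ≤ E →
      (∀ x ∈ l, (len S x : ℝ) ≤ M) →
      (∀ l' : List H, l' <+: l → ∀ i, |f (y * l'.prod) i - f y i| ≤ E) →
      (len S l.prod : ℝ) ≤ C₁ * (1 + M + E + Real.log (1 + l.length * M)))
    {V : Type v} [NormedAddCommGroup V] [InnerProductSpace ℝ V] [CompleteSpace V]
    (π : H →* (V ≃ₗᵢ[ℝ] V)) (b c z : H → V) (ι : (H → Fin k → ℝ) → V)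
    (hbι : ∀ h, b h = ι (fun y i => f (y * h) i - f y i))
    (hadd : ∀ φ ψ, VBdd φ → VBdd ψ → ι (fun y i => φ y i + ψ y i) = ι φ + ι ψ)
    (hsmul : ∀ (a : ℝ) φ, VBdd φ → ι (fun y i => a * φ y i) = a • ι φ)
    (hnorm : ∀ φ, VBdd φ → ‖ι φ‖ ^ 2 = μ (fun y => ∑ i, (φ y i) ^ 2))
    (hdense : ∀ (v : V) (η : ℝ), 0 < η → ∃ φ, VBdd φ ∧ ‖v - ι φ‖ ≤ η)
    (hc : IsCocycle π c) (hbcz : ∀ g, b g = c g + z g)
    (hz : ∀ ε : ℝ, 0 < ε → ∃ C : ℝ, ∀ g, ‖z g‖ ≤ ε * len S g + C)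
    (e : Fin (k + 1) → V) (he : Orthonormal ℝ e)
    (hrel : ∀ i, TB π (e i) ∧ ∃ ρ : ℝ, 0 ≤ ρ ∧ Rel S c (e i) ρ) : False := by
  classical
  obtain ⟨L₀, hL₀, hcL₀⟩ := cocycle_norm_le hS π c hc
  obtain ⟨L, hL⟩ : ∃ L : ℝ, L = L₀ + 1 := ⟨_, rfl⟩
  have hL1 : 1 ≤ L := by rw [hL]; linarith
  have hL0 : 0 < L := by linarith
  have hcL : ∀ g, ‖c g‖ ≤ L * len S g := fun g => (hcL₀ g).trans
    (mul_le_mul_of_nonneg_right (by rw [hL]; linarith) (Nat.cast_nonneg _))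
  obtain ⟨τ, hτ⟩ : ∃ τ : ℝ, τ = 1 / (16 * L * (C₁ + 1)) := ⟨_, rfl⟩
  have hτ0 : 0 < τ := by rw [hτ]; positivity
  have hτ2 : 2 * τ * (L * C₁) ≤ 1 / 8 := by
    rw [hτ]
    have h1 : 2 * (1 / (16 * L * (C₁ + 1))) * (L * C₁) = 1 / 8 * (C₁ / (C₁ + 1)) := by
      field_simp
      ring
    rw [h1]
    have h2 : C₁ / (C₁ + 1) ≤ 1 := by rw [div_le_one (by linarith)]; linarith
    linarith
  obtain ⟨Q, hQne, hQ1, hQ⟩ := NoInd1_exists_net k (η := τ / (4 * Real.sqrt (k + 1)))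
    (by positivity)
  have hQc : (0 : ℝ) < Q.card := by exact_mod_cast hQne.card_pos
  -- realized vectors
  obtain ⟨B, hB⟩ := exists_relSpace hS π c hc
  have heB : ∀ i, e i ∈ B := fun i => (hB _).2 (hrel i)
  have huB : ∀ q : EuclideanSpace ℝ (Fin (k + 1)), TB π (∑ i, q i • e i) ∧
      ∃ ρ : ℝ, 0 ≤ ρ ∧ Rel S c (∑ i, q i • e i) ρ := fun q =>
    (hB _).1 (B.sum_mem fun i _ => B.smul_mem _ (heB i))
  choose hTB ρ hρ0 hρ using huB
  obtain ⟨R, hR⟩ : ∃ R : ℝ, R = ∑ q ∈ Q, ρ q := ⟨_, rfl⟩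
  have hρR : ∀ q ∈ Q, ρ q ≤ R := fun q hq => by
    rw [hR]; exact Finset.single_le_sum (fun q _ => hρ0 q) hq
  obtain ⟨m, hm⟩ : ∃ m : ℕ, m = ⌈8 * (L * C₁) * (R + 1)⌉₊ + 1 := ⟨_, rfl⟩
  have hm1 : 1 ≤ m := by omega
  have hmR : 8 * (L * C₁) * (R + 1) ≤ m := by
    rw [hm]
    push_cast
    have := Nat.le_ceil (8 * (L * C₁) * (R + 1))
    linarith
  obtain ⟨β, hβ⟩ : ∃ β : ℝ, β = (3 / 4) / (Q.card : ℝ) := ⟨_, rfl⟩
  have hβ0 : 0 < β := by rw [hβ]; positivity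
  obtain ⟨δ, hδ⟩ : ∃ δ : ℝ, δ = τ * Real.sqrt (β / (2 * (m + 1))) := ⟨_, rfl⟩
  have hδ0 : 0 < δ := by rw [hδ]; positivity
  have hδm : ((m : ℝ) + 1) * (δ ^ 2 / τ ^ 2) < β := by
    have h1 : δ ^ 2 / τ ^ 2 = β / (2 * (m + 1)) := by
      rw [hδ, mul_pow, Real.sq_sqrt (by positivity)]
      field_simp
    rw [h1]
    have h2 : ((m : ℝ) + 1) * (β / (2 * (m + 1))) = β / 2 := by field_simp
    rw [h2]
    linarith
  -- approximation
  obtain ⟨η, hη⟩ : ∃ η : ℝ, η = min 1 (δ / (2 * (k + 1))) := ⟨_, rfl⟩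
  have hη0 : 0 < η := by rw [hη]; positivity
  have hη1 : η ≤ 1 := by rw [hη]; exact min_le_left _ _
  have hη2 : η ≤ δ / (2 * (k + 1)) := by rw [hη]; exact min_le_right _ _
  have hex : ∀ i, ∃ φ, VBdd φ ∧ ‖e i - ι φ‖ ≤ η := fun i => hdense (e i) η hη0
  choose φ hφ hφe using hex
  have h4 : ∀ i, μ (fun y => ∑ j, (φ i y j) ^ 2) ≤ 4 := by
    intro i
    rw [← hnorm _ (hφ i)]
    have h1 : ‖ι (φ i)‖ ≤ 2 := by
      have h2 : ι (φ i) = e i - (e i - ι (φ i)) := by abel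
      rw [h2]
      refine (norm_sub_le _ _).trans ?_
      rw [he.1 i]
      linarith [hφe i]
    calc ‖ι (φ i)‖ ^ 2 ≤ 2 ^ 2 := pow_le_pow_left₀ (norm_nonneg _) h1 2
      _ = 4 := by norm_num
  obtain ⟨q, hq, hqY⟩ := NoInd1_exists_dir hμ φ (fun i j => hφ i j) h4 hτ0 Q hQne hQ
  have hq1 := hQ1 q hq
  have hqi : ∀ i, |q i| ≤ 1 := by
    intro i
    have h1 := EuclideanSpace.norm_sq_eq q
    rw [hq1] at h1
    have h2 : ‖q i‖ ^ 2 ≤ ∑ i, ‖q i‖ ^ 2 :=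
      Finset.single_le_sum (f := fun i => ‖q i‖ ^ 2) (fun i _ => sq_nonneg _) (Finset.mem_univ i)
    rw [← h1, one_pow, Real.norm_eq_abs] at h2
    exact (sq_le_one_iff₀ (abs_nonneg _)).1 h2
  have hu : ‖∑ i, q i • e i‖ = 1 := by
    have h1 : ‖∑ i, q i • e i‖ ^ 2 = 1 := by
      rw [← real_inner_self_eq_norm_sq, he.inner_sum]
      have h2 := EuclideanSpace.norm_sq_eq q
      rw [hq1, one_pow] at h2
      rw [h2]
      refine Finset.sum_congr rfl fun i _ => ?_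
      simp [sq]
    have h2 : ‖∑ i, q i • e i‖ ^ 2 = 1 ^ 2 := by rw [h1, one_pow]
    exact (sq_eq_sq₀ (norm_nonneg _) zero_le_one).1 h2
  obtain ⟨hφq, hιq⟩ := NoIndep_iota hadd hsmul Finset.univ φ hφ (fun i => q i)
  refine NoIndep_key hS μ hμ f Lf hLf C₁ hC₁ hexc π b c z ι hbι hadd hsmul hnorm hc hbcz hz
    hL1 hcL hτ0 hτ2 (hρ0 q) hm1 ?_ hδ0 hδm hu (hTB q) (hρ q) hφq ?_ ?_
  · refine le_trans ?_ hmR
    have := hρR q hq
    have h1 : 0 ≤ 8 * (L * C₁) := by positivity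
    nlinarith
  · rw [hιq, ← Finset.sum_sub_distrib]
    have h1 : ∀ i ∈ Finset.univ, ‖q i • e i - q i • ι (φ i)‖ ≤ δ / (2 * (k + 1)) := by
      intro i _
      rw [← smul_sub, norm_smul, Real.norm_eq_abs]
      calc |q i| * ‖e i - ι (φ i)‖ ≤ 1 * η := by
            gcongr
            · exact hqi i
            · exact hφe i
        _ ≤ δ / (2 * (k + 1)) := by rw [one_mul]; exact hη2
    refine (norm_sum_le_of_le _ h1).trans (le_of_eq ?_)
    rw [Finset.sum_const, Finset.card_univ, Fintype.card_fin, nsmul_eq_mul]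
    push_cast
    field_simp
  · rw [← hβ] at hqY
    exact hqY

end Vale.Agent.P188.SG
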