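import Vale.Agent.P188.SG.MeanComp

/-!
P188, Theorem S+: the dimension of the linear part is at least `k`.
-/

universe u v w

open Filter Topology Pointwise

namespace Vale.Agent.P188.SG

/-- the mean of `|g|` is at most the square root of the mean of `g ^ 2` -/
theorem RankGe_mean_abs {X : Type u} {μ : (X → ℝ) → ℝ} (hμ : IsMean μ) {g : X → ℝ} (hg : Bdd g)
    {δ : ℝ} (hδ : 0 < δ) (h : μ (fun y => g y ^ 2) ≤ δ ^ 2) : μ (fun y => |g y|) ≤ δ := by
  have hg1 : Bdd (fun y => |g y|) := by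
    obtain ⟨C, hC⟩ := hg
    exact ⟨C, fun y => by rw [abs_abs]; exact hC y⟩
  have hg2 : Bdd (fun y => g y ^ 2) := by
    obtain ⟨C, hC⟩ := hg
    refine ⟨C ^ 2, fun y => ?_⟩
    rw [abs_pow]
    exact pow_le_pow_left₀ (abs_nonneg _) (hC y) 2
  have h1 : μ (fun y => |g y|) ≤ μ ((fun y => (2 * δ)⁻¹ * g y ^ 2) + fun _ => δ / 2) := by
    refine hμ.le hg1 ((hg2.const_mul _).add (Bdd.const _)) fun y => ?_
    simp only [Pi.add_apply]
    have h2 : 0 ≤ (|g y| - δ) ^ 2 := sq_nonneg _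
    have h3 : |g y| ^ 2 = g y ^ 2 := sq_abs _
    have h4 : (2 * δ)⁻¹ * g y ^ 2 + δ / 2 - |g y| = (2 * δ)⁻¹ * (|g y| - δ) ^ 2 := by
      rw [← h3]
      field_simp
      ring
    have h5 : 0 ≤ (2 * δ)⁻¹ * (|g y| - δ) ^ 2 := by positivity
    linarith
  rw [hμ.add _ _ (hg2.const_mul _) (Bdd.const _), hμ.smul _ _ hg2, hμ.const] at h1
  have h6 : (2 * δ)⁻¹ * μ (fun y => g y ^ 2) ≤ (2 * δ)⁻¹ * δ ^ 2 :=
    mul_le_mul_of_nonneg_left h (by positivity)
  have h7 : (2 * δ)⁻¹ * δ ^ 2 = δ / 2 := by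
    field_simp
  linarith

/-- a point where a function is at most a strict upper bound of its mean -/
theorem RankGe_exists_le {X : Type u} {μ : (X → ℝ) → ℝ} (hμ : IsMean μ) {g : X → ℝ} (hg : Bdd g)
    {a : ℝ} (h : μ g < a) : ∃ y, g y ≤ a := by
  by_contra hcon
  push Not at hcon
  have h1 := hμ.le (Bdd.const a) hg fun y => (hcon y).le
  rw [hμ.const] at h1
  linarith

theorem RankGe_bdd_abs {X : Type u} {g : X → ℝ} (hg : Bdd g) : Bdd (fun y => |g y|) := by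
  obtain ⟨C, hC⟩ := hg
  exact ⟨C, fun y => by rw [abs_abs]; exact hC y⟩

theorem RankGe_bdd_sub {X : Type u} {g h : X → ℝ} (hg : Bdd g) (hh : Bdd h) :
    Bdd (fun y => g y - h y) := by
  obtain ⟨C, hC⟩ := hg
  obtain ⟨D, hD⟩ := hh
  refine ⟨C + D, fun y => ?_⟩
  have h1 := abs_le.1 (hC y)
  have h2 := abs_le.1 (hD y)
  rw [abs_le]
  constructor <;> linarith [h1.1, h1.2, h2.1, h2.2]

section Alg

variable {H : Type u} [Group H] {V : Type v} [NormedAddCommGroup V] [InnerProductSpace ℝ V]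

/-- telescoping -/
theorem RankGe_tele {k : ℕ} (π : H →* (V ≃ₗᵢ[ℝ] V)) (c : H → V) (hc : IsCocycle π c)
    (W : Submodule ℝ V) (hi : Inv π W) (hcW : ∀ g, c g ∈ W)
    (E : H → V →ₗ[ℝ] (Fin k → ℝ)) (f : H → ℝ) (i : Fin k) (y : ℕ → H) (α β : ℕ → ℝ) (Λ : ℝ)
    (hβ : ∀ j, 0 ≤ β j) (hΛ : ∀ j, ‖c ((y j)⁻¹ * y (j + 1))‖ ≤ Λ)
    (h1 : ∀ j, |f (y (j + 1)) - f (y j) - E (y j) (c ((y j)⁻¹ * y (j + 1))) i| ≤ α j)
    (h2 : ∀ j, ∀ w ∈ W,
      |E (y (j + 1)) w i - E (y j) (π ((y j)⁻¹ * y (j + 1)) w) i| ≤ ‖w‖ * β j) (n : ℕ) :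
    |f (y n) - f (y 0) - E (y 0) (c ((y 0)⁻¹ * y n)) i| ≤
      ∑ j ∈ Finset.range n, (α j + Λ * n * β j) := by
  have hΛ0 : 0 ≤ Λ := (norm_nonneg _).trans (hΛ 0)
  have hsplit : ∀ j, (y 0)⁻¹ * y (j + 1) = (y 0)⁻¹ * y j * ((y j)⁻¹ * y (j + 1)) := fun j => by
    group
  have key : ∀ j, ∀ w ∈ W, |E (y j) w i - E (y 0) (π ((y 0)⁻¹ * y j) w) i| ≤
      ‖w‖ * ∑ m ∈ Finset.range j, β m := by
    intro j
    induction j with
    | zero =>
      intro w _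
      have h3 : π ((y 0)⁻¹ * y 0) w = w := by
        rw [inv_mul_cancel, map_one]
        rfl
      rw [h3]
      simp
    | succ j ih =>
      intro w hw
      have h3 := h2 j w hw
      have h4 := ih (π ((y j)⁻¹ * y (j + 1)) w) (hi _ w hw)
      rw [LinearIsometryEquiv.norm_map] at h4
      have h5 : π ((y 0)⁻¹ * y (j + 1)) w =
          π ((y 0)⁻¹ * y j) (π ((y j)⁻¹ * y (j + 1)) w) := by
        rw [hsplit j, map_mul]
        rfl
      rw [h5, Finset.sum_range_succ, mul_add]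
      have h6 := abs_add_le
        (E (y (j + 1)) w i - E (y j) (π ((y j)⁻¹ * y (j + 1)) w) i)
        (E (y j) (π ((y j)⁻¹ * y (j + 1)) w) i -
          E (y 0) (π ((y 0)⁻¹ * y j) (π ((y j)⁻¹ * y (j + 1)) w)) i)
      rw [sub_add_sub_cancel] at h6
      linarith
  have hc1 : c 1 = 0 := by
    have h3 := hc 1 1
    rw [mul_one, map_one] at h3
    have h4 : (1 : V ≃ₗᵢ[ℝ] V) (c 1) = c 1 := rfl
    rw [h4] at h3
    exact left_eq_add.1 h3
  have main : ∀ m, |f (y m) - f (y 0) - E (y 0) (c ((y 0)⁻¹ * y m)) i| ≤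
      ∑ j ∈ Finset.range m, (α j + Λ * m * β j) := by
    intro m
    induction m with
    | zero =>
      rw [inv_mul_cancel, hc1, map_zero]
      simp
    | succ m ih =>
      have h3 := h1 m
      have h4 := key m (c ((y m)⁻¹ * y (m + 1))) (hcW _)
      have h5 : E (y 0) (c ((y 0)⁻¹ * y (m + 1))) i = E (y 0) (c ((y 0)⁻¹ * y m)) i +
          E (y 0) (π ((y 0)⁻¹ * y m) (c ((y m)⁻¹ * y (m + 1)))) i := by
        rw [hsplit m, hc, map_add]
        rfl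
      have h6 : f (y (m + 1)) - f (y 0) - E (y 0) (c ((y 0)⁻¹ * y (m + 1))) i =
          (f (y (m + 1)) - f (y m) - E (y m) (c ((y m)⁻¹ * y (m + 1))) i) +
          (f (y m) - f (y 0) - E (y 0) (c ((y 0)⁻¹ * y m)) i) +
          (E (y m) (c ((y m)⁻¹ * y (m + 1))) i -
            E (y 0) (π ((y 0)⁻¹ * y m) (c ((y m)⁻¹ * y (m + 1)))) i) := by
        rw [h5]
        ring
      rw [h6]
      refine (abs_add_three _ _ _).trans ?_
      have hβs : 0 ≤ ∑ j ∈ Finset.range m, β j := Finset.sum_nonneg fun j _ => hβ j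
      have h7 : ‖c ((y m)⁻¹ * y (m + 1))‖ * ∑ j ∈ Finset.range m, β j ≤
          Λ * ∑ j ∈ Finset.range m, β j := mul_le_mul_of_nonneg_right (hΛ m) hβs
      have h8 : ∑ j ∈ Finset.range (m + 1), (α j + Λ * ((m + 1 : ℕ) : ℝ) * β j) =
          ∑ j ∈ Finset.range m, (α j + Λ * m * β j) + Λ * ∑ j ∈ Finset.range m, β j +
            (α m + Λ * ((m + 1 : ℕ) : ℝ) * β m) := by
        rw [Finset.sum_range_succ, Finset.mul_sum, ← Finset.sum_add_distrib]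
        congr 1
        refine Finset.sum_congr rfl fun j _ => ?_
        push_cast
        ring
      have h9 : 0 ≤ Λ * ((m + 1 : ℕ) : ℝ) * β m := by
        have := hβ m
        positivity
      rw [h8]
      linarith
  exact main n

/-- a linear functional on `W` is bounded by its values on an orthonormal basis -/
theorem RankGe_basis {W : Submodule ℝ V} {d : ℕ} (e : OrthonormalBasis (Fin d) ℝ W)
    (L : V →ₗ[ℝ] ℝ) (w : V) (hw : w ∈ W) : |L w| ≤ ‖w‖ * ∑ l, |L (e l : V)| := by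
  have h1 : w = ∑ l, (inner ℝ (e l : V) w) • (e l : V) := by
    have h2 := congrArg (Subtype.val) (e.sum_repr' ⟨w, hw⟩)
    simp only [AddSubmonoidClass.coe_finsetSum, SetLike.val_smul, Submodule.coe_inner] at h2
    exact h2.symm
  have h2 : L w = ∑ l, (inner ℝ (e l : V) w) * L (e l : V) := by
    conv_lhs => rw [h1]
    rw [map_sum]
    exact Finset.sum_congr rfl fun l _ => by rw [map_smul, smul_eq_mul]
  rw [h2, Finset.mul_sum]
  refine (Finset.abs_sum_le_sum_abs _ _).trans (Finset.sum_le_sum fun l _ => ?_)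
  rw [abs_mul]
  refine mul_le_mul_of_nonneg_right ?_ (abs_nonneg _)
  refine (abs_real_inner_le_norm _ _).trans ?_
  have h3 : ‖(e l : V)‖ = 1 := by
    have := e.orthonormal.1 l
    rwa [Submodule.coe_norm] at this
  rw [h3, one_mul]

end Alg

section Iota

variable {H : Type u} [Group H] {V : Type v} [NormedAddCommGroup V] [InnerProductSpace ℝ V]
  {k : ℕ}

theorem RankGe_sum (ι : (H → Fin k → ℝ) → V)
    (hadd : ∀ φ ψ, VBdd φ → VBdd ψ → ι (fun y i => φ y i + ψ y i) = ι φ + ι ψ)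
    (hsmul : ∀ (a : ℝ) φ, VBdd φ → ι (fun y i => a * φ y i) = a • ι φ) {J : Type*}
    (s : Finset J) (a : J → ℝ) (φ : J → H → Fin k → ℝ) (hφ : ∀ l, VBdd (φ l)) :
    VBdd (fun y i => ∑ l ∈ s, a l * φ l y i) ∧
      ι (fun y i => ∑ l ∈ s, a l * φ l y i) = ∑ l ∈ s, a l • ι (φ l) := by
  classical
  refine ⟨fun i => NoInd1_bdd_sum s _ fun l _ => (hφ l i).const_mul _, ?_⟩
  induction s using Finset.induction_on with
  | empty =>
    simp only [Finset.sum_empty]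
    have h := hsmul 0 (fun _ _ => 0) (fun i => Bdd.const 0)
    simpa using h
  | insert b s hb ih =>
    have h1 := hadd (fun y i => a b * φ b y i) (fun y i => ∑ l ∈ s, a l * φ l y i)
      (fun i => (hφ b i).const_mul _)
      (fun i => NoInd1_bdd_sum s _ fun l _ => (hφ l i).const_mul _)
    rw [hsmul _ _ (hφ b), ih] at h1
    rw [Finset.sum_insert hb, ← h1]
    congr 1
    funext y i
    rw [Finset.sum_insert hb]

/-- an approximate realization of the vectors of `W` by bounded functions, linearly -/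
theorem RankGe_E (ι : (H → Fin k → ℝ) → V)
    (hadd : ∀ φ ψ, VBdd φ → VBdd ψ → ι (fun y i => φ y i + ψ y i) = ι φ + ι ψ)
    (hsmul : ∀ (a : ℝ) φ, VBdd φ → ι (fun y i => a * φ y i) = a • ι φ)
    (hdense : ∀ (v : V) (η : ℝ), 0 < η → ∃ φ, VBdd φ ∧ ‖v - ι φ‖ ≤ η)
    {W : Submodule ℝ V} {d : ℕ} (e : OrthonormalBasis (Fin d) ℝ W) (η : ℝ) (hη : 0 < η) :
    ∃ E : H → V →ₗ[ℝ] (Fin k → ℝ), (∀ w, VBdd (fun y => E y w)) ∧
      ∀ w ∈ W, ‖w - ι (fun y => E y w)‖ ≤ η * ‖w‖ := by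
  choose φ hφ hφ' using fun l : Fin d => hdense (e l : V) (η / (d + 1)) (by positivity)
  refine ⟨fun y => { toFun := fun w i => ∑ l, (inner ℝ (e l : V) w) * φ l y i
                     map_add' := fun a b => ?_
                     map_smul' := fun r a => ?_ }, fun w => ?_, fun w hw => ?_⟩
  · funext i
    rw [Pi.add_apply, ← Finset.sum_add_distrib]
    exact Finset.sum_congr rfl fun l _ => by rw [inner_add_right]; ring
  · funext i
    rw [RingHom.id_apply, Pi.smul_apply, smul_eq_mul, Finset.mul_sum]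
    exact Finset.sum_congr rfl fun l _ => by rw [real_inner_smul_right]; ring
  · exact (RankGe_sum ι hadd hsmul Finset.univ (fun l => inner ℝ (e l : V) w) φ hφ).1
  · have h0 := (RankGe_sum ι hadd hsmul Finset.univ (fun l => inner ℝ (e l : V) w) φ hφ).2
    have h1 : w = ∑ l, (inner ℝ (e l : V) w) • (e l : V) := by
      have h2 := congrArg (Subtype.val) (e.sum_repr' ⟨w, hw⟩)
      simp only [AddSubmonoidClass.coe_finsetSum, SetLike.val_smul, Submodule.coe_inner] at h2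
      exact h2.symm
    have h3 : w - ι (fun y i => ∑ l, (inner ℝ (e l : V) w) * φ l y i) =
        ∑ l, (inner ℝ (e l : V) w) • ((e l : V) - ι (φ l)) := by
      rw [h0]
      conv_lhs => rw [h1]
      rw [← Finset.sum_sub_distrib]
      refine Finset.sum_congr rfl fun l _ => ?_
      rw [smul_sub, ← h1]
    show ‖w - ι (fun y i => ∑ l, (inner ℝ (e l : V) w) * φ l y i)‖ ≤ η * ‖w‖
    rw [h3]
    refine (norm_sum_le _ _).trans ?_
    have h4 : ∀ l ∈ (Finset.univ : Finset (Fin d)),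
        ‖(inner ℝ (e l : V) w) • ((e l : V) - ι (φ l))‖ ≤ ‖w‖ * (η / (d + 1)) := by
      intro l _
      rw [norm_smul]
      refine mul_le_mul ?_ (hφ' l) (norm_nonneg _) (norm_nonneg _)
      rw [Real.norm_eq_abs]
      refine (abs_real_inner_le_norm _ _).trans ?_
      have h3 : ‖(e l : V)‖ = 1 := by
        have := e.orthonormal.1 l
        rwa [Submodule.coe_norm] at this
      rw [h3, one_mul]
    refine (Finset.sum_le_card_nsmul _ _ _ h4).trans ?_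
    rw [Finset.card_univ, Fintype.card_fin, nsmul_eq_mul]
    have h5 : (d : ℝ) * (‖w‖ * (η / (d + 1))) = (d / (d + 1)) * (η * ‖w‖) := by
      field_simp
    rw [h5]
    have h6 : (d : ℝ) / (d + 1) ≤ 1 := by
      rw [div_le_one (by positivity)]
      linarith
    exact mul_le_of_le_one_left (by positivity) h6

/-- the mean of a coordinate of a function of small norm -/
theorem RankGe_coord {μ : (H → ℝ) → ℝ} (hμ : IsMean μ) (ι : (H → Fin k → ℝ) → V)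
    (hnorm : ∀ φ, VBdd φ → ‖ι φ‖ ^ 2 = μ (fun y => ∑ i, (φ y i) ^ 2))
    (φ : H → Fin k → ℝ) (hφ : VBdd φ) {δ : ℝ} (hδ : 0 < δ) (h : ‖ι φ‖ ≤ δ) (i : Fin k) :
    μ (fun y => |φ y i|) ≤ δ := by
  have hsq : ∀ i, Bdd (fun y => (φ y i) ^ 2) := by
    intro i
    obtain ⟨C, hC⟩ := hφ i
    refine ⟨C ^ 2, fun y => ?_⟩
    rw [abs_pow]
    exact pow_le_pow_left₀ (abs_nonneg _) (hC y) 2
  refine RankGe_mean_abs hμ (hφ i) hδ ?_
  have h1 : μ (fun y => φ y i ^ 2) ≤ μ (fun y => ∑ i, (φ y i) ^ 2) :=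
    hμ.le (hsq i) (NoInd1_bdd_sum _ _ fun i _ => hsq i) fun y =>
      Finset.single_le_sum (f := fun i => φ y i ^ 2) (fun i _ => sq_nonneg _) (Finset.mem_univ i)
  rw [← hnorm φ hφ] at h1
  exact h1.trans (pow_le_pow_left₀ (norm_nonneg _) h 2)

theorem RankGe_sub (ι : (H → Fin k → ℝ) → V)
    (hadd : ∀ φ ψ, VBdd φ → VBdd ψ → ι (fun y i => φ y i + ψ y i) = ι φ + ι ψ)
    (hsmul : ∀ (a : ℝ) φ, VBdd φ → ι (fun y i => a * φ y i) = a • ι φ)
    (φ ψ : H → Fin k → ℝ) (hφ : VBdd φ) (hψ : VBdd ψ) :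
    VBdd (fun y i => φ y i - ψ y i) ∧ ι (fun y i => φ y i - ψ y i) = ι φ - ι ψ := by
  refine ⟨fun i => RankGe_bdd_sub (hφ i) (hψ i), ?_⟩
  have h1 := hadd φ (fun y i => (-1) * ψ y i) hφ (fun i => (hψ i).const_mul _)
  rw [hsmul _ _ hψ] at h1
  have h2 : (fun y i => φ y i - ψ y i) = fun y i => φ y i + (-1) * ψ y i := by
    funext y i
    ring
  rw [h2, h1]
  simp [sub_eq_add_neg]

end Iota

/-- diagonal dominance -/
theorem RankGe_dom {V : Type v} [NormedAddCommGroup V] [InnerProductSpace ℝ V] {k : ℕ}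
    (hk : 0 < k) (W : Submodule ℝ V) (hW : FiniteDimensional ℝ W) (T : V →ₗ[ℝ] (Fin k → ℝ))
    (w : Fin k → V) (hw : ∀ i, w i ∈ W) (n : ℝ) (hn : 0 < n)
    (h : ∀ i l, |T (w i) l - (if l = i then n else 0)| ≤ n / (2 * k)) :
    k ≤ Module.finrank ℝ W := by
  have hk0 : (0 : ℝ) < k := by exact_mod_cast hk
  let A : Matrix (Fin k) (Fin k) ℝ := fun i l => T (w i) l
  have hA : A.det ≠ 0 := by
    apply det_ne_zero_of_sum_row_lt_diag
    intro i
    have h1 : ∀ l ∈ Finset.univ.erase i, ‖A i l‖ ≤ n / (2 * k) := by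
      intro l hl
      have h2 := h i l
      rw [if_neg (Finset.ne_of_mem_erase hl), sub_zero] at h2
      rw [Real.norm_eq_abs]
      exact h2
    have h2 := Finset.sum_le_card_nsmul _ _ _ h1
    rw [Finset.card_erase_of_mem (Finset.mem_univ i), Finset.card_univ, Fintype.card_fin,
      nsmul_eq_mul, Nat.cast_sub (by omega)] at h2
    have h3 : n - n / (2 * k) ≤ ‖A i i‖ := by
      have h4 := h i i
      rw [if_pos rfl] at h4
      have h5 := (abs_le.1 h4).1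
      rw [Real.norm_eq_abs]
      have h6 := le_abs_self (A i i)
      have h7 : T (w i) i = A i i := rfl
      rw [h7] at h5
      linarith
    refine lt_of_le_of_lt h2 (lt_of_lt_of_le ?_ h3)
    have h8 : ((k : ℝ) - ((1 : ℕ) : ℝ)) * (n / (2 * k)) = n / 2 - n / (2 * k) := by
      field_simp
      push_cast
      ring
    rw [h8]
    linarith
  have h1 : LinearIndependent ℝ (fun i => (T ∘ₗ W.subtype) (⟨w i, hw i⟩ : W)) :=
    Matrix.linearIndependent_rows_of_det_ne_zero hA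
  have h2 : LinearIndependent ℝ (fun i => (⟨w i, hw i⟩ : W)) :=
    LinearIndependent.of_comp (T ∘ₗ W.subtype) h1
  have h3 := h2.fintype_card_le_finrank
  rwa [Fintype.card_fin] at h3

/-- a point where the errors along all the paths are small -/
theorem RankGe_point {H : Type u} [Group H] {μ : (H → ℝ) → ℝ} (hμ : IsMean μ)
    (hinv : ∀ (g : H) (f : H → ℝ), Bdd f → μ (fun x => f (x * g)) = μ f) {k : ℕ}
    (R : Finset H) (M n : ℕ) (τ : Fin k → ℕ → H → H) (h0 : ∀ i y, τ i 0 y = y)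
    (hR : ∀ i j y, (τ i j y)⁻¹ * τ i (j + 1) y ∈ R)
    (hM : ∀ i j x, {y | τ i j y = x}.ncard ≤ M) (Ψ : H → ℝ) (hΨ : Bdd Ψ) (hΨ0 : ∀ y, 0 ≤ Ψ y)
    (a : ℝ) (h : (k : ℝ) * (n * (M * μ Ψ)) < a) :
    ∃ y, ∀ i, ∑ j ∈ Finset.range n, Ψ (τ i j y) ≤ a := by
  classical
  have hdisp : ∀ i j y, y⁻¹ * τ i j y ∈ R ^ j := by
    intro i j y
    induction j with
    | zero => rw [h0, inv_mul_cancel, pow_zero]; exact Finset.mem_one.2 rfl
    | succ j ih =>
      have h1 : y⁻¹ * τ i (j + 1) y = y⁻¹ * τ i j y * ((τ i j y)⁻¹ * τ i (j + 1) y) := by group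
      rw [h1, pow_succ]
      exact Finset.mul_mem_mul ih (hR i j y)
  have hb : ∀ i j, Bdd (fun y => Ψ (τ i j y)) := fun i j => hΨ.comp (τ i j)
  have hb2 : ∀ i, Bdd (fun y => ∑ j ∈ Finset.range n, Ψ (τ i j y)) := fun i =>
    NoInd1_bdd_sum _ _ fun j _ => hb i j
  have hb3 : Bdd (fun y => ∑ i, ∑ j ∈ Finset.range n, Ψ (τ i j y)) :=
    NoInd1_bdd_sum _ _ fun i _ => hb2 i
  have h1 : μ (fun y => ∑ i, ∑ j ∈ Finset.range n, Ψ (τ i j y)) ≤ (k : ℝ) * (n * (M * μ Ψ)) := by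
    rw [NoInd1_mean_sum hμ _ _ fun i _ => hb2 i]
    have h2 : ∀ i ∈ (Finset.univ : Finset (Fin k)),
        μ (fun y => ∑ j ∈ Finset.range n, Ψ (τ i j y)) ≤ n * (M * μ Ψ) := by
      intro i _
      rw [NoInd1_mean_sum hμ _ _ fun j _ => hb i j]
      have h3 : ∀ j ∈ Finset.range n, μ (fun y => Ψ (τ i j y)) ≤ M * μ Ψ := fun j _ =>
        mean_comp_le μ hμ hinv (τ i j) (R ^ j) (hdisp i j) M (hM i j) Ψ hΨ hΨ0
      refine (Finset.sum_le_card_nsmul _ _ _ h3).trans ?_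
      rw [Finset.card_range, nsmul_eq_mul]
    refine (Finset.sum_le_card_nsmul _ _ _ h2).trans ?_
    rw [Finset.card_univ, Fintype.card_fin, nsmul_eq_mul]
  obtain ⟨y, hy⟩ := RankGe_exists_le hμ hb3 (lt_of_le_of_lt h1 h)
  refine ⟨y, fun i => le_trans ?_ hy⟩
  exact Finset.single_le_sum (f := fun i => ∑ j ∈ Finset.range n, Ψ (τ i j y))
    (fun i _ => Finset.sum_nonneg fun j _ => hΨ0 _) (Finset.mem_univ i)

section Err

variable {H : Type u} [Group H] {V : Type v} [NormedAddCommGroup V] [InnerProductSpace ℝ V]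
  {k : ℕ}

/-- the error of the first kind -/
theorem RankGe_err (f : H → Fin k → ℝ) (r : H) (hf : VBdd (fun y i => f (y * r) i - f y i))
    (π : H →* (V ≃ₗᵢ[ℝ] V)) (b c z : H → V) (ι : (H → Fin k → ℝ) → V)
    (hbι : b r = ι (fun y i => f (y * r) i - f y i))
    (hadd : ∀ φ ψ, VBdd φ → VBdd ψ → ι (fun y i => φ y i + ψ y i) = ι φ + ι ψ)
    (hsmul : ∀ (a : ℝ) φ, VBdd φ → ι (fun y i => a * φ y i) = a • ι φ)
    (hπι : ∀ h φ, VBdd φ → π h (ι φ) = ι (fun y i => φ (y * h) i))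
    (hbcz : ∀ g, b g = c g + z g) (v₀ : V) (φ : H → Fin k → ℝ) (hφ : VBdd φ)
    (ψ : H → Fin k → ℝ) (hψ : VBdd ψ) (ε₁ ε₂ ε₃ : ℝ) (h1 : ‖z r - (π r v₀ - v₀)‖ ≤ ε₁)
    (h2 : ‖v₀ - ι φ‖ ≤ ε₂) (h3 : ‖c r - ι ψ‖ ≤ ε₃) :
    VBdd (fun y i => (f (y * r) i - φ (y * r) i) - (f y i - φ y i) - ψ y i) ∧
      ‖ι (fun y i => (f (y * r) i - φ (y * r) i) - (f y i - φ y i) - ψ y i)‖ ≤
        ε₁ + 2 * ε₂ + ε₃ := by
  have hφr : VBdd (fun y i => φ (y * r) i) := fun i => (hφ i).comp (fun y => y * r)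
  have ha := RankGe_sub ι hadd hsmul (fun y i => φ (y * r) i) φ hφr hφ
  have hb := RankGe_sub ι hadd hsmul _ _ hf ha.1
  have hc := RankGe_sub ι hadd hsmul _ _ hb.1 hψ
  have he : (fun y i => (f (y * r) i - φ (y * r) i) - (f y i - φ y i) - ψ y i) =
      fun y i => (f (y * r) i - f y i) - (φ (y * r) i - φ y i) - ψ y i := by
    funext y i
    ring
  rw [he]
  refine ⟨hc.1, ?_⟩
  rw [hc.2, hb.2, ha.2, ← hbι, ← hπι r φ hφ, hbcz]
  have h4 : c r + z r - (π r (ι φ) - ι φ) - ι ψ =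
      (z r - (π r v₀ - v₀)) + π r (v₀ - ι φ) - (v₀ - ι φ) + (c r - ι ψ) := by
    rw [map_sub]
    abel
  rw [h4]
  have h5 : ‖π r (v₀ - ι φ)‖ ≤ ε₂ := by
    rw [LinearIsometryEquiv.norm_map]
    exact h2
  calc ‖(z r - (π r v₀ - v₀)) + π r (v₀ - ι φ) - (v₀ - ι φ) + (c r - ι ψ)‖
      ≤ ‖z r - (π r v₀ - v₀)‖ + ‖π r (v₀ - ι φ)‖ + ‖v₀ - ι φ‖ + ‖c r - ι ψ‖ := by
        refine (norm_add_le _ _).trans (add_le_add ?_ le_rfl)
        refine (norm_sub_le _ _).trans (add_le_add ?_ le_rfl)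
        exact norm_add_le _ _
    _ ≤ ε₁ + ε₂ + ε₂ + ε₃ := by linarith
    _ = ε₁ + 2 * ε₂ + ε₃ := by ring

/-- the error of the second kind -/
theorem RankGe_err2 (π : H →* (V ≃ₗᵢ[ℝ] V)) (ι : (H → Fin k → ℝ) → V)
    (hadd : ∀ φ ψ, VBdd φ → VBdd ψ → ι (fun y i => φ y i + ψ y i) = ι φ + ι ψ)
    (hsmul : ∀ (a : ℝ) φ, VBdd φ → ι (fun y i => a * φ y i) = a • ι φ)
    (hπι : ∀ h φ, VBdd φ → π h (ι φ) = ι (fun y i => φ (y * h) i))
    (W : Submodule ℝ V) (hi : Inv π W) (E : H → V →ₗ[ℝ] (Fin k → ℝ))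
    (hE : ∀ w, VBdd (fun y => E y w)) (η : ℝ)
    (hE' : ∀ w ∈ W, ‖w - ι (fun y => E y w)‖ ≤ η * ‖w‖) (r : H) (w : V) (hw : w ∈ W) :
    VBdd (fun y i => E (y * r) w i - E y (π r w) i) ∧
      ‖ι (fun y i => E (y * r) w i - E y (π r w) i)‖ ≤ 2 * (η * ‖w‖) := by
  have hr : VBdd (fun y i => E (y * r) w i) := fun i => (hE w i).comp (fun y => y * r)
  have ha := RankGe_sub ι hadd hsmul (fun y i => E (y * r) w i) (fun y i => E y (π r w) i) hr
    (hE (π r w))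
  refine ⟨ha.1, ?_⟩
  have h0 : π r (ι (fun y => E y w)) = ι (fun y i => E (y * r) w i) := hπι r _ (hE w)
  rw [ha.2, ← h0]
  have h1 := hE' w hw
  have h2 := hE' (π r w) (hi r w hw)
  rw [LinearIsometryEquiv.norm_map] at h2
  have h3 : π r (ι (fun y => E y w)) - ι (fun y i => E y (π r w) i) =
      (π r w - ι (fun y => E y (π r w))) - π r (w - ι (fun y => E y w)) := by
    rw [map_sub]
    abel
  rw [h3]
  refine (norm_sub_le _ _).trans ?_
  rw [LinearIsometryEquiv.norm_map]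
  linarith

end Err

/-- the last step: a point with small errors along the paths -/
theorem RankGe_last {H : Type u} [Group H] {V : Type v} [NormedAddCommGroup V]
    [InnerProductSpace ℝ V] {k : ℕ} (hk : 0 < k) (π : H →* (V ≃ₗᵢ[ℝ] V)) (c : H → V)
    (hc : IsCocycle π c) (W : Submodule ℝ V) (hW : FiniteDimensional ℝ W) (hi : Inv π W)
    (hcW : ∀ g, c g ∈ W) {d : ℕ} (e : OrthonormalBasis (Fin d) ℝ W) (f v : H → Fin k → ℝ)
    (E : H → V →ₗ[ℝ] (Fin k → ℝ)) (R : Finset H) (Λ : ℝ) (hΛ0 : 0 ≤ Λ)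
    (hΛc : ∀ r ∈ R, ‖c r‖ ≤ Λ) (n : ℕ) (hn0 : (0 : ℝ) < n) (C₀ Bv : ℝ)
    (hBv : ∀ y i, |v y i| ≤ Bv) (h4 : C₀ + 2 * Bv ≤ n / (4 * k))
    (τ : Fin k → ℕ → H → H) (hτ0 : ∀ i y, τ i 0 y = y)
    (hτR : ∀ i j y, (τ i j y)⁻¹ * τ i (j + 1) y ∈ R)
    (hτf : ∀ i y l, |f (τ i n y) l - f y l - (if l = i then (n : ℝ) else 0)| ≤ C₀)
    (err : H → H → Fin k → ℝ) (er2 : H → Fin d → H → Fin k → ℝ)
    (herr : ∀ r y i, err r y i = (f (y * r) i - v (y * r) i) - (f y i - v y i) - E y (c r) i)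
    (her2 : ∀ r l y i, er2 r l y i = E (y * r) (e l : V) i - E y (π r (e l : V)) i)
    (y : H) (hy : ∀ i, ∑ j ∈ Finset.range n, ∑ r ∈ R,
      (∑ i', |err r (τ i j y) i'| + Λ * n * ∑ l, ∑ i', |er2 r l (τ i j y) i'|) ≤ n / (4 * k)) :
    k ≤ Module.finrank ℝ W := by
  have hk0 : (0 : ℝ) < k := by exact_mod_cast hk
  refine RankGe_dom hk W hW (E y) (fun i => c (y⁻¹ * τ i n y)) (fun i => hcW _) n hn0 ?_
  intro i l
  have htele := RankGe_tele π c hc W hi hcW E (fun y => f y l - v y l) l (fun j => τ i j y)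
    (fun j => |err ((τ i j y)⁻¹ * τ i (j + 1) y) (τ i j y) l|)
    (fun j => ∑ m, |er2 ((τ i j y)⁻¹ * τ i (j + 1) y) m (τ i j y) l|) Λ
    (fun j => Finset.sum_nonneg fun m _ => abs_nonneg _)
    (fun j => hΛc _ (hτR i j y))
    (fun j => by
      show |(f (τ i (j + 1) y) l - v (τ i (j + 1) y) l) - (f (τ i j y) l - v (τ i j y) l) -
        E (τ i j y) (c ((τ i j y)⁻¹ * τ i (j + 1) y)) l| ≤
        |err ((τ i j y)⁻¹ * τ i (j + 1) y) (τ i j y) l|
      rw [herr, mul_inv_cancel_left])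
    (fun j w hw => by
      have h1 := RankGe_basis e
        ((LinearMap.proj l) ∘ₗ (E (τ i (j + 1) y)) -
          ((LinearMap.proj l) ∘ₗ (E (τ i j y))) ∘ₗ
            (π ((τ i j y)⁻¹ * τ i (j + 1) y)).toLinearEquiv.toLinearMap) w hw
      refine h1.trans (le_of_eq ?_)
      congr 1
      refine Finset.sum_congr rfl fun m _ => ?_
      rw [her2, mul_inv_cancel_left]
      rfl) n
  have hsum : ∑ j ∈ Finset.range n, (|err ((τ i j y)⁻¹ * τ i (j + 1) y) (τ i j y) l| +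
      Λ * n * ∑ m, |er2 ((τ i j y)⁻¹ * τ i (j + 1) y) m (τ i j y) l|) ≤ n / (4 * k) := by
    refine le_trans ?_ (hy i)
    refine Finset.sum_le_sum fun j _ => ?_
    refine le_trans ?_ (Finset.single_le_sum
      (f := fun r => ∑ i', |err r (τ i j y) i'| + Λ * n * ∑ l, ∑ i', |er2 r l (τ i j y) i'|)
      (fun r _ => by positivity) (hτR i j y))
    refine add_le_add ?_ (mul_le_mul_of_nonneg_left ?_ (by positivity))
    · exact Finset.single_le_sum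
        (f := fun l => |err ((τ i j y)⁻¹ * τ i (j + 1) y) (τ i j y) l|)
        (fun l _ => abs_nonneg _) (Finset.mem_univ l)
    · refine Finset.sum_le_sum fun m _ => ?_
      exact Finset.single_le_sum
        (f := fun l => |er2 ((τ i j y)⁻¹ * τ i (j + 1) y) m (τ i j y) l|)
        (fun l _ => abs_nonneg _) (Finset.mem_univ l)
  have h1 := htele.trans hsum
  simp only [hτ0 i y] at h1
  have h2 := hτf i y l
  have h3 : |v (τ i n y) l - v y l| ≤ 2 * Bv := by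
    have h4 := abs_le.1 (hBv (τ i n y) l)
    have h5 := abs_le.1 (hBv y l)
    rw [abs_le]
    constructor <;> linarith [h4.1, h4.2, h5.1, h5.2]
  have h5 : (n : ℝ) / (4 * k) + n / (4 * k) = n / (2 * k) := by
    field_simp
    norm_num
  have h6 : E y (c (y⁻¹ * τ i n y)) l - (if l = i then (n : ℝ) else 0) =
      (f (τ i n y) l - f y l - (if l = i then (n : ℝ) else 0)) -
      (v (τ i n y) l - v y l) -
      (f (τ i n y) l - v (τ i n y) l - (f y l - v y l) - E y (c (y⁻¹ * τ i n y)) l) := by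
    ring
  show |E y (c (y⁻¹ * τ i n y)) l - (if l = i then (n : ℝ) else 0)| ≤ n / (2 * k)
  rw [h6, abs_le]
  have h7 := abs_le.1 h1
  have h8 := abs_le.1 h2
  have h9 := abs_le.1 h3
  constructor
  · linarith [h7.1, h7.2, h8.1, h8.2, h9.1, h9.2]
  · linarith [h7.1, h7.2, h8.1, h8.2, h9.1, h9.2]

theorem rank_ge {H : Type u} [Group H] {S : Finset H} (hS : SymGen S)
    (μ : (H → ℝ) → ℝ) (hμ : IsMean μ)
    (hinv : ∀ (g : H) (f : H → ℝ), Bdd f → μ (fun x => f (x * g)) = μ f) {k : ℕ}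
    (f : H → Fin k → ℝ) (Lf : ℝ) (hLf : ∀ y h i, |f (y * h) i - f y i| ≤ Lf * len S h)
    (R : Finset H) (M : ℕ) (C₀ : ℝ) (hC₀ : 0 ≤ C₀)
    (htr : ∀ (i : Fin k) (n : ℕ), ∃ τ : ℕ → H → H,
      (∀ y, τ 0 y = y) ∧ (∀ j y, (τ j y)⁻¹ * τ (j + 1) y ∈ R) ∧
      (∀ j x, {y | τ j y = x}.Finite ∧ {y | τ j y = x}.ncard ≤ M) ∧
      ∀ y l, |f (τ n y) l - f y l - (if l = i then (n : ℝ) else 0)| ≤ C₀)
    {V : Type v} [NormedAddCommGroup V] [InnerProductSpace ℝ V] [CompleteSpace V]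
    (π : H →* (V ≃ₗᵢ[ℝ] V)) (b c z : H → V) (ι : (H → Fin k → ℝ) → V)
    (hbι : ∀ h, b h = ι (fun y i => f (y * h) i - f y i))
    (hadd : ∀ φ ψ, VBdd φ → VBdd ψ → ι (fun y i => φ y i + ψ y i) = ι φ + ι ψ)
    (hsmul : ∀ (a : ℝ) φ, VBdd φ → ι (fun y i => a * φ y i) = a • ι φ)
    (hnorm : ∀ φ, VBdd φ → ‖ι φ‖ ^ 2 = μ (fun y => ∑ i, (φ y i) ^ 2))
    (hdense : ∀ (v : V) (η : ℝ), 0 < η → ∃ φ, VBdd φ ∧ ‖v - ι φ‖ ≤ η)
    (hπι : ∀ h φ, VBdd φ → π h (ι φ) = ι (fun y i => φ (y * h) i))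
    (hc : IsCocycle π c) (hbcz : ∀ g, b g = c g + z g)
    (hz : ∀ ε : ℝ, 0 < ε → ∃ v : V, ∀ g, ‖z g - (π g v - v)‖ ≤ ε * len S g)
    (W : Submodule ℝ V) (hW : FiniteDimensional ℝ W) (hi : Inv π W) (hcW : ∀ g, c g ∈ W) :
    k ≤ Module.finrank ℝ W := by
  classical
  rcases Nat.eq_zero_or_pos k with hk | hk
  · rw [hk]
    exact Nat.zero_le _
  have hk0 : (0 : ℝ) < k := by exact_mod_cast hk
  let e := stdOrthonormalBasis ℝ W
  set d : ℕ := Module.finrank ℝ W with hd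
  -- the constant `Λ`
  let Λ : ℝ := ∑ r ∈ R, (‖c r‖ + len S r)
  have hΛr : ∀ r ∈ R, ‖c r‖ + len S r ≤ Λ := fun r hr =>
    Finset.single_le_sum (f := fun r => ‖c r‖ + (len S r : ℝ)) (fun r _ => by positivity) hr
  have hΛ0 : 0 ≤ Λ := Finset.sum_nonneg fun r _ => by positivity
  have hΛc : ∀ r ∈ R, ‖c r‖ ≤ Λ := fun r hr => by
    have h1 := hΛr r hr
    have h2 : (0 : ℝ) ≤ len S r := Nat.cast_nonneg _
    linarith
  have hΛl : ∀ r ∈ R, (len S r : ℝ) ≤ Λ := fun r hr => by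
    have h1 := hΛr r hr
    have h2 : 0 ≤ ‖c r‖ := norm_nonneg _
    linarith
  -- the constant `ε`
  let K₁ : ℝ := 4 * (k : ℝ) ^ 3 * M * R.card
  have hK₁ : 0 ≤ K₁ := by positivity
  let ε : ℝ := (4 * (K₁ * (Λ + 3) + 1))⁻¹
  have hε : 0 < ε := by positivity
  have hε' : K₁ * (ε * (Λ + 3)) ≤ 1 / 4 := by
    have h1 : K₁ * (ε * (Λ + 3)) = (K₁ * (Λ + 3)) / (4 * (K₁ * (Λ + 3) + 1)) := by
      show K₁ * ((4 * (K₁ * (Λ + 3) + 1))⁻¹ * (Λ + 3)) = _
      rw [div_eq_mul_inv]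
      ring
    rw [h1, div_le_div_iff₀ (by positivity) (by norm_num)]
    linarith
  obtain ⟨v₀, hv₀⟩ := hz ε hε
  obtain ⟨v, hv, hv'⟩ := hdense v₀ ε hε
  choose B hB using hv
  let Bv : ℝ := ∑ i, |B i|
  have hBv0 : 0 ≤ Bv := Finset.sum_nonneg fun i _ => abs_nonneg _
  have hBv : ∀ y i, |v y i| ≤ Bv := fun y i =>
    ((hB i y).trans (le_abs_self _)).trans
      (Finset.single_le_sum (f := fun i => |B i|) (fun i _ => abs_nonneg _) (Finset.mem_univ i))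
  -- the integer `n`
  obtain ⟨n, hn⟩ := exists_nat_gt (4 * (k : ℝ) * (C₀ + 2 * Bv))
  have hn0 : (0 : ℝ) < n := lt_of_le_of_lt (by positivity) hn
  -- the constant `η`
  let K₂ : ℝ := K₁ * (Λ * n * d) * 2 + Λ
  have hK₂ : 0 ≤ K₂ := by positivity
  let η : ℝ := min (1 / 4) ε / (K₂ + 1)
  have hmin : 0 < min (1 / 4) ε := lt_min (by norm_num) hε
  have hη : 0 < η := by positivity
  have hη' : K₂ * η ≤ min (1 / 4) ε := by
    have h1 : K₂ * η = min (1 / 4) ε * (K₂ / (K₂ + 1)) := by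
      show K₂ * (min (1 / 4) ε / (K₂ + 1)) = _
      ring
    rw [h1]
    refine mul_le_of_le_one_right hmin.le ?_
    rw [div_le_one (by positivity)]
    linarith
  have hη1 : K₁ * (Λ * n * d) * 2 * η ≤ 1 / 4 := by
    have h1 : K₁ * (Λ * n * d) * 2 * η ≤ K₂ * η := by
      refine mul_le_mul_of_nonneg_right ?_ hη.le
      show K₁ * (Λ * n * d) * 2 ≤ K₁ * (Λ * n * d) * 2 + Λ
      linarith
    exact h1.trans (hη'.trans (min_le_left _ _))
  have hη2 : η * Λ ≤ ε := by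
    have h1 : η * Λ ≤ K₂ * η := by
      rw [mul_comm]
      refine mul_le_mul_of_nonneg_right ?_ hη.le
      show Λ ≤ K₁ * (Λ * n * d) * 2 + Λ
      have : 0 ≤ K₁ * (Λ * n * d) * 2 := by positivity
      linarith
    exact h1.trans (hη'.trans (min_le_right _ _))
  obtain ⟨E, hE, hE'⟩ := RankGe_E ι hadd hsmul hdense e η hη
  -- the paths
  choose τ hτ0 hτR hτM hτf using fun i => htr i n
  have hfb : ∀ r, VBdd (fun y i => f (y * r) i - f y i) := fun r i =>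
    ⟨Lf * len S r, fun y => hLf y r i⟩
  -- the errors
  let err : H → H → Fin k → ℝ := fun r y i =>
    (f (y * r) i - v (y * r) i) - (f y i - v y i) - E y (c r) i
  let er2 : H → Fin d → H → Fin k → ℝ := fun r l y i =>
    E (y * r) (e l : V) i - E y (π r (e l : V)) i
  have hvb : VBdd v := fun i => ⟨B i, hB i⟩
  have herr : ∀ r ∈ R, VBdd (err r) ∧ ‖ι (err r)‖ ≤ ε * (Λ + 3) := by
    intro r hr
    have h1 := RankGe_err f r (hfb r) π b c z ι (hbι r) hadd hsmul hπι hbcz v₀ v hvb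
      (fun y => E y (c r)) (hE (c r)) _ _ _ (hv₀ r) hv' (hE' (c r) (hcW r))
    refine ⟨h1.1, h1.2.trans ?_⟩
    have h2 : ε * len S r ≤ ε * Λ := mul_le_mul_of_nonneg_left (hΛl r hr) hε.le
    have h3 : η * ‖c r‖ ≤ η * Λ := mul_le_mul_of_nonneg_left (hΛc r hr) hη.le
    linarith
  have her2 : ∀ r l, VBdd (er2 r l) ∧ ‖ι (er2 r l)‖ ≤ 2 * η := by
    intro r l
    have h1 := RankGe_err2 π ι hadd hsmul hπι W hi E hE η hE' r (e l : V) (e l).2
    have h3 : ‖(e l : V)‖ = 1 := by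
      have := e.orthonormal.1 l
      rwa [Submodule.coe_norm] at this
    refine ⟨h1.1, h1.2.trans ?_⟩
    rw [h3, mul_one]
  have hδ1 : 0 < ε * (Λ + 3) := by positivity
  have hδ2 : 0 < 2 * η := by positivity
  let Ψ₁ : H → H → ℝ := fun r y => ∑ i, |err r y i|
  let Ψ₂ : H → H → ℝ := fun r y => ∑ l, ∑ i, |er2 r l y i|
  have hΨ₁ : ∀ r ∈ R, Bdd (Ψ₁ r) ∧ μ (Ψ₁ r) ≤ k * (ε * (Λ + 3)) := by
    intro r hr
    have hb1 : ∀ i ∈ (Finset.univ : Finset (Fin k)), Bdd (fun y => |err r y i|) := fun i _ =>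
      RankGe_bdd_abs ((herr r hr).1 i)
    refine ⟨NoInd1_bdd_sum _ _ hb1, ?_⟩
    show μ (fun y => ∑ i, |err r y i|) ≤ _
    rw [NoInd1_mean_sum hμ _ _ hb1]
    refine (Finset.sum_le_card_nsmul _ _ _ fun i _ =>
      RankGe_coord hμ ι hnorm (err r) (herr r hr).1 hδ1 (herr r hr).2 i).trans ?_
    rw [Finset.card_univ, Fintype.card_fin, nsmul_eq_mul]
  have hΨ₂ : ∀ r, Bdd (Ψ₂ r) ∧ μ (Ψ₂ r) ≤ d * (k * (2 * η)) := by
    intro r
    have hb1 : ∀ l, ∀ i ∈ (Finset.univ : Finset (Fin k)), Bdd (fun y => |er2 r l y i|) :=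
      fun l i _ => RankGe_bdd_abs ((her2 r l).1 i)
    have hb2 : ∀ l ∈ (Finset.univ : Finset (Fin d)), Bdd (fun y => ∑ i, |er2 r l y i|) :=
      fun l _ => NoInd1_bdd_sum _ _ (hb1 l)
    refine ⟨NoInd1_bdd_sum _ _ hb2, ?_⟩
    show μ (fun y => ∑ l, ∑ i, |er2 r l y i|) ≤ _
    rw [NoInd1_mean_sum hμ _ _ hb2]
    refine (Finset.sum_le_card_nsmul _ _ (k * (2 * η)) fun l _ => ?_).trans ?_
    · rw [NoInd1_mean_sum hμ _ _ (hb1 l)]
      refine (Finset.sum_le_card_nsmul _ _ _ fun i _ =>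
        RankGe_coord hμ ι hnorm (er2 r l) (her2 r l).1 hδ2 (her2 r l).2 i).trans ?_
      rw [Finset.card_univ, Fintype.card_fin, nsmul_eq_mul]
    · rw [Finset.card_univ, Fintype.card_fin, nsmul_eq_mul]
  let Ψr : H → H → ℝ := fun r y => Ψ₁ r y + Λ * n * Ψ₂ r y
  have hΨr : ∀ r ∈ R, Bdd (Ψr r) ∧
      μ (Ψr r) ≤ k * (ε * (Λ + 3)) + Λ * n * (d * (k * (2 * η))) := by
    intro r hr
    have h1 : Ψr r = Ψ₁ r + fun y => Λ * n * Ψ₂ r y := rfl
    refine ⟨?_, ?_⟩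
    · rw [h1]
      exact (hΨ₁ r hr).1.add ((hΨ₂ r).1.const_mul _)
    · rw [h1, hμ.add _ _ (hΨ₁ r hr).1 ((hΨ₂ r).1.const_mul _), hμ.smul _ _ (hΨ₂ r).1]
      exact add_le_add (hΨ₁ r hr).2 (mul_le_mul_of_nonneg_left (hΨ₂ r).2 (by positivity))
  let Ψ : H → ℝ := fun y => ∑ r ∈ R, Ψr r y
  have hΨb : Bdd Ψ := NoInd1_bdd_sum R Ψr fun r hr => (hΨr r hr).1
  have hΨ₁0 : ∀ r y, 0 ≤ Ψ₁ r y := fun r y => Finset.sum_nonneg fun i _ => abs_nonneg _
  have hΨ₂0 : ∀ r y, 0 ≤ Ψ₂ r y := fun r y => Finset.sum_nonneg fun l _ =>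
    Finset.sum_nonneg fun i _ => abs_nonneg _
  have hΨr0 : ∀ r y, 0 ≤ Ψr r y := fun r y => by
    have h1 := hΨ₁0 r y
    have h2 := hΨ₂0 r y
    show 0 ≤ Ψ₁ r y + Λ * n * Ψ₂ r y
    positivity
  have hΨ0 : ∀ y, 0 ≤ Ψ y := fun y => Finset.sum_nonneg fun r _ => hΨr0 r y
  have hμΨ : μ Ψ ≤ R.card * (k * (ε * (Λ + 3)) + Λ * n * (d * (k * (2 * η)))) := by
    show μ (fun y => ∑ r ∈ R, Ψr r y) ≤ _
    rw [NoInd1_mean_sum hμ R Ψr fun r hr => (hΨr r hr).1]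
    refine (Finset.sum_le_card_nsmul _ _ _ fun r hr => (hΨr r hr).2).trans ?_
    rw [nsmul_eq_mul]
  -- the point
  obtain ⟨y, hy⟩ := RankGe_point hμ hinv R M n τ hτ0 hτR (fun i j x => (hτM i j x).2) Ψ hΨb hΨ0
    (n / (4 * k)) (by
      have h1 : (k : ℝ) * (n * (M * μ Ψ)) ≤ k * (n * (M *
          (R.card * (k * (ε * (Λ + 3)) + Λ * n * (d * (k * (2 * η))))))) := by
        have hkM : (0 : ℝ) ≤ M := Nat.cast_nonneg _
        gcongr
      have h2 : (k : ℝ) * (n * (M *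
          (R.card * (k * (ε * (Λ + 3)) + Λ * n * (d * (k * (2 * η))))))) =
          n / (4 * k) * (K₁ * (ε * (Λ + 3)) + K₁ * (Λ * n * d) * 2 * η) := by
        show _ = n / (4 * k) * ((4 * (k : ℝ) ^ 3 * M * R.card) * (ε * (Λ + 3)) +
          (4 * (k : ℝ) ^ 3 * M * R.card) * (Λ * n * d) * 2 * η)
        field_simp
      rw [h2] at h1
      refine lt_of_le_of_lt h1 ?_
      have h3 : 0 < (n : ℝ) / (4 * k) := by positivity
      have h4 : K₁ * (ε * (Λ + 3)) + K₁ * (Λ * n * d) * 2 * η < 1 := by linarith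
      calc (n : ℝ) / (4 * k) * (K₁ * (ε * (Λ + 3)) + K₁ * (Λ * n * d) * 2 * η)
          < n / (4 * k) * 1 := mul_lt_mul_of_pos_left h4 h3
        _ = n / (4 * k) := mul_one _)
  -- conclusion
  have h4 : C₀ + 2 * Bv ≤ n / (4 * k) := by
    rw [le_div_iff₀ (by positivity)]
    linarith
  exact RankGe_last hk π c hc W hW hi hcW e f v E R Λ hΛ0 hΛc n hn0 C₀ Bv hBv h4 τ hτ0 hτR hτf
    err er2 (fun _ _ _ => rfl) (fun _ _ _ _ => rfl) y hy

end Vale.Agent.P188.SG
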