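import Vale.Agent.P188.SG.Geo1
import Vale.Agent.P188.SG.Len
import Vale.Agent.P188.SG.Geo3

/-!
P188, Theorem S: products of elements with small displacement of `co θ ∘ F`.
-/

universe u v w

open Filter Topology Pointwise

namespace Vale.Agent.P188.SG



section Rec

variable {H : Type u} [Group H] {S : Finset H}

/-- concatenation of geodesics -/
lemma Rec1_path (hS : Subgroup.closure (S : Set H) = ⊤) {M : ℝ} (l : List H)
    (hl : ∀ x ∈ l, (len S x : ℝ) ≤ M) (hM : 0 ≤ M) :
    ∃ (L : ℕ) (q : ℕ → H), q 0 = 1 ∧ q L = l.prod ∧ (L : ℝ) ≤ l.length * M ∧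
      (∀ i, len S ((q i)⁻¹ * q (i + 1)) ≤ 1) ∧
      ∀ i, ∃ j ≤ l.length, (len S ((l.take j).prod⁻¹ * q i) : ℝ) ≤ M := by
  have len_one' : len S (1 : H) = 0 := by
    have h1 : len S (1 : H) ≤ 0 := by
      unfold len wordDist
      exact Nat.sInf_le ⟨[], rfl, by simp, by simp⟩
    omega
  induction l with
  | nil =>
    refine ⟨0, fun _ => 1, rfl, by simp, by simp, fun i => by simp [len_one'], fun i => ?_⟩
    exact ⟨0, le_rfl, by simp [len_one', hM]⟩
  | cons x l ih =>
    obtain ⟨L, q, hq0, hqL, hLM, hst, hnear⟩ := ih fun z hz => hl z (List.mem_cons_of_mem _ hz)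
    obtain ⟨p, hp0, hpx, hpst, hplen, _⟩ := exists_path hS x
    have hx := hl x List.mem_cons_self
    refine ⟨len S x + L, fun i => if i < len S x then p i else x * q (i - len S x), ?_, ?_, ?_,
      ?_, ?_⟩
    · by_cases h0 : 0 < len S x
      · simp [h0, hp0]
      · have h1 : len S x = 0 := by omega
        have h2 : x = 1 := by rw [← hpx, h1, hp0]
        have h3 : ¬ (0 < len S x) := h0
        simp only [h3, if_false]
        rw [h1, Nat.sub_zero, hq0, h2, mul_one]
    · have h1 : ¬ (len S x + L < len S x) := by omega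
      simp only [h1, if_false]
      rw [Nat.add_sub_cancel_left, hqL, List.prod_cons]
    · rw [List.length_cons]
      push_cast
      have h1 : ((l.length : ℝ) + 1) * M = l.length * M + M := by ring
      rw [h1]
      linarith
    · intro i
      by_cases h1 : i + 1 < len S x
      · have h2 : i < len S x := by omega
        simp only [h1, h2, if_true]
        exact hpst i
      · by_cases h2 : i < len S x
        · have h3 : i + 1 = len S x := by omega
          have h4 : i + 1 - len S x = 0 := by omega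
          simp only [h1, h2, if_true, if_false]
          rw [h4, hq0, mul_one]
          conv_lhs => rw [← hpx, ← h3]
          exact hpst i
        · have h3 : i + 1 - len S x = (i - len S x) + 1 := by omega
          simp only [h1, h2, if_false]
          rw [h3]
          have h4 : (x * q (i - len S x))⁻¹ * (x * q (i - len S x + 1)) =
              (q (i - len S x))⁻¹ * q (i - len S x + 1) := by group
          rw [h4]
          exact hst _
    · intro i
      by_cases h1 : i < len S x
      · refine ⟨0, Nat.zero_le _, ?_⟩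
        simp only [h1, if_true, List.take_zero, List.prod_nil, inv_one, one_mul]
        exact le_trans (by exact_mod_cast hplen i) hx
      · obtain ⟨j, hj, hj'⟩ := hnear (i - len S x)
        refine ⟨j + 1, by simpa using hj, ?_⟩
        simp only [h1, if_false, List.take_succ_cons, List.prod_cons]
        have h4 : (x * (List.take j l).prod)⁻¹ * (x * q (i - len S x)) =
            (List.take j l).prod⁻¹ * q (i - len S x) := by group
        rw [h4]
        exact hj'

variable {G : Type v} [Group G] {k : ℕ} {θ : G →* Multiplicative (Fin k → ℤ)} {A T : Finset G}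

/-- a point where the sum of the functions is at most the mean -/
lemma Rec1_exists {X : Type u} {μ : (X → ℝ) → ℝ} (hμ : IsMean μ) {f : X → ℝ} (hf : Bdd f)
    {a e : ℝ} (he : 0 < e) (h : μ f ≤ a) : ∃ y, f y ≤ a + e := by
  by_contra hh
  push Not at hh
  have h1 := hμ.le (Bdd.const (a + e)) hf (fun x => (hh x).le)
  rw [hμ.const] at h1
  linarith

/-- one step of the recursion -/
theorem product_len (h : ExpExt θ A T) (hS : Subgroup.closure (S : Set H) = ⊤)
    (K C : ℝ) (hK : 1 ≤ K) (hC : 0 ≤ C) (F : H → G)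
    (hq : IsQuasiIsometry (wordDist (S : Set H)) (wordDist (T : Set G)) K C F)
    (μ : (H → ℝ) → ℝ) (hμ : IsMean μ)
    (hinv : ∀ (g : H) (f : H → ℝ), Bdd f → μ (fun x => f (x * g)) = μ f) :
    ∃ C₁ : ℝ, 0 ≤ C₁ ∧ ∀ (n : ℕ) (M δ : ℝ) (l : List H), l.length = n → 0 ≤ M → 0 ≤ δ →
      (∀ x ∈ l, (len S x : ℝ) ≤ M) →
      (∀ x ∈ l, μ (fun y => ∑ i, (co θ (F (y * x)) i - co θ (F y) i) ^ 2) ≤ δ ^ 2) →
      (len S l.prod : ℝ) ≤ C₁ * (1 + M + n * δ + Real.log (1 + n * M)) := by
  obtain ⟨Lc, hLc, hLip⟩ := co_lip h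
  obtain ⟨Cp, hCp, hpath⟩ := path_lemma h ⌊K + C⌋₊
  have hK0 : 0 < K := by linarith
  -- the quasi-isometry in terms of `len`
  have hup : ∀ y x : H, (len T ((F y)⁻¹ * F (y * x)) : ℝ) ≤ K * len S x + C := by
    intro y x
    have h2 := (hq.1 y (y * x)).2
    rw [wordDist_eq_len, wordDist_eq_len, inv_mul_cancel_left] at h2
    exact h2
  have hlow : ∀ y x : H, K⁻¹ * (len S x : ℝ) - C ≤ (len T ((F y)⁻¹ * F (y * x)) : ℝ) := by
    intro y x
    have h2 := (hq.1 y (y * x)).1
    rw [wordDist_eq_len, wordDist_eq_len, inv_mul_cancel_left] at h2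
    exact h2
  have hco : ∀ (y x : H) (i : Fin k),
      |co θ (F (y * x)) i - co θ (F y) i| ≤ Lc * (K * len S x + C) := by
    intro y x i
    have h1 := hLip (F y) ((F y)⁻¹ * F (y * x)) i
    rw [mul_inv_cancel_left] at h1
    exact h1.trans (mul_le_mul_of_nonneg_left (hup y x) hLc)
  refine ⟨K * (Cp * (2 + Lc * C + Lc * K + 1) + C), by positivity, ?_⟩
  intro n M δ l hln hM hδ hlM hlδ
  set ψ : H → H → ℝ := fun x y => ∑ i, (co θ (F (y * x)) i - co θ (F y) i) ^ 2 with hψ
  have hψb : ∀ x, Bdd (ψ x) := by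
    intro x
    refine ⟨∑ _i : Fin k, (Lc * (K * len S x + C)) ^ 2, fun y => ?_⟩
    rw [abs_of_nonneg (Finset.sum_nonneg fun i _ => sq_nonneg _)]
    refine Finset.sum_le_sum fun i _ => ?_
    rw [← sq_abs]
    exact pow_le_pow_left₀ (abs_nonneg _) (hco y x i) 2
  set w : ℕ → H := fun j => (l.take j).prod with hw
  have hw0 : w 0 = 1 := by simp [hw]
  -- the function at the position `j`
  set φ : ℕ → H → ℝ := fun j y =>
    ∑ i, (co θ (F (y * w (j + 1))) i - co θ (F (y * w j)) i) ^ 2 with hφ
  have hφψ : ∀ j (hj : j < n), φ j = fun y => ψ (l[j]'(by omega)) (y * w j) := by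
    intro j hj
    funext y
    simp only [hφ, hψ, hw]
    refine Finset.sum_congr rfl fun i _ => ?_
    rw [List.take_succ_eq_append_getElem (by omega), List.prod_append, List.prod_singleton,
      mul_assoc y]
  have hφb : ∀ j ∈ Finset.range n, Bdd (φ j) := by
    intro j hj
    rw [hφψ j (Finset.mem_range.1 hj)]
    exact (hψb _).comp _
  have hφm : ∀ j ∈ Finset.range n, μ (φ j) ≤ δ ^ 2 := by
    intro j hj
    rw [hφψ j (Finset.mem_range.1 hj), hinv _ _ (hψb _)]
    exact hlδ _ (List.getElem_mem _)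
  obtain ⟨hsb, hsm⟩ := hμ.sum (Finset.range n) φ hφb
  have hsm' : μ (fun y => ∑ j ∈ Finset.range n, φ j y) ≤ n * δ ^ 2 := by
    rw [hsm]
    refine (Finset.sum_le_sum hφm).trans ?_
    simp
  obtain ⟨y, hy⟩ := Rec1_exists hμ hsb (e := 1 / ((n : ℝ) + 1)) (by positivity) hsm'
  -- displacement
  have hdisp : ∀ j ≤ n, ∀ i, |co θ (F (y * w j)) i - co θ (F y) i| ≤ n * δ + 1 := by
    intro j hj i
    set a : ℕ → ℝ := fun m => |co θ (F (y * w (m + 1))) i - co θ (F (y * w m)) i| with ha
    have h1 : ∀ m, |co θ (F (y * w m)) i - co θ (F y) i| ≤ ∑ t ∈ Finset.range m, a t := by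
      intro m
      induction m with
      | zero => simp [hw0]
      | succ m ih =>
        rw [Finset.sum_range_succ]
        have h2 : co θ (F (y * w (m + 1))) i - co θ (F y) i =
            (co θ (F (y * w m)) i - co θ (F y) i) +
            (co θ (F (y * w (m + 1))) i - co θ (F (y * w m)) i) := by ring
        rw [h2]
        exact (abs_add_le _ _).trans (add_le_add ih le_rfl)
    have h2 : ∑ t ∈ Finset.range j, a t ≤ ∑ t ∈ Finset.range n, a t :=
      Finset.sum_le_sum_of_subset_of_nonneg (Finset.range_mono hj) fun t _ _ => abs_nonneg _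
    have h3 : (∑ t ∈ Finset.range n, a t) ^ 2 ≤ n * ∑ t ∈ Finset.range n, a t ^ 2 := by
      have := sq_sum_le_card_mul_sum_sq (s := Finset.range n) (f := a)
      rwa [Finset.card_range] at this
    have h4 : ∑ t ∈ Finset.range n, a t ^ 2 ≤ n * δ ^ 2 + 1 / ((n : ℝ) + 1) := by
      refine le_trans (Finset.sum_le_sum fun t _ => ?_) hy
      simp only [ha, hφ, sq_abs]
      exact Finset.single_le_sum
        (f := fun i => (co θ (F (y * w (t + 1))) i - co θ (F (y * w t)) i) ^ 2)
        (fun i _ => sq_nonneg _) (Finset.mem_univ i)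
    have hn0 : (0 : ℝ) ≤ n := Nat.cast_nonneg _
    have h5 : (∑ t ∈ Finset.range n, a t) ^ 2 ≤ (n * δ + 1) ^ 2 := by
      have h6 : (n : ℝ) * (1 / ((n : ℝ) + 1)) ≤ 1 := by
        rw [mul_one_div, div_le_one (by positivity)]
        linarith
      have h7 : (n : ℝ) * (n * δ ^ 2 + 1 / ((n : ℝ) + 1)) =
          (n * δ) ^ 2 + (n : ℝ) * (1 / ((n : ℝ) + 1)) := by ring
      have h8 : 0 ≤ (n : ℝ) * δ := mul_nonneg hn0 hδ
      have h9 := mul_le_mul_of_nonneg_left h4 hn0
      have h10 : (n * δ + 1) ^ 2 = ((n : ℝ) * δ) ^ 2 + 2 * (n * δ) + 1 := by ring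
      rw [h10]
      linarith
    have h6 : ∑ t ∈ Finset.range n, a t ≤ n * δ + 1 :=
      le_of_sq_le_sq h5 (by positivity)
    exact (h1 j).trans (h2.trans h6)
  -- the path
  obtain ⟨L, q, hq0, hqL, hLM, hst, hnear⟩ := Rec1_path hS l hlM hM
  have hE : 0 ≤ n * δ + 1 + Lc * (K * M + C) := by positivity
  have key := hpath L (n * δ + 1 + Lc * (K * M + C)) (fun i => F (y * q i)) hE ?_ ?_
  · rw [hq0, mul_one, hqL] at key
    have h1 := (hlow y l.prod).trans key
    have hlog : Real.log (1 + L) ≤ Real.log (1 + n * M) := by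
      refine Real.log_le_log (by positivity) ?_
      rw [hln] at hLM
      linarith
    have hlog0 : 0 ≤ Real.log (1 + n * M) := Real.log_nonneg (by
      have : (0 : ℝ) ≤ n * M := by positivity
      linarith)
    set lg := Real.log (1 + n * M) with hlg
    have h2 : Cp * (1 + (n * δ + 1 + Lc * (K * M + C)) + Real.log (1 + L)) ≤
        Cp * (1 + (n * δ + 1 + Lc * (K * M + C)) + lg) :=
      mul_le_mul_of_nonneg_left (by linarith) hCp
    have h3 : (len S l.prod : ℝ) ≤
        K * (Cp * (1 + (n * δ + 1 + Lc * (K * M + C)) + lg) + C) := by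
      have h4 : K⁻¹ * (len S l.prod : ℝ) ≤
          Cp * (1 + (n * δ + 1 + Lc * (K * M + C)) + lg) + C := by linarith
      have h5 := mul_le_mul_of_nonneg_left h4 hK0.le
      rwa [mul_inv_cancel_left₀ hK0.ne'] at h5
    refine h3.trans ?_
    rw [mul_assoc]
    refine mul_le_mul_of_nonneg_left ?_ hK0.le
    have hnδ : 0 ≤ (n : ℝ) * δ := by positivity
    set s := 1 + M + n * δ + lg with hs
    have hs1 : 1 ≤ s := by linarith
    have hsM : M ≤ s := by linarith
    have hsd : 1 + (n * δ) + 1 + lg ≤ 2 * s := by linarith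
    have e1 : 1 + (n * δ + 1 + Lc * (K * M + C)) + lg ≤ (2 + Lc * C + Lc * K + 1) * s := by
      have e2 : Lc * C ≤ Lc * C * s := le_mul_of_one_le_right (by positivity) hs1
      have e3 : Lc * K * M ≤ Lc * K * s := mul_le_mul_of_nonneg_left hsM (by positivity)
      have e4 : (2 + Lc * C + Lc * K + 1) * s = 2 * s + Lc * C * s + Lc * K * s + s := by ring
      have e5 : Lc * (K * M + C) = Lc * K * M + Lc * C := by ring
      rw [e4, e5]
      linarith
    have e2 : Cp * (1 + (n * δ + 1 + Lc * (K * M + C)) + lg) ≤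
        Cp * ((2 + Lc * C + Lc * K + 1) * s) := mul_le_mul_of_nonneg_left e1 hCp
    have e3 : C ≤ C * s := le_mul_of_one_le_right hC hs1
    calc Cp * (1 + (n * δ + 1 + Lc * (K * M + C)) + lg) + C
        ≤ Cp * ((2 + Lc * C + Lc * K + 1) * s) + C * s := add_le_add e2 e3
      _ = (Cp * (2 + Lc * C + Lc * K + 1) + C) * s := by ring
  · intro i _
    refine Nat.le_floor ?_
    have h1 := hup (y * q i) ((q i)⁻¹ * q (i + 1))
    rw [mul_assoc y, mul_inv_cancel_left] at h1
    refine h1.trans ?_
    have h2 : (len S ((q i)⁻¹ * q (i + 1)) : ℝ) ≤ 1 := by exact_mod_cast hst i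
    have h3 : K * (len S ((q i)⁻¹ * q (i + 1)) : ℝ) ≤ K * 1 := mul_le_mul_of_nonneg_left h2 hK0.le
    linarith
  · intro i _ j
    rw [hq0, mul_one]
    obtain ⟨m, hm, hm'⟩ := hnear i
    have h1 := hdisp m (by omega) j
    have h2 := hco (y * w m) ((w m)⁻¹ * q i) j
    rw [mul_assoc y, mul_inv_cancel_left] at h2
    have h3 : Lc * (K * (len S ((w m)⁻¹ * q i) : ℝ) + C) ≤ Lc * (K * M + C) := by
      refine mul_le_mul_of_nonneg_left ?_ hLc
      have := mul_le_mul_of_nonneg_left hm' hK0.le
      linarith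
    have h4 : co θ (F (y * q i)) j - co θ (F y) j =
        (co θ (F (y * w m)) j - co θ (F y) j) +
        (co θ (F (y * q i)) j - co θ (F (y * w m)) j) := by ring
    rw [h4]
    refine (abs_add_le _ _).trans ?_
    linarith

end Rec

end Vale.Agent.P188.SG
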