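import Vale.Agent.P188.SG.Len
import Vale.Agent.P188.SG.Rec1

/-!
P188, Theorem S: the recursion for the word length on the kernel.
-/

set_option linter.all false

universe u v w

open Filter Topology Pointwise

namespace Vale.Agent.P188.SG

section Rec

variable {H : Type u} [Group H] {S : Finset H}
variable {G : Type v} [Group G] {k : ℕ} {θ : G →* Multiplicative (Fin k → ℤ)} {A T : Finset G}

/-- powers of a subset of a subgroup -/
lemma Rec2_pow_subset {N : Subgroup H} {B : Set H} (hB : B ⊆ N) :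
    ∀ (j : ℕ), ∀ x ∈ B ^ j, x ∈ N := by
  intro j
  induction j with
  | zero =>
    intro x hx
    rw [pow_zero, Set.mem_one] at hx
    rw [hx]
    exact N.one_mem
  | succ j ih =>
    intro x hx
    rw [pow_succ, Set.mem_mul] at hx
    obtain ⟨y, hy, z, hz, rfl⟩ := hx
    exact N.mul_mem (ih y hy) (hB hz)

/-- a product of at most `n * m` elements is a product of `n` products of at most `m` elements -/
lemma Rec2_split (B : Set H) (m : ℕ) : ∀ (n i : ℕ), i ≤ n * m → ∀ x ∈ B ^ i,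
    ∃ l : List H, l.length = n ∧ l.prod = x ∧ ∀ y ∈ l, ∃ j ≤ m, y ∈ B ^ j := by
  intro n
  induction n with
  | zero =>
    intro i hi x hx
    have h0 : i = 0 := by omega
    subst h0
    rw [pow_zero, Set.mem_one] at hx
    exact ⟨[], rfl, by simp [hx], by simp⟩
  | succ n ih =>
    intro i hi x hx
    by_cases h : i ≤ m
    · refine ⟨x :: List.replicate n 1, by simp, by simp, ?_⟩
      intro y hy
      rcases List.mem_cons.mp hy with rfl | hy
      · exact ⟨i, h, hx⟩
      · refine ⟨0, Nat.zero_le _, ?_⟩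
        rw [List.eq_of_mem_replicate hy, pow_zero]
        exact Set.one_mem_one
    · have h1 : i = m + (i - m) := by omega
      have h2 : i - m ≤ n * m := by
        rw [Nat.succ_mul] at hi
        omega
      rw [h1, pow_add, Set.mem_mul] at hx
      obtain ⟨y, hy, z, hz, rfl⟩ := hx
      obtain ⟨l, hl1, hl2, hl3⟩ := ih (i - m) h2 z hz
      refine ⟨y :: l, by simp [hl1], by simp [hl2], ?_⟩
      intro w hw
      rcases List.mem_cons.mp hw with rfl | hw
      · exact ⟨m, le_rfl, hy⟩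
      · exact hl3 w hw

/-- the numerical recursion -/
lemma Rec2_step {C₁ a M : ℝ} {n : ℕ} (hC₁ : 0 ≤ C₁) (ha : 0 ≤ a) (hM : 0 ≤ M) (hn : 1 ≤ n) :
    C₁ * (1 + M + n * ((n : ℝ)⁻¹ * M + a) + Real.log (1 + n * M)) ≤
      (3 * C₁ + 2) * (M + C₁ * (1 + n * a + Real.log n)) - C₁ * (1 + n * a + Real.log n) := by
  have hn0 : (0 : ℝ) < n := by exact_mod_cast hn
  have hn1 : (1 : ℝ) ≤ n := by exact_mod_cast hn
  have h1 : (n : ℝ) * ((n : ℝ)⁻¹ * M + a) = M + n * a := by
    field_simp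
  have h2 : Real.log (1 + n * M) ≤ Real.log n + M := by
    have h3 : 1 + n * M ≤ n * (1 + M) := by nlinarith
    have h4 : (0 : ℝ) < 1 + n * M := by positivity
    have h5 : Real.log (1 + M) ≤ M := by
      have := Real.log_le_sub_one_of_pos (show (0 : ℝ) < 1 + M by linarith)
      linarith
    calc Real.log (1 + n * M) ≤ Real.log (n * (1 + M)) := Real.log_le_log h4 h3
      _ = Real.log n + Real.log (1 + M) := Real.log_mul hn0.ne' (by positivity)
      _ ≤ Real.log n + M := by linarith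
  have hlog : 0 ≤ Real.log n := Real.log_nonneg hn1
  rw [h1]
  set c : ℝ := C₁ * (1 + n * a + Real.log n) with hc
  have hc0 : 0 ≤ c := by positivity
  have h6 : C₁ * (1 + M + (M + n * a) + Real.log (1 + n * M)) ≤ 3 * C₁ * M + c := by
    have h7 : 1 + M + (M + n * a) + Real.log (1 + n * M) ≤
        3 * M + (1 + n * a + Real.log n) := by linarith
    calc C₁ * (1 + M + (M + n * a) + Real.log (1 + n * M))
        ≤ C₁ * (3 * M + (1 + n * a + Real.log n)) := mul_le_mul_of_nonneg_left h7 hC₁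
      _ = 3 * C₁ * M + c := by rw [hc]; ring
  have h8 : 0 ≤ C₁ * c := mul_nonneg hC₁ hc0
  nlinarith

theorem kernel_len (h : ExpExt θ A T) (hS : Subgroup.closure (S : Set H) = ⊤)
    (K C : ℝ) (hK : 1 ≤ K) (hC : 0 ≤ C) (F : H → G)
    (hq : IsQuasiIsometry (wordDist (S : Set H)) (wordDist (T : Set G)) K C F)
    (μ : (H → ℝ) → ℝ) (hμ : IsMean μ)
    (hinv : ∀ (g : H) (f : H → ℝ), Bdd f → μ (fun x => f (x * g)) = μ f)
    (α : ℝ) (hα : 0 < α) :
    ∃ ε : ℝ, 0 < ε ∧ ∀ (N : Subgroup H) (C' : ℝ),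
      (∀ x ∈ N, μ (fun y => ∑ i, (co θ (F (y * x)) i - co θ (F y) i) ^ 2) ≤
        (ε * len S x + C') ^ 2) →
      ∀ B : Set H, B.Finite → B ⊆ N → ∃ D : ℝ, ∀ (m : ℕ), ∀ x ∈ B ^ m,
        (len S x : ℝ) ≤ D * (m : ℝ) ^ α := by
  obtain ⟨C₁, hC₁, hprod⟩ := product_len h hS K C hK hC F hq μ hμ hinv
  set q : ℝ := 3 * C₁ + 2 with hqdef
  have hq0 : 0 < q := by positivity
  have hq1 : 1 ≤ q := by linarith
  set n : ℕ := ⌈q ^ α⁻¹⌉₊ + 2 with hn
  have hn2 : 2 ≤ n := by omega
  have hn1 : 1 ≤ n := by omega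
  have hn0 : (0 : ℝ) < n := by exact_mod_cast hn1
  have hnq : q ≤ (n : ℝ) ^ α := by
    have h1 : q ^ α⁻¹ ≤ (n : ℝ) := by
      have h2 : q ^ α⁻¹ ≤ (⌈q ^ α⁻¹⌉₊ : ℝ) := Nat.le_ceil _
      have h3 : ((⌈q ^ α⁻¹⌉₊ : ℕ) : ℝ) ≤ (n : ℝ) := by
        rw [hn]; push_cast; linarith
      exact h2.trans h3
    calc q = (q ^ α⁻¹) ^ α := by
          rw [← Real.rpow_mul hq0.le, inv_mul_cancel₀ hα.ne', Real.rpow_one]
      _ ≤ (n : ℝ) ^ α := Real.rpow_le_rpow (by positivity) h1 hα.le
  refine ⟨(n : ℝ)⁻¹, by positivity, fun N C' hN B hB hBN => ?_⟩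
  set a : ℝ := |C'| with ha
  have ha0 : 0 ≤ a := abs_nonneg _
  set c : ℝ := C₁ * (1 + n * a + Real.log n) with hc
  have hc0 : 0 ≤ c := by
    have : 0 ≤ Real.log n := Real.log_nonneg (by exact_mod_cast hn1)
    positivity
  -- bound on `B`
  obtain ⟨M₁, hM₁0, hM₁⟩ : ∃ M₁ : ℝ, 0 ≤ M₁ ∧ ∀ x ∈ B, (len S x : ℝ) ≤ M₁ := by
    obtain ⟨M, hM⟩ := (hB.image fun x => (len S x : ℝ)).bddAbove
    refine ⟨max M 0, le_max_right _ _, fun x hx => ?_⟩
    exact (hM (Set.mem_image_of_mem _ hx)).trans (le_max_left _ _)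
  -- the recursion
  have key : ∀ j : ℕ, ∀ i ≤ n ^ j, ∀ x ∈ B ^ i,
      (len S x : ℝ) ≤ q ^ j * (M₁ + c) - c := by
    intro j
    induction j with
    | zero =>
      intro i hi x hx
      rw [pow_zero] at hi
      have hi' : i = 0 ∨ i = 1 := by omega
      rcases hi' with rfl | rfl
      · rw [pow_zero, Set.mem_one] at hx
        rw [hx, len_one]
        simpa using hM₁0
      · rw [pow_one] at hx
        have := hM₁ x hx
        simpa using this
    | succ j ih =>
      intro i hi x hx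
      have hM0 : 0 ≤ q ^ j * (M₁ + c) - c := by
        have h1 : 1 ≤ q ^ j := one_le_pow₀ hq1
        nlinarith
      set M : ℝ := q ^ j * (M₁ + c) - c with hM
      rw [pow_succ, mul_comm] at hi
      obtain ⟨l, hl1, hl2, hl3⟩ := Rec2_split B (n ^ j) n i hi x hx
      have h1 : (len S l.prod : ℝ) ≤
          C₁ * (1 + M + n * ((n : ℝ)⁻¹ * M + a) + Real.log (1 + n * M)) := by
        refine hprod n M ((n : ℝ)⁻¹ * M + a) l hl1 hM0 (by positivity) ?_ ?_
        · intro y hy
          obtain ⟨t, ht, hyt⟩ := hl3 y hy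
          exact ih t ht y hyt
        · intro y hy
          obtain ⟨t, ht, hyt⟩ := hl3 y hy
          refine (hN y (Rec2_pow_subset hBN t y hyt)).trans ?_
          have h2 := ih t ht y hyt
          apply sq_le_sq'
          · have h3 : -a ≤ C' := neg_abs_le C'
            have h4 : 0 ≤ (n : ℝ)⁻¹ * len S y := by positivity
            have h5 : 0 ≤ (n : ℝ)⁻¹ * M := by positivity
            linarith
          · have h3 : C' ≤ a := le_abs_self C'
            have h4 : (n : ℝ)⁻¹ * len S y ≤ (n : ℝ)⁻¹ * M :=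
              mul_le_mul_of_nonneg_left h2 (by positivity)
            linarith
      rw [hl2] at h1
      refine h1.trans ((Rec2_step hC₁ ha0 hM0 hn1).trans (le_of_eq ?_))
      rw [← hc, ← hqdef, hM, pow_succ]
      ring
  refine ⟨q * (M₁ + c), fun m x hx => ?_⟩
  rcases Nat.eq_zero_or_pos m with rfl | hm
  · rw [pow_zero, Set.mem_one] at hx
    rw [hx, len_one]
    simp [Real.zero_rpow hα.ne']
  · set j := Nat.log n m with hj
    have h1 : n ^ j ≤ m := Nat.pow_log_le_self n hm.ne'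
    have h2 : m < n ^ (j + 1) := Nat.lt_pow_succ_log_self (by omega) m
    have h3 := key (j + 1) m h2.le x hx
    have h4 : q ^ j ≤ (m : ℝ) ^ α := by
      calc q ^ j ≤ ((n : ℝ) ^ α) ^ j := pow_le_pow_left₀ hq0.le hnq j
        _ = ((n : ℝ) ^ j) ^ α := by
            rw [← Real.rpow_natCast, ← Real.rpow_natCast, ← Real.rpow_mul hn0.le,
              ← Real.rpow_mul hn0.le, mul_comm]
        _ ≤ (m : ℝ) ^ α := by
            refine Real.rpow_le_rpow (by positivity) ?_ hα.le
            exact_mod_cast h1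
    have h5 : 0 ≤ M₁ + c := by positivity
    calc (len S x : ℝ) ≤ q ^ (j + 1) * (M₁ + c) - c := h3
      _ ≤ q ^ (j + 1) * (M₁ + c) := by linarith
      _ = q * (M₁ + c) * q ^ j := by rw [pow_succ]; ring
      _ ≤ q * (M₁ + c) * (m : ℝ) ^ α := mul_le_mul_of_nonneg_left h4 (by positivity)

end Rec

end Vale.Agent.P188.SG
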