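import Vale.Agent.P188.SG.Len
import Vale.Agent.P188.SG.Geo1

/-!
P188, Theorem S+: translations of the extension seen in the quasi-isometric group.
-/

universe u v w

open Filter Topology

namespace Vale.Agent.P188.SG

/-- translations of `G` seen in `H` -/
theorem exists_trans {H : Type u} [Group H] {S : Finset H} {G : Type v} [Group G] {k : ℕ}
    {θ : G →* Multiplicative (Fin k → ℤ)} {A T : Finset G}
    (h : ExpExt θ A T) (hS : Subgroup.closure (S : Set H) = ⊤)
    (K C : ℝ) (hK : 1 ≤ K) (hC : 0 ≤ C) (F : H → G)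
    (hq : IsQuasiIsometry (wordDist (S : Set H)) (wordDist (T : Set G)) K C F) :
    ∃ (R : Finset H) (M : ℕ) (C₀ : ℝ), 0 ≤ C₀ ∧ ∀ (i : Fin k) (n : ℕ), ∃ τ : ℕ → H → H,
      (∀ y, τ 0 y = y) ∧ (∀ j y, (τ j y)⁻¹ * τ (j + 1) y ∈ R) ∧
      (∀ j x, {y | τ j y = x}.Finite ∧ {y | τ j y = x}.ncard ≤ M) ∧
      ∀ y l, |co θ (F (τ n y)) l - co θ (F y) l - (if l = i then (n : ℝ) else 0)| ≤ C₀ := by
  classical
  obtain ⟨Lip, hLip0, hLip⟩ := co_lip h
  have hT := h.genT
  have hK0 : (0 : ℝ) < K := lt_of_lt_of_le one_pos hK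
  have hlow : ∀ x x' : H, (len S (x⁻¹ * x') : ℝ) ≤ K * (len T ((F x)⁻¹ * F x') + C) := by
    intro x x'
    have h1 := (hq.1 x x').1
    rw [wordDist_eq_len, wordDist_eq_len] at h1
    have h2 : K * (K⁻¹ * (len S (x⁻¹ * x') : ℝ)) ≤ K * (len T ((F x)⁻¹ * F x') + C) :=
      mul_le_mul_of_nonneg_left (by linarith) hK0.le
    rwa [← mul_assoc, mul_inv_cancel₀ hK0.ne', one_mul] at h2
  have hsur : ∀ g : G, ∃ x : H, (len T (g⁻¹ * F x) : ℝ) ≤ C := by
    intro g
    obtain ⟨x, hx⟩ := hq.2 g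
    rw [wordDist_eq_len] at hx
    exact ⟨x, hx⟩
  choose Ψ hΨ using hsur
  have ht : ∀ i : Fin k, ∃ t : G, θ t = Multiplicative.ofAdd (Pi.single i 1) := fun i => h.surj _
  choose t ht using ht
  let L : ℕ := ∑ i, len T (t i)
  have hL : ∀ i, len T (t i) ≤ L := fun i =>
    Finset.single_le_sum (f := fun i => len T (t i)) (fun _ _ => Nat.zero_le _) (Finset.mem_univ i)
  let r : ℕ := ⌈K * (3 * C + L)⌉₊
  let rS : ℕ := ⌈K * C⌉₊
  let rT : ℕ := ⌈C⌉₊
  let BR : Finset H := (ncard_ball_le hS r).1.toFinset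
  let BS : Finset H := (ncard_ball_le hS rS).1.toFinset
  let BT : Finset G := (ncard_ball_le hT rT).1.toFinset
  refine ⟨BR, BT.card * BS.card, Lip * C, mul_nonneg hLip0 hC, fun i n => ?_⟩
  let τ : ℕ → H → H := fun j y => if j = 0 then y else Ψ (F y * (t i) ^ j)
  have key : ∀ j y, (len T ((F y * (t i) ^ j)⁻¹ * F (τ j y)) : ℝ) ≤ C := by
    intro j y
    by_cases hj : j = 0
    · subst hj
      have : τ 0 y = y := if_pos rfl
      rw [this, pow_zero, mul_one, inv_mul_cancel, len_one]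
      simpa using hC
    · have : τ j y = Ψ (F y * (t i) ^ j) := if_neg hj
      rw [this]
      exact hΨ _
  refine ⟨τ, fun y => if_pos rfl, fun j y => ?_, fun j x => ?_, fun y l => ?_⟩
  · -- steps
    rw [Set.Finite.mem_toFinset]
    show len S ((τ j y)⁻¹ * τ (j + 1) y) ≤ r
    have h1 : (F (τ j y))⁻¹ * F (τ (j + 1) y) =
        ((F y * (t i) ^ j)⁻¹ * F (τ j y))⁻¹ * (t i) *
          ((F y * (t i) ^ (j + 1))⁻¹ * F (τ (j + 1) y)) := by
      rw [pow_succ]
      group
    have h2 : len T ((F (τ j y))⁻¹ * F (τ (j + 1) y)) ≤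
        len T ((F y * (t i) ^ j)⁻¹ * F (τ j y)) + len T (t i) +
          len T ((F y * (t i) ^ (j + 1))⁻¹ * F (τ (j + 1) y)) := by
      rw [h1]
      refine (len_mul_le hT _ _).trans ?_
      refine Nat.add_le_add_right ?_ _
      refine (len_mul_le hT _ _).trans ?_
      rw [len_inv hT]
    have h3 : (len T ((F (τ j y))⁻¹ * F (τ (j + 1) y)) : ℝ) ≤ 2 * C + L := by
      have a1 := key j y
      have a2 := key (j + 1) y
      have a3 : (len T (t i) : ℝ) ≤ L := by exact_mod_cast hL i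
      have a4 : (len T ((F (τ j y))⁻¹ * F (τ (j + 1) y)) : ℝ) ≤
          len T ((F y * (t i) ^ j)⁻¹ * F (τ j y)) + len T (t i) +
          len T ((F y * (t i) ^ (j + 1))⁻¹ * F (τ (j + 1) y)) := by exact_mod_cast h2
      linarith
    have h4 : (len S ((τ j y)⁻¹ * τ (j + 1) y) : ℝ) ≤ r := by
      refine (hlow _ _).trans (le_trans ?_ (Nat.le_ceil _))
      exact mul_le_mul_of_nonneg_left (by linarith) hK0.le
    exact_mod_cast h4
  · -- fibres
    let Z : Finset H := (BT ×ˢ BS).image fun p =>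
      Function.invFun F (F x * p.1⁻¹ * ((t i) ^ j)⁻¹) * p.2
    have hZ : {y | τ j y = x} ⊆ (Z : Set H) := by
      intro y hy
      have hy : τ j y = x := hy
      have hk := key j y
      rw [hy] at hk
      have e1 : F x * ((F y * (t i) ^ j)⁻¹ * F x)⁻¹ * ((t i) ^ j)⁻¹ = F y := by group
      have e2 : F (Function.invFun F (F y)) = F y := Function.invFun_eq ⟨y, rfl⟩
      refine Finset.mem_coe.mpr (Finset.mem_image.mpr
        ⟨((F y * (t i) ^ j)⁻¹ * F x, (Function.invFun F (F y))⁻¹ * y), ?_, ?_⟩)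
      · refine Finset.mem_product.mpr ⟨?_, ?_⟩
        · rw [Set.Finite.mem_toFinset]
          show len T ((F y * (t i) ^ j)⁻¹ * F x) ≤ rT
          have : (len T ((F y * (t i) ^ j)⁻¹ * F x) : ℝ) ≤ rT := hk.trans (Nat.le_ceil _)
          exact_mod_cast this
        · rw [Set.Finite.mem_toFinset]
          show len S ((Function.invFun F (F y))⁻¹ * y) ≤ rS
          have h5 := hlow (Function.invFun F (F y)) y
          rw [e2, inv_mul_cancel, len_one] at h5
          have h6 : (len S ((Function.invFun F (F y))⁻¹ * y) : ℝ) ≤ rS := by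
            refine h5.trans (le_trans (le_of_eq ?_) (Nat.le_ceil _))
            push_cast
            ring
          exact_mod_cast h6
      · show Function.invFun F (F x * ((F y * (t i) ^ j)⁻¹ * F x)⁻¹ * ((t i) ^ j)⁻¹) *
          ((Function.invFun F (F y))⁻¹ * y) = y
        rw [e1, mul_inv_cancel_left]
    refine ⟨(Finset.finite_toSet Z).subset hZ, ?_⟩
    calc {y | τ j y = x}.ncard ≤ ((Z : Finset H) : Set H).ncard :=
          Set.ncard_le_ncard hZ (Finset.finite_toSet _)
      _ = Z.card := Set.ncard_coe_finset _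
      _ ≤ (BT ×ˢ BS).card := Finset.card_image_le
      _ = BT.card * BS.card := Finset.card_product _ _
  · -- coordinates
    have e1 : co θ (F y * (t i) ^ n) l = co θ (F y) l + (if l = i then (n : ℝ) else 0) := by
      rw [geo1_co_mul]
      congr 1
      unfold co
      rw [map_pow, ht, ← ofAdd_nsmul, toAdd_ofAdd]
      by_cases hl : l = i
      · subst hl
        simp
      · rw [if_neg hl]
        simp [Pi.single_eq_of_ne hl]
    have e2 := hLip (F y * (t i) ^ n) ((F y * (t i) ^ n)⁻¹ * F (τ n y)) l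
    rw [mul_inv_cancel_left, e1] at e2
    have e3 : co θ (F (τ n y)) l - co θ (F y) l - (if l = i then (n : ℝ) else 0) =
        co θ (F (τ n y)) l - (co θ (F y) l + (if l = i then (n : ℝ) else 0)) := by ring
    rw [e3]
    exact e2.trans (mul_le_mul_of_nonneg_left (key n y) hLip0)

end Vale.Agent.P188.SG
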