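import Vale.Agent.P188.SG.Fol1
import Vale.Agent.P188.SG.Fol2
import Vale.Agent.P188.SG.Fol3
import Vale.Agent.P188.SG.Geo4
import Vale.Agent.P188.SG.Exc
import Vale.Agent.P188.SG.Rec2
import Vale.Agent.P188.SG.MeanL2c
import Vale.Agent.P188.SG.DenseRel
import Vale.Agent.P188.SG.NoIndep
import Vale.Agent.P188.SG.Cob2
import Vale.Agent.P188.SG.Harm2
import Vale.Agent.P188.SG.Trans
import Vale.Agent.P188.SG.RankGe

/-!
P188, Theorem S+: a group quasi-isometric to an exponentially distorted extension of `ℤ^k` acts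
on `ℝ^k` by isometries, with cobounded orbits, and every finitely generated subgroup of the
kernel of the action has growth at most `exp (C m ^ α)` for every `α > 0`.
-/

universe u v w

open Filter Topology Pointwise

namespace Vale.Agent.P188.SG

theorem mainK {H : Type u} [Group H] {G : Type v} [Group G] {k : ℕ}
    {θ : G →* Multiplicative (Fin k → ℤ)} {A T : Finset G} (h : ExpExt θ A T)
    (hq : QuasiIsometric H G) :
    ∃ (S : Finset H), Subgroup.closure (S : Set H) = ⊤ ∧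
      ∃ (ρ : H →* (EuclideanSpace ℝ (Fin k) ≃ᵢ EuclideanSpace ℝ (Fin k))),
      (∃ D : ℝ, ∀ w, ∃ g, dist (ρ g 0) w ≤ D) ∧
      ∀ B : Set H, B.Finite → B ⊆ ρ.ker → ∀ α : ℝ, 0 < α → ∃ C : ℝ, ∀ m : ℕ,
        (∀ x ∈ B ^ m, (len S x : ℝ) ≤ C * (m : ℝ) ^ α) ∧
        ((B ^ m).ncard : ℝ) ≤ Real.exp (C * (m : ℝ) ^ α) := by
  obtain ⟨S₀, T', hS₀, hT', K, C, hK, hC, F, hF₀⟩ := hq
  obtain ⟨S, hS, hSS⟩ := exists_symGen S₀ hS₀
  have hF : IsQuasiIsometry (wordDist (S : Set H)) (wordDist (T' : Set G)) K C F := by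
    rw [hSS]; exact hF₀
  have hE := h.change hT'
  have hfol : Folner S := folner_of_qi hS.gen hT' (folner_expExt hE) K C hK hC F hF
  have hcau := cautious_of_folner hS hfol
  obtain ⟨μ, hμ, hinv⟩ := hasMean_of_folner hS hfol
  obtain ⟨Lc, hLc, hLip⟩ := co_lip hE
  obtain ⟨C₁, hC₁, hexc⟩ := excursion_len hE hS.gen K C hK hC F hF
  have hLip' : ∀ (y g : H) (i : Fin k),
      |co θ (F (y * g)) i - co θ (F y) i| ≤ Lc * (K * len S g + C) := by
    intro y g i
    have h1 := hLip (F y) ((F y)⁻¹ * F (y * g)) i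
    rw [mul_inv_cancel_left] at h1
    refine h1.trans (mul_le_mul_of_nonneg_left ?_ hLc)
    have h2 := (hF.1 y (y * g)).2
    rw [wordDist_eq_len, wordDist_eq_len, inv_mul_cancel_left] at h2
    exact h2
  have hlen0 : ∀ g : H, len S g = 0 → g = 1 := by
    intro g hg
    obtain ⟨p, hp0, hp1, -⟩ := exists_path hS.gen g
    rw [hg] at hp1
    rw [← hp1, hp0]
  have hLipS : ∀ (y g : H) (i : Fin k),
      |co θ (F (y * g)) i - co θ (F y) i| ≤ Lc * (K + C) * len S g := by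
    intro y g i
    rcases Nat.eq_zero_or_pos (len S g) with h0 | h0
    · rw [hlen0 g h0, mul_one, sub_self, abs_zero]
      positivity
    · refine (hLip' y g i).trans ?_
      rw [mul_assoc]
      refine mul_le_mul_of_nonneg_left ?_ hLc
      have : (1 : ℝ) ≤ len S g := by exact_mod_cast h0
      nlinarith
  have hf : ∀ (h : H) (i : Fin k), Bdd (fun y => co θ (F (y * h)) i - co θ (F y) i) :=
    fun g i => ⟨_, fun y => hLip' y g i⟩
  obtain ⟨V, _, _, _, π, b, ι, hb, hbι, hadd, hsmul, hnorm, hdense, hπι⟩ :=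
    exists_rep'' μ hμ hinv (fun y => co θ (F y)) hf
  obtain ⟨c, z, hc, hz, hbcz, hharm, hzs, hzs'⟩ := harmonic_decomp' hS π b hb
  have hfd := harmonic_mem_fdSpan hS hcau π c hc hharm
  obtain ⟨B, hB⟩ := exists_relSpace (S := S) hS π c hc
  have hdens := dense_rel hS π c hc hharm hfd B hB
  obtain ⟨hBf, hBk⟩ := finrank_le_of_no_orthonormal B k (fun e he heB =>
    no_indep hS μ hμ hinv (fun y => co θ (F y)) (Lc * (K + C)) hLipS C₁ hC₁ hexc π b c z ι hbι
      hadd hsmul hnorm hdense hc hbcz hzs e he (fun i => (hB _).1 (heB i)))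
  have hcB' : ∀ g, c g ∈ B := fun g => by
    have := hdens g
    rwa [(Submodule.closed_of_finiteDimensional B).submodule_topologicalClosure_eq] at this
  have hWB : Submodule.span ℝ (Set.range c) ≤ B :=
    Submodule.span_le.2 (by rintro _ ⟨g, rfl⟩; exact hcB' g)
  have hWf : FiniteDimensional ℝ (Submodule.span ℝ (Set.range c)) :=
    Submodule.finiteDimensional_of_le hWB
  have hWk : Module.finrank ℝ (Submodule.span ℝ (Set.range c)) ≤ k :=
    (Submodule.finrank_mono hWB).trans hBk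
  obtain ⟨R, M, C₀, hC₀, htr⟩ := exists_trans hE hS.gen K C hK hC F hF
  have hge := rank_ge hS μ hμ hinv (fun y => co θ (F y)) (Lc * (K + C)) hLipS R M C₀ hC₀ htr
    π b c z ι hbι hadd hsmul hnorm hdense hπι hc hbcz hzs' (Submodule.span ℝ (Set.range c)) hWf
    (inv_span π c hc) (fun g => Submodule.subset_span ⟨g, rfl⟩)
  obtain ⟨ρ, hρ, hcob⟩ := exists_isom_cob' hS π c hc hharm k hWf (le_antisymm hWk hge)
  refine ⟨S, hS.gen, ρ, hcob, fun B hB hBρ α hα => ?_⟩
  obtain ⟨ε, hε, hker⟩ := kernel_len hE hS.gen K C hK hC F hF μ hμ hinv α hα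
  obtain ⟨C', hzC'⟩ := hzs ε hε
  have hN : ∀ x ∈ ρ.ker, μ (fun y => ∑ i, (co θ (F (y * x)) i - co θ (F y) i) ^ 2) ≤
      (ε * len S x + max C' 0) ^ 2 := by
    intro x hx
    have h1 := hzC' x
    have h0 : ‖b x‖ ≤ ε * len S x + max C' 0 := by
      rw [hbcz x, hρ x hx, zero_add]
      exact h1.trans (by
        have := le_max_left C' 0
        linarith)
    rw [← hnorm _ (fun i => hf x i), ← hbι x]
    exact pow_le_pow_left₀ (norm_nonneg _) h0 2
  obtain ⟨D, hD⟩ := hker ρ.ker (max C' 0) hN B hB hBρ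
  have hD0 : ∀ m : ℕ, ∀ x ∈ B ^ m, (len S x : ℝ) ≤ |D| * (m : ℝ) ^ α := fun m x hx =>
    (hD m x hx).trans (mul_le_mul_of_nonneg_right (le_abs_self D) (by positivity))
  set q : ℝ := Real.log (2 * S.card + 1) with hq
  have hq0 : 0 ≤ q := Real.log_nonneg (by
    have : (0 : ℝ) ≤ S.card := Nat.cast_nonneg _
    linarith)
  refine ⟨|D| * (1 + q), fun m => ⟨fun x hx => ?_, ?_⟩⟩
  · refine (hD0 m x hx).trans ?_
    have h1 : (0 : ℝ) ≤ (m : ℝ) ^ α := by positivity
    have h2 : |D| ≤ |D| * (1 + q) := by nlinarith [abs_nonneg D]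
    exact mul_le_mul_of_nonneg_right h2 h1
  · set R : ℕ := ⌊|D| * (m : ℝ) ^ α⌋₊ with hR
    have hRle : (R : ℝ) ≤ |D| * (m : ℝ) ^ α := Nat.floor_le (by positivity)
    have hsub : B ^ m ⊆ {x : H | len S x ≤ R} := by
      intro x hx
      exact Nat.le_floor (hD0 m x hx)
    obtain ⟨hfin, hcard⟩ := ncard_ball_le hS.gen R
    have h1 : ((B ^ m).ncard : ℝ) ≤ ((2 * S.card + 1 : ℕ) : ℝ) ^ R := by
      have := (Set.ncard_le_ncard hsub hfin).trans hcard
      exact_mod_cast this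
    refine h1.trans ?_
    have h2 : ((2 * S.card + 1 : ℕ) : ℝ) ^ R = Real.exp (q * R) := by
      rw [mul_comm q, Real.exp_nat_mul, hq, Real.exp_log (by positivity)]
      push_cast
      ring
    rw [h2]
    apply Real.exp_le_exp.mpr
    have h3 : q * R ≤ q * (|D| * (m : ℝ) ^ α) := mul_le_mul_of_nonneg_left hRle hq0
    have h4 : (0 : ℝ) ≤ |D| * (m : ℝ) ^ α := by positivity
    calc q * R ≤ q * (|D| * (m : ℝ) ^ α) := h3
      _ ≤ |D| * (1 + q) * (m : ℝ) ^ α := by nlinarith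

end Vale.Agent.P188.SG
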