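import Vale.Agent.P188.SG.Defs

/-!
P188, Theorem S: expectations of functions of the random walk.
-/

universe u v w

open Filter Topology

namespace Vale.Agent.P188.SG

variable {H : Type u} [Group H] {S : Finset H}

theorem Ex_zero (φ : H → ℝ) : Ex S 0 φ = φ 1 := rfl

theorem Ex_succ (n : ℕ) (φ : H → ℝ) : Ex S (n + 1) φ = Ex S n (avg S φ) := rfl

theorem Walk_left (n : ℕ) (φ : H → ℝ) (h g : H) :
    ((avg S)^[n] (fun x => φ (h * x))) g = ((avg S)^[n] φ) (h * g) := by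
  induction n generalizing φ with
  | zero => rfl
  | succ n ih =>
    rw [Function.iterate_succ_apply, Function.iterate_succ_apply, ← ih (avg S φ)]
    have e : avg S (fun x => φ (h * x)) = fun x => avg S φ (h * x) := by
      funext x
      unfold avg
      simp only [mul_assoc]
    rw [e]

theorem Ex_succ' (n : ℕ) (φ : H → ℝ) :
    Ex S (n + 1) φ = (S.card : ℝ)⁻¹ * ∑ s ∈ S, Ex S n (fun g => φ (s * g)) := by
  unfold Ex
  rw [Function.iterate_succ_apply']
  have e : ∀ s : H, ((avg S)^[n] (fun g => φ (s * g))) 1 = ((avg S)^[n] φ) (1 * s) := by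
    intro s
    rw [Walk_left, mul_one, one_mul]
  simp only [e]
  rfl

theorem Walk_avg_add (φ ψ : H → ℝ) :
    avg S (fun g => φ g + ψ g) = fun g => avg S φ g + avg S ψ g := by
  funext x
  unfold avg
  rw [Finset.sum_add_distrib, mul_add]

theorem Walk_avg_smul (a : ℝ) (φ : H → ℝ) :
    avg S (fun g => a * φ g) = fun g => a * avg S φ g := by
  funext x
  unfold avg
  rw [← Finset.mul_sum]
  ring

theorem Ex_add (n : ℕ) (φ ψ : H → ℝ) :
    Ex S n (fun g => φ g + ψ g) = Ex S n φ + Ex S n ψ := by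
  induction n generalizing φ ψ with
  | zero => rfl
  | succ n ih => rw [Ex_succ, Ex_succ, Ex_succ, Walk_avg_add, ih]

theorem Ex_smul (n : ℕ) (a : ℝ) (φ : H → ℝ) :
    Ex S n (fun g => a * φ g) = a * Ex S n φ := by
  induction n generalizing φ with
  | zero => rfl
  | succ n ih => rw [Ex_succ, Ex_succ, Walk_avg_smul, ih]

theorem Walk_zero (n : ℕ) : Ex S n (fun _ => (0 : ℝ)) = 0 := by
  have h := Ex_smul (S := S) n 0 (fun _ => (0 : ℝ))
  simpa using h

theorem Ex_sum {ι : Type*} (t : Finset ι) (n : ℕ) (φ : ι → H → ℝ) :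
    Ex S n (fun g => ∑ i ∈ t, φ i g) = ∑ i ∈ t, Ex S n (φ i) := by
  classical
  induction t using Finset.induction_on with
  | empty =>
    simp only [Finset.sum_empty]
    exact Walk_zero n
  | insert i t hi ih =>
    simp only [Finset.sum_insert hi]
    rw [Ex_add, ih]

theorem Ex_const (hS : S.Nonempty) (n : ℕ) (a : ℝ) : Ex S n (fun _ => a) = a := by
  have hc : (S.card : ℝ) ≠ 0 := by
    have := Finset.card_pos.mpr hS
    positivity
  have e : avg S (fun _ => a) = fun _ => a := by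
    funext x
    unfold avg
    rw [Finset.sum_const, nsmul_eq_mul, ← mul_assoc, inv_mul_cancel₀ hc, one_mul]
  induction n with
  | zero => rfl
  | succ n ih => rw [Ex_succ, e, ih]

theorem Ex_mono (n : ℕ) {φ ψ : H → ℝ} (h : ∀ g, φ g ≤ ψ g) : Ex S n φ ≤ Ex S n ψ := by
  induction n generalizing φ ψ with
  | zero => exact h 1
  | succ n ih =>
    rw [Ex_succ, Ex_succ]
    refine ih fun g => ?_
    unfold avg
    exact mul_le_mul_of_nonneg_left (Finset.sum_le_sum fun s _ => h _) (by positivity)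

theorem Ex_nonneg (n : ℕ) {φ : H → ℝ} (h : ∀ g, 0 ≤ φ g) : 0 ≤ Ex S n φ := by
  have h1 := Ex_mono (S := S) n (φ := fun _ => (0 : ℝ)) (ψ := φ) h
  rwa [Walk_zero] at h1

theorem Ex_abs_le (hS : S.Nonempty) (n : ℕ) {φ : H → ℝ} {M : ℝ} (h : ∀ g, |φ g| ≤ M) :
    |Ex S n φ| ≤ M := by
  rw [abs_le]
  have h1 := Ex_mono (S := S) n (φ := φ) (ψ := fun _ => M) fun g => (abs_le.mp (h g)).2
  have h2 := Ex_mono (S := S) n (φ := fun _ => -M) (ψ := φ) fun g => (abs_le.mp (h g)).1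
  rw [Ex_const hS] at h1 h2
  exact ⟨h2, h1⟩

theorem Ex_inv (hS : ∀ s ∈ S, s⁻¹ ∈ S) (n : ℕ) (φ : H → ℝ) :
    Ex S n (fun g => φ g⁻¹) = Ex S n φ := by
  induction n generalizing φ with
  | zero =>
    rw [Ex_zero, Ex_zero, inv_one]
  | succ n ih =>
    rw [Ex_succ']
    have e1 : ∀ s : H, Ex S n (fun g => φ (s * g)⁻¹) = Ex S n (fun g => φ (g * s⁻¹)) := by
      intro s
      have h := ih (fun g => φ (g * s⁻¹))
      simp only [mul_inv_rev]
      exact h
    have e2 : ∑ s ∈ S, Ex S n (fun g => φ (g * s⁻¹)) = ∑ s ∈ S, Ex S n (fun g => φ (g * s)) :=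
      Finset.sum_nbij' (fun s => s⁻¹) (fun s => s⁻¹) (fun s hs => hS s hs) (fun s hs => hS s hs)
        (fun s _ => inv_inv s) (fun s _ => inv_inv s) (fun s _ => rfl)
    have e3 : avg S φ = fun g => (S.card : ℝ)⁻¹ * (∑ s ∈ S, φ (g * s)) := rfl
    simp only [e1]
    rw [e2, Ex_succ, e3, Ex_smul, Ex_sum]

theorem Ex_markov (n : ℕ) {φ : H → ℝ} (h : ∀ g, 0 ≤ φ g) {a : ℝ} (ha : 0 < a) :
    Ex S n (fun g => if a ≤ φ g then 1 else 0) ≤ a⁻¹ * Ex S n φ := by
  rw [← Ex_smul]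
  refine Ex_mono n fun g => ?_
  by_cases hg : a ≤ φ g
  · rw [if_pos hg, inv_mul_eq_div, one_le_div ha]
    exact hg
  · rw [if_neg hg]
    exact mul_nonneg (inv_nonneg.mpr ha.le) (h g)

theorem Ex_cauchy (n : ℕ) (φ ψ : H → ℝ) :
    (Ex S n (fun g => φ g * ψ g)) ^ 2 ≤
      Ex S n (fun g => φ g ^ 2) * Ex S n (fun g => ψ g ^ 2) := by
  have key : ∀ t : ℝ, 0 ≤ Ex S n (fun g => φ g ^ 2) * (t * t) +
      (2 * Ex S n (fun g => φ g * ψ g)) * t + Ex S n (fun g => ψ g ^ 2) := by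
    intro t
    have h0 : 0 ≤ Ex S n (fun g => (t * φ g + ψ g) ^ 2) := Ex_nonneg n fun g => sq_nonneg _
    have e : (fun g => (t * φ g + ψ g) ^ 2) =
        fun g => (t * t) * φ g ^ 2 + (2 * t * (φ g * ψ g) + ψ g ^ 2) := by
      funext g
      ring
    rw [e, Ex_add, Ex_smul, Ex_add, Ex_smul] at h0
    linarith
  have h := discrim_le_zero key
  unfold discrim at h
  nlinarith [h]

end Vale.Agent.P188.SG
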