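import Vale.Agent.P188.SG.Len
import Vale.Agent.P188.SG.Walk

/-!
P188, Theorem S: controlled Følner pairs give a cautious random walk.
-/

universe u v w

open Filter Topology

namespace Vale.Agent.P188.SG

/-- The scalar product of finitely supported functions. -/
noncomputable def fol1_ip {H : Type u} (f g : H → ℝ) : ℝ := ∑ᶠ x, f x * g x

/-- finite support, as a predicate with a finset -/
def fol1_fs {H : Type u} (f : H → ℝ) : Prop := ∃ F : Finset H, ∀ x, x ∉ F → f x = 0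

theorem fol1_ip_eq {H : Type u} {f g : H → ℝ} {F : Finset H} (hF : ∀ x, x ∉ F → f x = 0) :
    fol1_ip f g = ∑ x ∈ F, f x * g x := by
  unfold fol1_ip
  refine finsum_eq_sum_of_support_subset _ ?_
  intro x hx
  by_contra hxF
  have h0 : f x = 0 := hF x (by simpa using hxF)
  exact hx (by simp [h0])

theorem fol1_ip_comm {H : Type u} (f g : H → ℝ) : fol1_ip f g = fol1_ip g f := by
  unfold fol1_ip
  simp only [mul_comm]

theorem fol1_ip_nonneg {H : Type u} (f : H → ℝ) : 0 ≤ fol1_ip f f :=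
  finsum_nonneg fun x => mul_self_nonneg (f x)

theorem fol1_fs_support {H : Type u} {f g : H → ℝ} (hf : fol1_fs f) :
    (Function.support fun x => f x * g x).Finite := by
  obtain ⟨F, hF⟩ := hf
  refine F.finite_toSet.subset fun x hx => ?_
  by_contra hxF
  exact hx (by simp [hF x (by simpa using hxF)])

theorem fol1_cs {H : Type u} {f g : H → ℝ} (hf : fol1_fs f) (hg : fol1_fs g) :
    fol1_ip f g ^ 2 ≤ fol1_ip f f * fol1_ip g g := by
  classical
  obtain ⟨F, hF⟩ := hf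
  obtain ⟨G, hG⟩ := hg
  have hF' : ∀ x, x ∉ F ∪ G → f x = 0 := fun x hx =>
    hF x fun h => hx (Finset.mem_union_left _ h)
  have hG' : ∀ x, x ∉ F ∪ G → g x = 0 := fun x hx =>
    hG x fun h => hx (Finset.mem_union_right _ h)
  rw [fol1_ip_eq hF', fol1_ip_eq hF', fol1_ip_eq hG']
  have h := Finset.sum_mul_sq_le_sq_mul_sq (F ∪ G) f g
  simpa only [sq] using h

variable {H : Type u} [Group H] {S : Finset H}

theorem fol1_ip_shift (f g : H → ℝ) (s : H) :
    (∑ᶠ x, f (x * s) * g x) = ∑ᶠ x, f x * g (x * s⁻¹) := by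
  have h := finsum_comp_equiv (Equiv.mulRight s) (f := fun x => f x * g (x * s⁻¹))
  rw [← h]
  refine finsum_congr fun x => ?_
  simp

theorem fol1_fs_shift {f : H → ℝ} (hf : fol1_fs f) (s : H) : fol1_fs (fun x => f (x * s)) := by
  classical
  obtain ⟨F, hF⟩ := hf
  refine ⟨F.image (fun x => x * s⁻¹), fun x hx => hF _ fun h => hx ?_⟩
  exact Finset.mem_image.mpr ⟨x * s, h, by simp⟩

theorem fol1_fs_avg {f : H → ℝ} (hf : fol1_fs f) : fol1_fs (avg S f) := by
  classical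
  choose F hF using fun s : H => fol1_fs_shift hf s
  refine ⟨S.biUnion F, fun x hx => ?_⟩
  unfold avg
  have h0 : ∀ s ∈ S, f (x * s) = 0 := fun s hs =>
    hF s x fun h => hx (Finset.mem_biUnion.mpr ⟨s, hs, h⟩)
  rw [Finset.sum_eq_zero h0, mul_zero]

theorem fol1_fs_iter {f : H → ℝ} (hf : fol1_fs f) (n : ℕ) : fol1_fs ((avg S)^[n] f) := by
  induction n with
  | zero => exact hf
  | succ n ih => rw [Function.iterate_succ_apply']; exact fol1_fs_avg ih

theorem fol1_ip_avg_left {f : H → ℝ} (hf : fol1_fs f) (g : H → ℝ) :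
    fol1_ip (avg S f) g = (S.card : ℝ)⁻¹ * ∑ s ∈ S, ∑ᶠ x, f (x * s) * g x := by
  have h1 : ∀ s ∈ S, (Function.support fun x => f (x * s) * g x).Finite := fun s _ =>
    fol1_fs_support (fol1_fs_shift hf s)
  rw [← finsum_sum_comm S (fun x s => f (x * s) * g x) h1, mul_finsum]
  unfold fol1_ip avg
  refine finsum_congr fun x => ?_
  rw [mul_assoc, Finset.sum_mul]

theorem fol1_ip_avg_right {f : H → ℝ} (hf : fol1_fs f) (g : H → ℝ) :
    fol1_ip f (avg S g) = (S.card : ℝ)⁻¹ * ∑ s ∈ S, ∑ᶠ x, f x * g (x * s) := by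
  have h1 : ∀ s ∈ S, (Function.support fun x => f x * g (x * s)).Finite := fun s _ =>
    fol1_fs_support hf
  rw [← finsum_sum_comm S (fun x s => f x * g (x * s)) h1, mul_finsum]
  unfold fol1_ip avg
  refine finsum_congr fun x => ?_
  rw [← Finset.mul_sum]
  ring

theorem fol1_sum_inv (hS : ∀ s ∈ S, s⁻¹ ∈ S) (F : H → ℝ) :
    ∑ s ∈ S, F s⁻¹ = ∑ s ∈ S, F s := by
  refine Finset.sum_bij' (fun s _ => s⁻¹) (fun s _ => s⁻¹) (fun s hs => hS s hs)
    (fun s hs => hS s hs) (fun s _ => inv_inv s) (fun s _ => inv_inv s) (fun s _ => rfl)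

theorem fol1_ip_symm (hS : ∀ s ∈ S, s⁻¹ ∈ S) {f : H → ℝ} (hf : fol1_fs f) (g : H → ℝ) :
    fol1_ip (avg S f) g = fol1_ip f (avg S g) := by
  rw [fol1_ip_avg_left hf, fol1_ip_avg_right hf]
  congr 1
  simp only [fol1_ip_shift]
  exact fol1_sum_inv hS fun s => ∑ᶠ x, f x * g (x * s)

theorem fol1_ip_iter (hS : ∀ s ∈ S, s⁻¹ ∈ S) (m : ℕ) {f : H → ℝ} (hf : fol1_fs f)
    (g : H → ℝ) : fol1_ip ((avg S)^[m] f) g = fol1_ip f ((avg S)^[m] g) := by
  induction m generalizing f with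
  | zero => rfl
  | succ m ih =>
    rw [Function.iterate_succ_apply, ih (fol1_fs_avg hf), fol1_ip_symm hS hf,
      Function.iterate_succ_apply']

/-- log-convexity of the even return probabilities -/
theorem fol1_logconv (hS : ∀ s ∈ S, s⁻¹ ∈ S) {f : H → ℝ} (hf : fol1_fs f) (k : ℕ) :
    fol1_ip ((avg S)^[k + 1] f) ((avg S)^[k + 1] f) ^ 2 ≤
      fol1_ip ((avg S)^[k] f) ((avg S)^[k] f) *
        fol1_ip ((avg S)^[k + 2] f) ((avg S)^[k + 2] f) := by
  have h := fol1_cs (fol1_fs_iter (S := S) hf k) (fol1_fs_iter (S := S) hf (k + 2))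
  have e : fol1_ip ((avg S)^[k] f) ((avg S)^[k + 2] f) =
      fol1_ip ((avg S)^[k + 1] f) ((avg S)^[k + 1] f) := by
    have h1 := fol1_ip_symm hS (fol1_fs_iter (S := S) hf k) ((avg S)^[k + 1] f)
    rw [← Function.iterate_succ_apply' (avg S) k f,
      ← Function.iterate_succ_apply' (avg S) (k + 1) f] at h1
    exact h1.symm
  rwa [e] at h

theorem fol1_seq (N : ℕ → ℝ) (hN : ∀ k, N (k + 1) ^ 2 ≤ N k * N (k + 2)) (h0 : 0 < N 0)
    (q : ℝ) (hq : 0 < q) (h1 : q * N 0 ≤ N 1) (k : ℕ) : q ^ k * N 0 ≤ N k := by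
  have key : ∀ k, 0 < N k ∧ q * N k ≤ N (k + 1) := by
    intro k
    induction k with
    | zero => exact ⟨h0, h1⟩
    | succ k ih =>
      obtain ⟨i1, i2⟩ := ih
      have hp : 0 < N (k + 1) := lt_of_lt_of_le (mul_pos hq i1) i2
      refine ⟨hp, ?_⟩
      have h2 := hN k
      have h3 : q * N (k + 1) * N k ≤ N (k + 2) * N k := by
        calc q * N (k + 1) * N k = (q * N k) * N (k + 1) := by ring
          _ ≤ N (k + 1) * N (k + 1) := mul_le_mul_of_nonneg_right i2 hp.le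
          _ = N (k + 1) ^ 2 := by ring
          _ ≤ N k * N (k + 2) := h2
          _ = N (k + 2) * N k := by ring
      exact le_of_mul_le_mul_right h3 i1
  induction k with
  | zero => simp
  | succ k ih =>
    calc q ^ (k + 1) * N 0 = q * (q ^ k * N 0) := by ring
      _ ≤ q * N k := mul_le_mul_of_nonneg_left ih hq.le
      _ ≤ N (k + 1) := (key k).2

theorem fol1_exp {t : ℝ} (h0 : 0 ≤ t) (h1 : t ≤ 1 / 2) : Real.exp (-(2 * t)) ≤ 1 - t := by
  have h2 : 2 * t + 1 ≤ Real.exp (2 * t) := Real.add_one_le_exp _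
  have h3 : 0 < 2 * t + 1 := by linarith
  rw [Real.exp_neg]
  refine (inv_anti₀ h3 h2).trans ?_
  rw [inv_le_iff_one_le_mul₀ h3]
  nlinarith

/-- the Dirichlet form -/
theorem fol1_energy (hne : S.Nonempty) {f : H → ℝ} {E : Finset H}
    (hE : ∀ x, x ∉ E → f x = 0) {a : ℝ} (ha : ∀ x, ∀ s ∈ S, (f (x * s) - f x) ^ 2 ≤ a) :
    fol1_ip f f - fol1_ip (avg S f) f ≤ a * E.card := by
  classical
  have hf : fol1_fs f := ⟨E, hE⟩
  have hcard : (0 : ℝ) < S.card := by exact_mod_cast hne.card_pos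
  rw [fol1_ip_avg_left hf]
  have key : ∀ s ∈ S, fol1_ip f f - (∑ᶠ x, f (x * s) * f x) ≤ a * E.card := by
    intro s hs
    obtain ⟨G, hG⟩ : ∃ G : Finset H, G = E ∪ E.image (fun x => x * s⁻¹) := ⟨_, rfl⟩
    have hG1 : ∀ x, x ∉ G → f x = 0 := fun x hx =>
      hE x fun h => hx (hG ▸ Finset.mem_union_left _ h)
    have hG2 : ∀ x, x ∉ G → f (x * s) = 0 := fun x hx =>
      hE _ fun h => hx (hG ▸ Finset.mem_union_right _
        (Finset.mem_image.mpr ⟨x * s, h, by simp⟩))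
    have hGc : (G.card : ℝ) ≤ 2 * E.card := by
      have h1 : G.card ≤ E.card + E.card := by
        rw [hG]
        exact (Finset.card_union_le _ _).trans (Nat.add_le_add_left Finset.card_image_le _)
      have h2 : (G.card : ℝ) ≤ ((E.card + E.card : ℕ) : ℝ) := by exact_mod_cast h1
      push_cast at h2
      linarith
    have e1 : fol1_ip f f = ∑ x ∈ G, f x * f x := fol1_ip_eq hG1
    have e2 : fol1_ip f f = ∑ x ∈ G, f (x * s) * f (x * s) := by
      rw [← fol1_ip_eq (g := fun x => f (x * s)) (f := fun x => f (x * s)) hG2]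
      unfold fol1_ip
      exact (finsum_comp_equiv (Equiv.mulRight s) (f := fun x => f x * f x)).symm
    have e3 : (∑ᶠ x, f (x * s) * f x) = ∑ x ∈ G, f (x * s) * f x :=
      fol1_ip_eq (f := fun x => f (x * s)) hG2
    have e4 : 2 * (fol1_ip f f - (∑ᶠ x, f (x * s) * f x)) =
        ∑ x ∈ G, (f (x * s) - f x) ^ 2 := by
      have : ∑ x ∈ G, (f (x * s) - f x) ^ 2 = ∑ x ∈ G, f (x * s) * f (x * s) +
          ∑ x ∈ G, f x * f x - 2 * ∑ x ∈ G, f (x * s) * f x := by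
        rw [Finset.mul_sum, ← Finset.sum_add_distrib, ← Finset.sum_sub_distrib]
        exact Finset.sum_congr rfl fun x _ => by ring
      rw [this, ← e1, ← e2, ← e3]
      ring
    have h5 : ∑ x ∈ G, (f (x * s) - f x) ^ 2 ≤ G.card * a := by
      have := Finset.sum_le_card_nsmul G (fun x => (f (x * s) - f x) ^ 2) a
        (fun x _ => ha x s hs)
      simpa [nsmul_eq_mul] using this
    have ha0 : 0 ≤ a := (sq_nonneg _).trans (ha 1 s hs)
    have h6 : (G.card : ℝ) * a ≤ 2 * E.card * a := mul_le_mul_of_nonneg_right hGc ha0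
    linarith
  have h7 : ∑ s ∈ S, (fol1_ip f f - (∑ᶠ x, f (x * s) * f x)) ≤ S.card * (a * E.card) := by
    have := Finset.sum_le_card_nsmul S (fun s => fol1_ip f f - (∑ᶠ x, f (x * s) * f x)) _ key
    simpa [nsmul_eq_mul] using this
  rw [Finset.sum_sub_distrib, Finset.sum_const, nsmul_eq_mul] at h7
  have h8 := mul_le_mul_of_nonneg_left h7 (inv_nonneg.mpr hcard.le)
  have h9 : (S.card : ℝ)⁻¹ * (S.card * (a * E.card)) = a * E.card := by
    rw [← mul_assoc, inv_mul_cancel₀ hcard.ne', one_mul]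
  rw [h9, mul_sub, ← mul_assoc, inv_mul_cancel₀ hcard.ne', one_mul] at h8
  exact h8

/-- the upper bound for the return probabilities -/
theorem fol1_upper {f : H → ℝ} {E : Finset H} (hE : ∀ x, x ∉ E → f x = 0)
    (h0 : ∀ x, 0 ≤ f x) (h1 : ∀ x, f x ≤ 1) {R : ℝ}
    (hR : ∀ x ∈ E, ∀ y ∈ E, (len S (x⁻¹ * y) : ℝ) ≤ R) (n : ℕ) :
    fol1_ip f ((avg S)^[n] f) ≤ E.card * Ex S n (fun g => if (len S g : ℝ) ≤ R then 1 else 0) := by
  rw [fol1_ip_eq hE]
  have key : ∀ x ∈ E, f x * (avg S)^[n] f x ≤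
      Ex S n (fun g => if (len S g : ℝ) ≤ R then 1 else 0) := by
    intro x hx
    have e : (avg S)^[n] f x = Ex S n (fun g => f (x * g)) := by
      unfold Ex
      rw [Walk_left, mul_one]
    rw [e]
    have h2 : 0 ≤ Ex S n (fun g => f (x * g)) := Ex_nonneg n fun g => h0 _
    have h3 : f x * Ex S n (fun g => f (x * g)) ≤ 1 * Ex S n (fun g => f (x * g)) :=
      mul_le_mul_of_nonneg_right (h1 x) h2
    rw [one_mul] at h3
    refine h3.trans (Ex_mono n fun g => ?_)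
    by_cases hg : (len S g : ℝ) ≤ R
    · rw [if_pos hg]
      exact h1 _
    · rw [if_neg hg]
      refine (hE _ fun hxg => hg ?_).le
      have := hR x hx _ hxg
      rwa [inv_mul_cancel_left] at this
  have := Finset.sum_le_card_nsmul E _ _ key
  simpa [nsmul_eq_mul] using this

/-- the test function -/
theorem fol1_test (hS : SymGen S) {r : ℕ} (hr : 0 < r) {E' E : Finset H} (hne : E'.Nonempty)
    (h : ∀ x ∈ E', ∀ h : H, len S h ≤ r → x * h ∈ E) :
    ∃ f : H → ℝ, (∀ x, 0 ≤ f x) ∧ (∀ x, f x ≤ 1) ∧ (∀ x ∈ E', f x = 1) ∧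
      (∀ x, x ∉ E → f x = 0) ∧ ∀ x, ∀ s ∈ S, (f (x * s) - f x) ^ 2 ≤ ((r : ℝ) ^ 2)⁻¹ := by
  classical
  have hr' : (0 : ℝ) < r := by exact_mod_cast hr
  obtain ⟨d, hd⟩ : ∃ d : H → ℕ, d = fun x => E'.inf' hne (fun y => len S (y⁻¹ * x)) := ⟨_, rfl⟩
  have hd1 : ∀ x, ∀ y ∈ E', d x ≤ len S (y⁻¹ * x) := fun x y hy => by
    rw [hd]
    exact Finset.inf'_le (fun y => len S (y⁻¹ * x)) hy
  have hd2 : ∀ x, ∃ y ∈ E', d x = len S (y⁻¹ * x) := fun x => by
    rw [hd]
    exact Finset.exists_mem_eq_inf' hne (fun y => len S (y⁻¹ * x))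
  have hd3 : ∀ x, ∀ s ∈ S, d (x * s) ≤ d x + 1 := by
    intro x s hs
    obtain ⟨y, hy, e⟩ := hd2 x
    refine (hd1 _ y hy).trans ?_
    rw [← mul_assoc, e]
    exact (len_mul_le hS.gen _ _).trans (Nat.add_le_add_left (len_le_one hs) _)
  have hd4 : ∀ x, ∀ s ∈ S, d x ≤ d (x * s) + 1 := by
    intro x s hs
    have := hd3 (x * s) s⁻¹ (hS.inv s hs)
    rwa [mul_inv_cancel_right] at this
  refine ⟨fun x => max 0 (1 - d x / r), fun x => le_max_left _ _, fun x => ?_, fun x hx => ?_,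
    fun x hx => ?_, fun x s hs => ?_⟩
  · refine max_le zero_le_one ?_
    have : (0 : ℝ) ≤ d x / r := by positivity
    linarith
  · have h0 : d x = 0 := by
      have := hd1 x x hx
      rw [inv_mul_cancel, len_one] at this
      exact Nat.le_zero.mp this
    simp [h0]
  · have h1 : r < d x := by
      by_contra hlt
      obtain ⟨y, hy, e⟩ := hd2 x
      have h2 := h y hy (y⁻¹ * x) (by rw [← e]; exact not_lt.mp hlt)
      rw [mul_inv_cancel_left] at h2
      exact hx h2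
    refine max_eq_left ?_
    rw [sub_nonpos, one_le_div hr']
    exact_mod_cast h1.le
  · have h3 : (d (x * s) : ℝ) ≤ d x + 1 := by exact_mod_cast hd3 x s hs
    have h4 : (d x : ℝ) ≤ d (x * s) + 1 := by exact_mod_cast hd4 x s hs
    have h5 : |max 0 (1 - (d (x * s) : ℝ) / r) - max 0 (1 - (d x : ℝ) / r)| ≤ 1 / r := by
      rw [max_comm 0, max_comm 0]
      refine (abs_max_sub_max_le_abs _ _ _).trans ?_
      have e : 1 - (d (x * s) : ℝ) / r - (1 - d x / r) = (d x - d (x * s)) / r := by ring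
      rw [e, abs_div, abs_of_pos hr']
      refine div_le_div_of_nonneg_right ?_ hr'.le
      rw [abs_le]
      constructor <;> linarith
    have h6 := pow_le_pow_left₀ (abs_nonneg _) h5 2
    rw [sq_abs] at h6
    simpa using h6

/-- the lower bound for the return probabilities -/
theorem fol1_lower (hS : SymGen S) {f : H → ℝ} (hf : fol1_fs f) (h0 : 0 < fol1_ip f f)
    {t : ℝ} (ht0 : 0 ≤ t) (ht1 : t ≤ 1 / 2)
    (ht : fol1_ip f f - fol1_ip (avg S f) f ≤ t * fol1_ip f f) (k : ℕ) :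
    Real.exp (-(4 * t * k)) * fol1_ip f f ≤ fol1_ip f ((avg S)^[2 * k] f) := by
  have h1t : 0 < 1 - t := by linarith
  have e1 : fol1_ip f ((avg S)^[2 * k] f) = fol1_ip ((avg S)^[k] f) ((avg S)^[k] f) := by
    rw [fol1_ip_iter hS.inv k hf, ← Function.iterate_add_apply, two_mul]
  have h2 : (1 - t) * fol1_ip f f ≤ fol1_ip (avg S f) f := by linarith
  have h3 : fol1_ip (avg S f) f ^ 2 ≤ fol1_ip (avg S f) (avg S f) * fol1_ip f f :=
    fol1_cs (fol1_fs_avg hf) hf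
  have h4 : ((1 - t) * fol1_ip f f) ^ 2 ≤ fol1_ip (avg S f) f ^ 2 :=
    pow_le_pow_left₀ (mul_nonneg h1t.le h0.le) h2 2
  have h5 : (1 - t) ^ 2 * fol1_ip f f ≤ fol1_ip (avg S f) (avg S f) := by
    refine le_of_mul_le_mul_right ?_ h0
    calc (1 - t) ^ 2 * fol1_ip f f * fol1_ip f f = ((1 - t) * fol1_ip f f) ^ 2 := by ring
      _ ≤ _ := h4.trans h3
  have h6 := fol1_seq (fun k => fol1_ip ((avg S)^[k] f) ((avg S)^[k] f))
    (fun k => fol1_logconv hS.inv hf k) h0 ((1 - t) ^ 2) (by positivity) h5 k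
  rw [e1]
  refine le_trans (mul_le_mul_of_nonneg_right ?_ h0.le) h6
  have h7 : Real.exp (-(4 * t * k)) = (Real.exp (-(2 * t)) ^ 2) ^ k := by
    rw [← pow_mul, ← Real.exp_nat_mul]
    congr 1
    push_cast
    ring
  rw [h7]
  exact pow_le_pow_left₀ (by positivity)
    (pow_le_pow_left₀ (Real.exp_pos _).le (fol1_exp ht0 ht1) 2) k

theorem fol1_step (hS : SymGen S) {C : ℕ} {r : ℕ} (hr : 0 < r) (hrC : 2 * C ≤ r)
    {E' E : Finset H} (hne : E'.Nonempty)
    (h1 : ∀ x ∈ E', ∀ h : H, len S h ≤ r → x * h ∈ E)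
    (h2 : ∀ x ∈ E, ∀ y ∈ E, len S (x⁻¹ * y) ≤ C * (r + 1)) (h3 : E.card ≤ C * E'.card)
    (k : ℕ) :
    0 < C ∧ (C : ℝ)⁻¹ * Real.exp (-(4 * (C / (r : ℝ) ^ 2) * k)) ≤
      Ex S (2 * k) (fun g => if (len S g : ℝ) ≤ C * (r + 1) then 1 else 0) := by
  have hr' : (0 : ℝ) < r := by exact_mod_cast hr
  have hr1 : (1 : ℝ) ≤ r := by exact_mod_cast hr
  obtain ⟨f, f0, f1, f2, f3, f4⟩ := fol1_test hS hr hne h1
  have hf : fol1_fs f := ⟨E, f3⟩
  have hsub : E' ⊆ E := fun x hx => by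
    have := h1 x hx 1 (by rw [len_one]; exact Nat.zero_le _)
    rwa [mul_one] at this
  have hcE' : 0 < E'.card := hne.card_pos
  have hcE : 0 < E.card := lt_of_lt_of_le hcE' (Finset.card_le_card hsub)
  have hC : 0 < C := by
    rcases Nat.eq_zero_or_pos C with h | h
    · rw [h, zero_mul] at h3
      omega
    · exact h
  refine ⟨hC, ?_⟩
  have hC' : (0 : ℝ) < C := by exact_mod_cast hC
  have hcE'' : (0 : ℝ) < E.card := by exact_mod_cast hcE
  have hcE0 : (0 : ℝ) < E'.card := by exact_mod_cast hcE'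
  have h3' : (E.card : ℝ) ≤ C * E'.card := by exact_mod_cast h3
  have hlow : (E'.card : ℝ) ≤ fol1_ip f f := by
    rw [fol1_ip_eq f3]
    calc (E'.card : ℝ) = ∑ x ∈ E', f x * f x := by
          rw [Finset.sum_congr rfl (fun x hx => by rw [f2 x hx, one_mul])]
          simp
      _ ≤ ∑ x ∈ E, f x * f x :=
          Finset.sum_le_sum_of_subset_of_nonneg hsub fun x _ _ => mul_self_nonneg _
  have hpos : 0 < fol1_ip f f := lt_of_lt_of_le hcE0 hlow
  have hen := fol1_energy hS.ne f3 f4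
  have hen2 : fol1_ip f f - fol1_ip (avg S f) f ≤ (C / (r : ℝ) ^ 2) * fol1_ip f f := by
    refine hen.trans ?_
    calc ((r : ℝ) ^ 2)⁻¹ * E.card ≤ ((r : ℝ) ^ 2)⁻¹ * (C * fol1_ip f f) :=
          mul_le_mul_of_nonneg_left (h3'.trans (mul_le_mul_of_nonneg_left hlow hC'.le))
            (by positivity)
      _ = (C / (r : ℝ) ^ 2) * fol1_ip f f := by ring
  have ht1 : (C : ℝ) / (r : ℝ) ^ 2 ≤ 1 / 2 := by
    rw [div_le_div_iff₀ (by positivity) (by norm_num)]
    have h4 : (2 : ℝ) * C ≤ r := by exact_mod_cast hrC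
    nlinarith
  have hL := fol1_lower hS hf hpos (by positivity) ht1 hen2 k
  have hU := fol1_upper (S := S) (R := C * (r + 1)) f3 f0 f1
    (fun x hx y hy => by exact_mod_cast h2 x hx y hy) (2 * k)
  have h5 : Real.exp (-(4 * (C / (r : ℝ) ^ 2) * k)) * E'.card ≤
      E.card * Ex S (2 * k) (fun g => if (len S g : ℝ) ≤ C * (r + 1) then 1 else 0) :=
    (mul_le_mul_of_nonneg_left hlow (Real.exp_pos _).le).trans (hL.trans hU)
  set X := Ex S (2 * k) (fun g => if (len S g : ℝ) ≤ C * (r + 1) then 1 else 0) with hX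
  have hX0 : 0 ≤ X := Ex_nonneg _ fun g => by split_ifs <;> norm_num
  have h6 : Real.exp (-(4 * (C / (r : ℝ) ^ 2) * k)) * E'.card ≤ C * X * E'.card :=
    h5.trans ((mul_le_mul_of_nonneg_right h3' hX0).trans (le_of_eq (by ring)))
  have h7 := le_of_mul_le_mul_right h6 hcE0
  rw [inv_mul_le_iff₀ hC']
  exact h7

theorem cautious_of_folner (hS : SymGen S) (hF : Folner S) : Cautious S := by
  intro c hc
  obtain ⟨C, hC⟩ := hF
  obtain ⟨M, hM⟩ : ∃ M : ℝ, M = 4 * C * (4 * C ^ 2 / c ^ 2 + 1) := ⟨_, rfl⟩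
  obtain ⟨E₁', E₁, hne₁, h11, h12, h13⟩ := hC (2 * C + 1)
  obtain ⟨hC0, -⟩ := fol1_step hS (by omega) (by omega) hne₁ h11 h12 h13 0
  have hC' : (0 : ℝ) < C := by exact_mod_cast hC0
  have hC1 : (1 : ℝ) ≤ C := by exact_mod_cast hC0
  refine ⟨(C : ℝ)⁻¹ * Real.exp (-M), by positivity, ?_⟩
  rw [Filter.frequently_atTop]
  intro n0
  obtain ⟨r₀, hr₀⟩ := exists_nat_ge (c * (n0 + 1))
  obtain ⟨r, hr⟩ : ∃ r : ℕ, r = r₀ + 2 * C + 1 := ⟨_, rfl⟩
  obtain ⟨E', E, hne, h1, h2, h3⟩ := hC r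
  obtain ⟨k, hk⟩ : ∃ k : ℕ, k = ⌈(C * ((r : ℝ) + 1) / c) ^ 2⌉₊ := ⟨_, rfl⟩
  obtain ⟨-, h4⟩ := fol1_step hS (by omega) (by omega) hne h1 h2 h3 k
  have hr1 : (1 : ℝ) ≤ r := by
    have : 1 ≤ r := by omega
    exact_mod_cast this
  have hrr : c * (n0 + 1) ≤ r := by
    have : (r₀ : ℝ) ≤ r := by
      have : r₀ ≤ r := by omega
      exact_mod_cast this
    linarith
  have hk1 : (C * ((r : ℝ) + 1) / c) ^ 2 ≤ k := hk ▸ Nat.le_ceil _
  have hk2 : (k : ℝ) < (C * ((r : ℝ) + 1) / c) ^ 2 + 1 := hk ▸ Nat.ceil_lt_add_one (by positivity)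
  have h5 : (n0 : ℝ) + 1 ≤ C * ((r : ℝ) + 1) / c := by
    rw [le_div_iff₀ hc]
    nlinarith
  have h6 : (n0 : ℝ) ≤ k := by
    have : (0 : ℝ) ≤ n0 := Nat.cast_nonneg _
    nlinarith
  have h6' : n0 ≤ k := by exact_mod_cast h6
  refine ⟨2 * k, by omega, ?_⟩
  refine le_trans ?_ (h4.trans (Ex_mono _ fun g => ?_))
  · refine mul_le_mul_of_nonneg_left (Real.exp_le_exp.mpr ?_) (by positivity)
    rw [hM, neg_le_neg_iff]
    have h7 : (k : ℝ) ≤ (4 * C ^ 2 / c ^ 2 + 1) * (r : ℝ) ^ 2 := by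
      have h8 : (C * ((r : ℝ) + 1) / c) ^ 2 ≤ 4 * C ^ 2 / c ^ 2 * (r : ℝ) ^ 2 := by
        have h9 : C * ((r : ℝ) + 1) / c ≤ C * (2 * r) / c := by gcongr; linarith
        refine (pow_le_pow_left₀ (by positivity) h9 2).trans (le_of_eq ?_)
        ring
      nlinarith
    have h10 : 4 * ((C : ℝ) / (r : ℝ) ^ 2) * k ≤
        4 * ((C : ℝ) / (r : ℝ) ^ 2) * ((4 * C ^ 2 / c ^ 2 + 1) * (r : ℝ) ^ 2) :=
      mul_le_mul_of_nonneg_left h7 (by positivity)
    refine h10.trans (le_of_eq ?_)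
    field_simp
  · have h11 : (C : ℝ) * (r + 1) ≤ c * Real.sqrt ((2 * k : ℕ) : ℝ) := by
      have h12 : C * ((r : ℝ) + 1) / c ≤ Real.sqrt ((2 * k : ℕ) : ℝ) := by
        apply Real.le_sqrt_of_sq_le
        push_cast
        have : (0 : ℝ) ≤ k := Nat.cast_nonneg _
        linarith
      rw [div_le_iff₀ hc] at h12
      linarith
    by_cases hg : (len S g : ℝ) ≤ C * (r + 1)
    · rw [if_pos hg, if_pos (hg.trans h11)]
    · rw [if_neg hg]
      split_ifs <;> norm_num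

end Vale.Agent.P188.SG
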