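import Vale.Agent.P188.SG.Defs

/-! P188, Theorem S: the affine isometric action on a finite-dimensional invariant subspace. -/

universe u v w

open Filter Topology

namespace Vale.Agent.P188.SG

section Rep

variable {H : Type u} [Group H]
variable {V : Type v} [NormedAddCommGroup V] [InnerProductSpace ℝ V]

/-- the affine map `w ↦ π g w + c g` of `W` -/
def Isom_aff (π : H →* (V ≃ₗᵢ[ℝ] V)) (W : Submodule ℝ V) (hi : Inv π W) (c : H → V)
    (hcW : ∀ g, c g ∈ W) (g : H) (w : W) : W :=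
  ⟨π g w + c g, W.add_mem (hi g w w.2) (hcW g)⟩

theorem Isom_aff_mul (π : H →* (V ≃ₗᵢ[ℝ] V)) (W : Submodule ℝ V) (hi : Inv π W) (c : H → V)
    (hcW : ∀ g, c g ∈ W) (hc : IsCocycle π c) (g h : H) (w : W) :
    Isom_aff π W hi c hcW (g * h) w = Isom_aff π W hi c hcW g (Isom_aff π W hi c hcW h w) := by
  apply Subtype.ext
  show π (g * h) (w : V) + c (g * h) = π g (π h (w : V) + c h) + c g
  rw [hc g h, map_add, map_mul, LinearIsometryEquiv.coe_mul, Function.comp_apply]
  abel

theorem Isom_c_one (π : H →* (V ≃ₗᵢ[ℝ] V)) (c : H → V) (hc : IsCocycle π c) : c 1 = 0 := by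
  have h := hc 1 1
  rw [mul_one, map_one, LinearIsometryEquiv.coe_one, id] at h
  exact left_eq_add.1 h

theorem Isom_aff_one (π : H →* (V ≃ₗᵢ[ℝ] V)) (W : Submodule ℝ V) (hi : Inv π W) (c : H → V)
    (hcW : ∀ g, c g ∈ W) (hc : IsCocycle π c) (w : W) :
    Isom_aff π W hi c hcW 1 w = w := by
  apply Subtype.ext
  show π 1 (w : V) + c 1 = w
  rw [Isom_c_one π c hc, map_one, LinearIsometryEquiv.coe_one, id, add_zero]

theorem Isom_aff_isometry (π : H →* (V ≃ₗᵢ[ℝ] V)) (W : Submodule ℝ V) (hi : Inv π W) (c : H → V)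
    (hcW : ∀ g, c g ∈ W) (g : H) : Isometry (Isom_aff π W hi c hcW g) := by
  refine Isometry.of_dist_eq fun x y => ?_
  rw [Subtype.dist_eq, Subtype.dist_eq]
  show dist (π g (x : V) + c g) (π g (y : V) + c g) = dist (x : V) (y : V)
  rw [dist_add_right, LinearIsometryEquiv.dist_map]

/-- the affine isometric action on `W`, on a Euclidean space -/
theorem exists_isom [CompleteSpace V] (π : H →* (V ≃ₗᵢ[ℝ] V)) (W : Submodule ℝ V)
    (hW : FiniteDimensional ℝ W)
    (hi : Inv π W) (c : H → V) (hcW : ∀ g, c g ∈ W) (hc : IsCocycle π c) :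
    ∃ (d : ℕ) (ρ : H →* (EuclideanSpace ℝ (Fin d) ≃ᵢ EuclideanSpace ℝ (Fin d))),
      ∀ g ∈ ρ.ker, c g = 0 := by
  let e := (stdOrthonormalBasis ℝ W).repr
  let F : H → EuclideanSpace ℝ (Fin (Module.finrank ℝ W)) →
      EuclideanSpace ℝ (Fin (Module.finrank ℝ W)) :=
    fun g v => e (Isom_aff π W hi c hcW g (e.symm v))
  have hFmul : ∀ g h v, F (g * h) v = F g (F h v) := by
    intro g h v
    show e (Isom_aff π W hi c hcW (g * h) (e.symm v)) =
      e (Isom_aff π W hi c hcW g (e.symm (e (Isom_aff π W hi c hcW h (e.symm v)))))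
    rw [Isom_aff_mul π W hi c hcW hc, LinearIsometryEquiv.symm_apply_apply]
  have hFone : ∀ v, F 1 v = v := by
    intro v
    show e (Isom_aff π W hi c hcW 1 (e.symm v)) = v
    rw [Isom_aff_one π W hi c hcW hc, LinearIsometryEquiv.apply_symm_apply]
  have hFiso : ∀ g, Isometry (F g) := fun g =>
    e.isometry.comp ((Isom_aff_isometry π W hi c hcW g).comp e.symm.isometry)
  let ρ : H →* (EuclideanSpace ℝ (Fin (Module.finrank ℝ W)) ≃ᵢ
      EuclideanSpace ℝ (Fin (Module.finrank ℝ W))) :=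
    { toFun := fun g => IsometryEquiv.mk' (F g) (F g⁻¹)
        (fun v => by rw [← hFmul, mul_inv_cancel, hFone]) (hFiso g)
      map_one' := by
        ext1 v
        exact hFone v
      map_mul' := fun g h => by
        ext1 v
        exact hFmul g h v }
  have hρ : ∀ g v, ρ g v = F g v := fun g v => rfl
  refine ⟨Module.finrank ℝ W, ρ, fun g hg => ?_⟩
  have h1 : ρ g = 1 := hg
  have h2 : F g 0 = 0 := by
    rw [← hρ, h1]
    rfl
  have h3 : e (Isom_aff π W hi c hcW g (e.symm 0)) = 0 := h2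
  rw [map_zero, LinearIsometryEquiv.map_eq_zero_iff] at h3
  have h4 : ((Isom_aff π W hi c hcW g 0 : W) : V) = 0 := by rw [h3]; rfl
  have h5 : ((Isom_aff π W hi c hcW g 0 : W) : V) = π g 0 + c g := rfl
  rw [h5, map_zero, zero_add] at h4
  exact h4

end Rep

end Vale.Agent.P188.SG
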