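import Vale.Agent.P188.SG.FD
import Vale.Agent.P188.SG.Isom
import Vale.Agent.P188.SG.Defs2

/-!
P188, Theorem S+: harmonic cocycles take values in the closed span of the finite-dimensional
invariant subspaces.
-/

universe u v

open Filter Topology

namespace Vale.Agent.P188.SG

section Rep

variable {H : Type u} [Group H] {S : Finset H}
variable {V : Type v} [NormedAddCommGroup V] [InnerProductSpace ℝ V] [CompleteSpace V]

theorem harmonic_mem_fdSpan (hS : SymGen S) (hc : Cautious S) (π : H →* (V ≃ₗᵢ[ℝ] V))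
    (c : H → V) (hb : IsCocycle π c) (hh : ∑ s ∈ S, c s = 0) : ∀ g, c g ∈ fdSpan π := by
  intro g
  have hUi : Inv π (fdSpan π) := fd_inv_closure π
  have : CompleteSpace (fdSpan π) := (Submodule.isClosed_topologicalClosure _).completeSpace_coe
  have h0 := harmonic_eq_zero hS hc π (fun g => c g - (fdSpan π).starProjection (c g)) ?_ ?_ ?_ g
  · rw [← Submodule.starProjection_eq_self_iff]
    exact (sub_eq_zero.1 h0).symm
  · intro g k
    show c (g * k) - (fdSpan π).starProjection (c (g * k)) = _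
    rw [hb g k, map_add, fd_proj_comm π (fdSpan π) hUi, map_sub]
    exact add_sub_add_comm _ _ _ _
  · rw [Finset.sum_sub_distrib, ← map_sum, hh, map_zero, sub_zero]
  · intro s _ W hW hWi w hw
    have hwU : w ∈ fdSpan π := (Submodule.le_topologicalClosure _)
      ((le_sSup (⟨hW, hWi⟩ : W ∈ fdSet π) : W ≤ sSup (fdSet π)) hw)
    rw [real_inner_comm]
    exact (fdSpan π).starProjection_inner_eq_zero (c s) w hwU

theorem cocycle_norm_le (hS : SymGen S) (π : H →* (V ≃ₗᵢ[ℝ] V)) (c : H → V)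
    (hb : IsCocycle π c) : ∃ L : ℝ, 0 ≤ L ∧ ∀ g, ‖c g‖ ≤ L * len S g := by
  have h0 : 0 ≤ ∑ s ∈ S, ‖c s‖ := Finset.sum_nonneg fun s _ => norm_nonneg _
  exact ⟨∑ s ∈ S, ‖c s‖, h0, fun g => fd_norm_le_len hS π c hb h0
    (fun s hs => Finset.single_le_sum (f := fun s => ‖c s‖) (fun s _ => norm_nonneg _) hs) g⟩

theorem exists_isom' (π : H →* (V ≃ₗᵢ[ℝ] V)) (W : Submodule ℝ V) (hW : FiniteDimensional ℝ W)
    (hi : Inv π W) (c : H → V) (hcW : ∀ g, c g ∈ W) (hc : IsCocycle π c) :
    ∃ (ρ : H →* (EuclideanSpace ℝ (Fin (Module.finrank ℝ W)) ≃ᵢ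
        EuclideanSpace ℝ (Fin (Module.finrank ℝ W)))),
      ∀ g ∈ ρ.ker, c g = 0 := by
  let e := (stdOrthonormalBasis ℝ W).repr
  let F : H → EuclideanSpace ℝ (Fin (Module.finrank ℝ W)) →
      EuclideanSpace ℝ (Fin (Module.finrank ℝ W)) :=
    fun g v => e (Isom_aff π W hi c hcW g (e.symm v))
  have hFmul : ∀ g h v, F (g * h) v = F g (F h v) := by
    intro g h v
    show e (Isom_aff π W hi c hcW (g * h) (e.symm v)) =
      e (Isom_aff π W hi c hcW g (e.symm (e (Isom_aff π W hi c hcW h (e.symm v)))))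
    rw [Isom_aff_mul π W hi c hcW hc, LinearIsometryEquiv.symm_apply_apply]
  have hFone : ∀ v, F 1 v = v := by
    intro v
    show e (Isom_aff π W hi c hcW 1 (e.symm v)) = v
    rw [Isom_aff_one π W hi c hcW hc, LinearIsometryEquiv.apply_symm_apply]
  have hFiso : ∀ g, Isometry (F g) := fun g =>
    e.isometry.comp ((Isom_aff_isometry π W hi c hcW g).comp e.symm.isometry)
  let ρ : H →* (EuclideanSpace ℝ (Fin (Module.finrank ℝ W)) ≃ᵢ
      EuclideanSpace ℝ (Fin (Module.finrank ℝ W))) :=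
    { toFun := fun g => IsometryEquiv.mk' (F g) (F g⁻¹)
        (fun v => by rw [← hFmul, mul_inv_cancel, hFone]) (hFiso g)
      map_one' := by
        ext1 v
        exact hFone v
      map_mul' := fun g h => by
        ext1 v
        exact hFmul g h v }
  have hρ : ∀ g v, ρ g v = F g v := fun g v => rfl
  refine ⟨ρ, fun g hg => ?_⟩
  have h1 : ρ g = 1 := hg
  have h2 : F g 0 = 0 := by
    rw [← hρ, h1]
    rfl
  have h3 : e (Isom_aff π W hi c hcW g (e.symm 0)) = 0 := h2
  rw [map_zero, LinearIsometryEquiv.map_eq_zero_iff] at h3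
  have h4 : ((Isom_aff π W hi c hcW g 0 : W) : V) = 0 := by rw [h3]; rfl
  have h5 : ((Isom_aff π W hi c hcW g 0 : W) : V) = π g 0 + c g := rfl
  rw [h5, map_zero, zero_add] at h4
  exact h4

end Rep

end Vale.Agent.P188.SG
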