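import Vale.Agent.P188.SG.NoInd1

/-!
P188, Theorem S+: composition of a right-invariant mean with a map of finite displacement whose
fibres have at most `M` elements.
-/

universe u v w

open Filter Topology Pointwise

namespace Vale.Agent.P188.SG

theorem MeanComp_finite {H : Type u} [Group H] (τ : H → H) (R : Finset H)
    (hR : ∀ y, y⁻¹ * τ y ∈ R) (x : H) : {y | τ y = x}.Finite := by
  refine (R.finite_toSet.image fun h => x * h⁻¹).subset ?_
  intro y hy
  refine ⟨y⁻¹ * τ y, hR y, ?_⟩
  have hy' : τ y = x := hy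
  simp only [hy']
  group

theorem MeanComp_card {H : Type u} [Group H] [DecidableEq H] (τ : H → H) (R : Finset H)
    (hR : ∀ y, y⁻¹ * τ y ∈ R) (M : ℕ) (hM : ∀ x, {y | τ y = x}.ncard ≤ M) (x : H) :
    (R.filter fun h => τ (x * h⁻¹) = x).card ≤ M := by
  refine le_trans ?_ (hM x)
  rw [← Set.ncard_coe_finset]
  refine Set.ncard_le_ncard_of_injOn (fun h => x * h⁻¹) ?_ ?_ (MeanComp_finite τ R hR x)
  · intro h hh
    exact (Finset.mem_filter.mp (Finset.mem_coe.mp hh)).2
  · intro a _ b _ hab
    simpa using hab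

/-- a right-invariant mean and a map of finite displacement with fibres of at most `M` elements -/
theorem mean_comp_le {H : Type u} [Group H] (μ : (H → ℝ) → ℝ) (hμ : IsMean μ)
    (hinv : ∀ (g : H) (f : H → ℝ), Bdd f → μ (fun x => f (x * g)) = μ f)
    (τ : H → H) (R : Finset H) (hR : ∀ y, y⁻¹ * τ y ∈ R) (M : ℕ)
    (hM : ∀ x, {y | τ y = x}.ncard ≤ M) (φ : H → ℝ) (hφ : Bdd φ) (h0 : ∀ y, 0 ≤ φ y) :
    μ (fun y => φ (τ y)) ≤ M * μ φ := by
  classical
  have hFb : ∀ h : H, Bdd (fun y => if τ y = y * h then φ (y * h) else 0) := by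
    intro h
    obtain ⟨C, hC⟩ := hφ
    refine ⟨|C|, fun y => ?_⟩
    by_cases hy : τ y = y * h
    · simp only [if_pos hy]
      exact (hC _).trans (le_abs_self C)
    · simp only [if_neg hy, abs_zero]
      exact abs_nonneg C
  have hGb : ∀ h : H, Bdd (fun x => if τ (x * h⁻¹) = x then φ x else 0) := by
    intro h
    obtain ⟨C, hC⟩ := hφ
    refine ⟨|C|, fun y => ?_⟩
    by_cases hy : τ (y * h⁻¹) = y
    · simp only [if_pos hy]
      exact (hC _).trans (le_abs_self C)
    · simp only [if_neg hy, abs_zero]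
      exact abs_nonneg C
  have h1 : (fun y => φ (τ y)) =
      fun y => ∑ h ∈ R, (if τ y = y * h then φ (y * h) else 0) := by
    funext y
    rw [Finset.sum_eq_single (y⁻¹ * τ y)]
    · simp
    · intro h _ hne
      rw [if_neg]
      intro hy
      apply hne
      rw [hy]
      group
    · intro hy
      exact absurd (hR y) hy
  have h2 : ∀ h ∈ R, μ (fun y => if τ y = y * h then φ (y * h) else 0) =
      μ (fun x => if τ (x * h⁻¹) = x then φ x else 0) := by
    intro h _
    rw [← hinv h⁻¹ _ (hFb h)]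
    simp only [inv_mul_cancel_right]
  rw [h1, NoInd1_mean_sum hμ R (fun h y => if τ y = y * h then φ (y * h) else 0)
    (fun h _ => hFb h), Finset.sum_congr rfl h2,
    ← NoInd1_mean_sum hμ R (fun h x => if τ (x * h⁻¹) = x then φ x else 0) (fun h _ => hGb h),
    ← hμ.smul _ _ hφ]
  refine hμ.le (NoInd1_bdd_sum R _ fun h _ => hGb h) (hφ.const_mul _) fun x => ?_
  rw [← Finset.sum_filter, Finset.sum_const, nsmul_eq_mul]
  exact mul_le_mul_of_nonneg_right (by exact_mod_cast MeanComp_card τ R hR M hM x) (h0 x)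

end Vale.Agent.P188.SG
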