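import Vale.Agent.P188.SG.Len
import Vale.Agent.P188.SG.Digits
import Vale.Agent.P188.SG.Dominant

/-! P188, Theorem S: semidirect products. -/

universe u v w

open Filter Topology Pointwise

namespace Vale.Agent.P188.SG

section Semi

theorem semi_closure_single (d : ℕ) :
    Subgroup.closure (Set.range fun i : Fin d =>
      (Multiplicative.ofAdd (Pi.single i (1 : ℤ) : Fin d → ℤ))) = ⊤ := by
  rw [eq_top_iff]
  intro x _
  have h1 : x = ∏ i, (Multiplicative.ofAdd (Pi.single i (1 : ℤ) : Fin d → ℤ)) ^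
      (Multiplicative.toAdd x i) := by
    apply Multiplicative.toAdd.injective
    rw [toAdd_prod]
    funext j
    simp [Finset.sum_apply, Pi.single_apply]
  rw [h1]
  exact Subgroup.prod_mem _ fun i _ =>
    Subgroup.zpow_mem _ (Subgroup.subset_closure (Set.mem_range_self i)) _

variable {H : Type u} [Group H] {S : Finset H}

theorem semi_len_pow (hS : Subgroup.closure (S : Set H) = ⊤) (g : H) (n : ℕ) :
    len S (g ^ n) ≤ n * len S g := by
  induction n with
  | zero => rw [pow_zero, len_one]; exact Nat.zero_le _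
  | succ n ih =>
    rw [pow_succ, Nat.add_mul, one_mul]
    exact (len_mul_le hS _ _).trans (Nat.add_le_add_right ih _)

theorem semi_len_zpow (hS : Subgroup.closure (S : Set H) = ⊤) (g : H) (z : ℤ) :
    len S (g ^ z) ≤ z.natAbs * len S g := by
  obtain ⟨n, rfl | rfl⟩ := z.eq_nat_or_neg
  · rw [zpow_natCast, Int.natAbs_natCast]
    exact semi_len_pow hS g n
  · rw [zpow_neg, zpow_natCast, len_inv hS, Int.natAbs_neg, Int.natAbs_natCast]
    exact semi_len_pow hS g n

/-- lengths of the elements of an abelian subgroup -/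
theorem semi_len_vec (hS : Subgroup.closure (S : Set H) = ⊤) {d : ℕ}
    (f : Multiplicative (Fin d → ℤ) →* H)
    (hf : ∀ i, f (Multiplicative.ofAdd (Pi.single i (1 : ℤ) : Fin d → ℤ)) ∈ S)
    (C : ℕ) (c : Fin d → ℤ) (hc : ∀ i, |c i| ≤ C) :
    len S (f (Multiplicative.ofAdd c)) ≤ d * C := by
  have h1 : Multiplicative.ofAdd c =
      ∏ i, (Multiplicative.ofAdd (Pi.single i (1 : ℤ) : Fin d → ℤ)) ^ (c i) := by
    apply Multiplicative.toAdd.injective
    rw [toAdd_prod]
    funext j
    simp [Finset.sum_apply, Pi.single_apply]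
  have h2 : ∀ s : Finset (Fin d), len S (f (∏ i ∈ s,
      (Multiplicative.ofAdd (Pi.single i (1 : ℤ) : Fin d → ℤ)) ^ (c i))) ≤ s.card * C := by
    intro s
    induction s using Finset.induction_on with
    | empty => rw [Finset.prod_empty, map_one, len_one]; exact Nat.zero_le _
    | insert a s ha ih =>
      rw [Finset.prod_insert ha, map_mul, Finset.card_insert_of_notMem ha, Nat.add_mul, one_mul,
        add_comm]
      refine (len_mul_le hS _ _).trans (Nat.add_le_add ?_ ih)
      rw [map_zpow]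
      refine (semi_len_zpow hS _ _).trans ?_
      have h3 := len_le_one (hf a)
      have h4 : (c a).natAbs ≤ C := by
        have := hc a
        rw [Int.abs_eq_natAbs] at this
        exact_mod_cast this
      calc (c a).natAbs * len S (f (Multiplicative.ofAdd (Pi.single a (1 : ℤ) : Fin d → ℤ)))
          ≤ C * 1 := Nat.mul_le_mul h4 h3
        _ = C := mul_one C
  rw [h1]
  refine (h2 _).trans ?_
  rw [Finset.card_univ, Fintype.card_fin]

/-- words in the unit vectors -/
theorem semi_list_bound {d : ℕ} (f : Multiplicative (Fin d → ℤ) →* H) (l : List H)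
    (hl : ∀ a ∈ l, (∃ i, a = f (Multiplicative.ofAdd (Pi.single i (1 : ℤ) : Fin d → ℤ))) ∨
      ∃ i, a⁻¹ = f (Multiplicative.ofAdd (Pi.single i (1 : ℤ) : Fin d → ℤ))) :
    ∃ v : Fin d → ℤ, l.prod = f (Multiplicative.ofAdd v) ∧ ∀ i, |v i| ≤ l.length := by
  induction l with
  | nil => exact ⟨0, by simp, by simp⟩
  | cons a l ih =>
    obtain ⟨v, hv1, hv2⟩ := ih fun b hb => hl b (List.mem_cons_of_mem _ hb)
    have h1 : ∀ j i : Fin d, |(Pi.single j (1 : ℤ) : Fin d → ℤ) i| ≤ 1 := by
      intro j i
      rw [Pi.single_apply]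
      split_ifs <;> simp
    rcases hl a List.mem_cons_self with ⟨j, hj⟩ | ⟨j, hj⟩
    · refine ⟨Pi.single j 1 + v, ?_, fun i => ?_⟩
      · rw [List.prod_cons, hv1, hj, ← map_mul, ← ofAdd_add]
      · rw [List.length_cons, Pi.add_apply]
        refine (abs_add_le _ _).trans ?_
        push_cast
        have := h1 j i
        have := hv2 i
        linarith
    · refine ⟨-Pi.single j 1 + v, ?_, fun i => ?_⟩
      · have h2 : a = f (Multiplicative.ofAdd (-Pi.single j (1 : ℤ) : Fin d → ℤ)) := by
          rw [ofAdd_neg, map_inv, ← hj, inv_inv]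
        rw [List.prod_cons, hv1, h2, ← map_mul, ← ofAdd_add]
      · rw [List.length_cons, Pi.add_apply, Pi.neg_apply]
        refine (abs_add_le _ _).trans ?_
        rw [abs_neg]
        push_cast
        have := h1 j i
        have := hv2 i
        linarith

end Semi

theorem expExt_semidirect {d k : ℕ}
    (φ : Multiplicative (Fin k → ℤ) →* MulAut (Multiplicative (Fin d → ℤ)))
    (z₀ : Multiplicative (Fin k → ℤ)) (M : Matrix (Fin d) (Fin d) ℤ)
    (hM : ∀ v : Fin d → ℤ, φ z₀ (Multiplicative.ofAdd v) = Multiplicative.ofAdd (M.mulVec v))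
    (hyp : ∀ μ : ℂ, (M.map (Int.castRingHom ℂ)).charpoly.IsRoot μ → ‖μ‖ ≠ 1) :
    ∃ A T : Finset (Multiplicative (Fin d → ℤ) ⋊[φ] Multiplicative (Fin k → ℤ)),
      ExpExt (SemidirectProduct.rightHom :
        (Multiplicative (Fin d → ℤ) ⋊[φ] Multiplicative (Fin k → ℤ)) →*
          Multiplicative (Fin k → ℤ)) A T := by
  classical
  let G := Multiplicative (Fin d → ℤ) ⋊[φ] Multiplicative (Fin k → ℤ)
  let eA : Fin d → G := fun i => SemidirectProduct.inl (Multiplicative.ofAdd (Pi.single i (1 : ℤ)))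
  let eT : Fin k → G := fun i => SemidirectProduct.inr (Multiplicative.ofAdd (Pi.single i (1 : ℤ)))
  let A : Finset G := Finset.univ.image eA
  let T : Finset G := A ∪ Finset.univ.image eT
  have hAset : (A : Set G) = (SemidirectProduct.inl : Multiplicative (Fin d → ℤ) →* G) ''
      Set.range fun i : Fin d => (Multiplicative.ofAdd (Pi.single i (1 : ℤ) : Fin d → ℤ)) := by
    rw [Finset.coe_image, Finset.coe_univ, Set.image_univ, ← Set.range_comp]
    rfl
  have hclA : Subgroup.closure (A : Set G) =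
      (SemidirectProduct.inl : Multiplicative (Fin d → ℤ) →* G).range := by
    rw [hAset, ← MonoidHom.map_closure, semi_closure_single, ← MonoidHom.range_eq_map]
  have hker : (SemidirectProduct.inl : Multiplicative (Fin d → ℤ) →* G).range =
      (SemidirectProduct.rightHom : G →* Multiplicative (Fin k → ℤ)).ker :=
    SemidirectProduct.range_inl_eq_ker_rightHom
  have hclT : Subgroup.closure (T : Set G) = ⊤ := by
    rw [eq_top_iff]
    intro g _
    have h1 : (SemidirectProduct.inl g.left : G) ∈ Subgroup.closure (T : Set G) := by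
      have h2 : (SemidirectProduct.inl g.left : G) ∈ Subgroup.closure (A : Set G) := by
        rw [hclA]; exact ⟨_, rfl⟩
      refine Subgroup.closure_mono ?_ h2
      intro x hx
      exact Finset.mem_coe.mpr (Finset.mem_union_left _ hx)
    have h3 : (SemidirectProduct.inr g.right : G) ∈ Subgroup.closure (T : Set G) := by
      have h4 : (SemidirectProduct.inr g.right : G) ∈ Subgroup.closure
          ((SemidirectProduct.inr : Multiplicative (Fin k → ℤ) →* G) ''
            Set.range fun i : Fin k => (Multiplicative.ofAdd (Pi.single i (1 : ℤ) : Fin k → ℤ))) := by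
        rw [← MonoidHom.map_closure, semi_closure_single, ← MonoidHom.range_eq_map]
        exact ⟨_, rfl⟩
      refine Subgroup.closure_mono ?_ h4
      rintro x ⟨y, ⟨i, rfl⟩, rfl⟩
      exact Finset.mem_coe.mpr (Finset.mem_union_right _
        (Finset.mem_image.mpr ⟨i, Finset.mem_univ _, rfl⟩))
    have h5 := Subgroup.mul_mem _ h1 h3
    rwa [SemidirectProduct.inl_left_mul_inr_right] at h5
  -- lengths in the kernel
  have hlenA : ∀ x : G, x ∈ (SemidirectProduct.rightHom : G →* Multiplicative (Fin k → ℤ)).ker →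
      ∃ v : Fin d → ℤ, x = SemidirectProduct.inl (Multiplicative.ofAdd v) ∧
        ∀ i, |v i| ≤ len A x := by
    intro x hx
    rw [← hker, ← hclA] at hx
    have hx' : x ∈ (Subgroup.closure (A : Set G)).toSubmonoid := hx
    rw [Subgroup.closure_toSubmonoid] at hx'
    obtain ⟨l, hl1, hl2⟩ := Submonoid.exists_list_of_mem_closure hx'
    have h1 : {n : ℕ | ∃ l : List G, l.length = n ∧ (∀ a ∈ l, a ∈ (A : Set G) ∨ a⁻¹ ∈ (A : Set G)) ∧
        l.prod = (1 : G)⁻¹ * x}.Nonempty :=
      ⟨l.length, l, rfl, fun a ha => hl1 a ha, by rw [inv_one, one_mul, hl2]⟩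
    obtain ⟨l', h2, h3, h4⟩ := Nat.sInf_mem h1
    obtain ⟨v, h5, h6⟩ := semi_list_bound
      (SemidirectProduct.inl : Multiplicative (Fin d → ℤ) →* G) l' (by
        intro a ha
        rcases h3 a ha with h | h
        · left
          obtain ⟨i, -, hi⟩ := Finset.mem_image.mp (Finset.mem_coe.mp h)
          exact ⟨i, hi.symm⟩
        · right
          obtain ⟨i, -, hi⟩ := Finset.mem_image.mp (Finset.mem_coe.mp h)
          exact ⟨i, hi.symm⟩)
    refine ⟨v, ?_, fun i => ?_⟩
    · rw [← h5, h4, inv_one, one_mul]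
    · have h7 : (l'.length : ℤ) = len A x := by
        rw [h2]; rfl
      rw [← h7]
      exact h6 i
  refine ⟨A, T, ⟨SemidirectProduct.rightHom_surjective, hclA.trans hker, hclT, ⟨2 ^ d, d, ?_⟩, ?_⟩⟩
  · intro n
    have h1 : {x : G | x ∈ (SemidirectProduct.rightHom : G →* Multiplicative (Fin k → ℤ)).ker ∧
        len A x ≤ n} ⊆ (((Fintype.piFinset fun _ : Fin d => Finset.Icc (-(n : ℤ)) n).image
          fun v => (SemidirectProduct.inl (Multiplicative.ofAdd v) : G) : Finset G) : Set G) := by
      rintro x ⟨hx1, hx2⟩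
      obtain ⟨v, hv1, hv2⟩ := hlenA x hx1
      rw [Finset.mem_coe, Finset.mem_image]
      refine ⟨v, ?_, hv1.symm⟩
      rw [Fintype.mem_piFinset]
      intro i
      have h2 := abs_le.mp (hv2 i)
      have h3 : (len A x : ℤ) ≤ n := by exact_mod_cast hx2
      rw [Finset.mem_Icc]
      constructor <;> linarith [h2.1, h2.2]
    refine (Set.ncard_le_ncard h1 (Finset.finite_toSet _)).trans ?_
    rw [Set.ncard_coe_finset]
    refine Finset.card_image_le.trans ?_
    rw [Fintype.card_piFinset_const, Int.card_Icc, ← mul_pow]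
    refine Nat.pow_le_pow_left ?_ d
    omega
  · -- distortion
    obtain ⟨N, hN, q, j, hq, hj⟩ := exists_dominant M hyp
    -- the inverse matrix
    let ψ : (Fin d → ℤ) →+ (Fin d → ℤ) :=
      { toFun := fun v => Multiplicative.toAdd (φ z₀⁻¹ (Multiplicative.ofAdd v))
        map_zero' := by simp
        map_add' := fun v w => by simp }
    let M' : Matrix (Fin d) (Fin d) ℤ := LinearMap.toMatrix' ψ.toIntLinearMap
    have hM' : ∀ v : Fin d → ℤ, φ z₀⁻¹ (Multiplicative.ofAdd v) =
        Multiplicative.ofAdd (M'.mulVec v) := by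
      intro v
      have : M'.mulVec v = ψ v := by
        change (LinearMap.toMatrix' ψ.toIntLinearMap).mulVec v = ψ v
        rw [LinearMap.toMatrix'_mulVec]
        rfl
      rw [this]
      rfl
    have hMM' : M * M' = 1 := by
      apply Matrix.mulVec_injective
      funext v
      have h1 : φ z₀ (φ z₀⁻¹ (Multiplicative.ofAdd v)) = Multiplicative.ofAdd v := by
        rw [← MulAut.mul_apply, ← map_mul, mul_inv_cancel, map_one, MulAut.one_apply]
      rw [hM', hM] at h1
      rw [← Matrix.mulVec_mulVec, Matrix.one_mulVec]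
      exact Multiplicative.ofAdd.injective h1
    have hM'M : M' * M = 1 := by
      apply Matrix.mulVec_injective
      funext v
      have h1 : φ z₀⁻¹ (φ z₀ (Multiplicative.ofAdd v)) = Multiplicative.ofAdd v := by
        rw [← MulAut.mul_apply, ← map_mul, inv_mul_cancel, map_one, MulAut.one_apply]
      rw [hM, hM'] at h1
      rw [← Matrix.mulVec_mulVec, Matrix.one_mulVec]
      exact Multiplicative.ofAdd.injective h1
    have hcomm : Commute M M' := by rw [Commute, SemiconjBy, hMM', hM'M]
    have hP1 : M ^ N * M' ^ N = 1 := by rw [← hcomm.mul_pow, hMM', one_pow]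
    have hP2 : M' ^ N * M ^ N = 1 := by rw [← hcomm.symm.mul_pow, hM'M, one_pow]
    obtain ⟨C, hC⟩ := digits (M ^ N) (M' ^ N) hP1 hP2 q hq j hj
    have hpow : ∀ (n : ℕ) (v : Fin d → ℤ), φ (z₀ ^ n) (Multiplicative.ofAdd v) =
        Multiplicative.ofAdd ((M ^ n).mulVec v) := by
      intro n
      induction n with
      | zero => intro v; simp
      | succ n ih =>
        intro v
        rw [pow_succ, map_mul, MulAut.mul_apply, hM, ih, Matrix.mulVec_mulVec, ← pow_succ]
    let t : G := SemidirectProduct.inr (z₀ ^ N)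
    have htpow : ∀ (l : ℕ) (v : Fin d → ℤ),
        t ^ l * (SemidirectProduct.inl (Multiplicative.ofAdd v) : G) =
        SemidirectProduct.inl (Multiplicative.ofAdd (((M ^ N) ^ l).mulVec v)) * t ^ l := by
      intro l v
      have h1 : t ^ l = SemidirectProduct.inr (z₀ ^ (N * l)) := by
        change (SemidirectProduct.inr (z₀ ^ N) : G) ^ l = _
        rw [← map_pow, ← pow_mul]
      rw [h1, ← pow_mul, ← hpow, SemidirectProduct.inl_aut, map_inv, inv_mul_cancel_right]
    set τ := len T t with hτ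
    have hTA : ∀ i, (SemidirectProduct.inl (Multiplicative.ofAdd
        (Pi.single i (1 : ℤ) : Fin d → ℤ)) : G) ∈ T := fun i =>
      Finset.mem_union_left _ (Finset.mem_image.mpr ⟨i, Finset.mem_univ _, rfl⟩)
    have hword : ∀ (c : ℕ → Fin d → ℤ), (∀ l i, |c l i| ≤ C) → ∀ K : ℕ,
        len T ((SemidirectProduct.inl (Multiplicative.ofAdd
          (∑ l ∈ Finset.range K, ((M ^ N) ^ l).mulVec (c l))) : G) * t ^ K) ≤
          K * (d * C + τ) := by
      intro c hc K
      induction K with
      | zero =>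
        rw [Finset.range_zero, Finset.sum_empty, ofAdd_zero, map_one, pow_zero, one_mul, len_one]
        exact Nat.zero_le _
      | succ K ih =>
        have h1 : (SemidirectProduct.inl (Multiplicative.ofAdd
            (∑ l ∈ Finset.range (K + 1), ((M ^ N) ^ l).mulVec (c l))) : G) * t ^ (K + 1) =
            ((SemidirectProduct.inl (Multiplicative.ofAdd
              (∑ l ∈ Finset.range K, ((M ^ N) ^ l).mulVec (c l))) : G) * t ^ K) *
              (SemidirectProduct.inl (Multiplicative.ofAdd (c K)) * t) := by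
          rw [Finset.sum_range_succ, ofAdd_add, map_mul, pow_succ, mul_assoc, mul_assoc,
            ← mul_assoc _ (t ^ K) t, ← mul_assoc (t ^ K) _ t, htpow]
        rw [h1, Nat.add_mul, one_mul]
        refine (len_mul_le hclT _ _).trans (Nat.add_le_add ih ?_)
        refine (len_mul_le hclT _ _).trans (Nat.add_le_add_right ?_ _)
        exact semi_len_vec hclT SemidirectProduct.inl hTA C (c K) (hc K)
    refine ⟨2 * ((C + 1) * (4 * τ + 2 * (d * C)) : ℕ), fun x hx => ?_⟩
    obtain ⟨v, hv1, hv2⟩ := hlenA x hx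
    set m := len A x with hm
    have hmn : (m : ℤ) ≤ 2 ^ (Nat.log 2 (m + 1) + 1) := by
      have h1 : m + 1 < 2 ^ (Nat.log 2 (m + 1) + 1) :=
        Nat.lt_pow_succ_log_self (by norm_num) _
      have h2 : m ≤ 2 ^ (Nat.log 2 (m + 1) + 1) := by omega
      exact_mod_cast h2
    obtain ⟨L, c, hL, hc, hv⟩ := hC (Nat.log 2 (m + 1) + 1) v fun i => (hv2 i).trans hmn
    -- the word
    have hx2 : x = (t ^ L)⁻¹ * (((SemidirectProduct.inl (Multiplicative.ofAdd
        (∑ l ∈ Finset.range (2 * L + 1), ((M ^ N) ^ l).mulVec (c l))) : G) * t ^ (2 * L + 1)) *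
        (t ^ (L + 1))⁻¹) := by
      have h1 := htpow L v
      have h2 : ((M ^ N) ^ L).mulVec v =
          ∑ l ∈ Finset.range (2 * L + 1), ((M ^ N) ^ l).mulVec (c l) := by
        rw [hv, Matrix.mulVec_mulVec]
        have hc1 : Commute (M ^ N) (M' ^ N) := by rw [Commute, SemiconjBy, hP1, hP2]
        rw [← hc1.mul_pow, hP1, one_pow, Matrix.one_mulVec]
      rw [h2, ← hv1] at h1
      rw [eq_inv_mul_iff_mul_eq, h1, mul_assoc]
      congr 1
      rw [eq_mul_inv_iff_mul_eq, ← pow_add]
      congr 1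
      omega
    have hlen : len T x ≤ (L + 1) * (4 * τ + 2 * (d * C)) := by
      rw [hx2]
      have h1 : len T (t ^ L)⁻¹ ≤ L * τ := by
        rw [len_inv hclT]; exact semi_len_pow hclT t L
      have h2 : len T (t ^ (L + 1))⁻¹ ≤ (L + 1) * τ := by
        rw [len_inv hclT]; exact semi_len_pow hclT t (L + 1)
      have h3 := hword c hc (2 * L + 1)
      refine (len_mul_le hclT _ _).trans ((Nat.add_le_add h1 ((len_mul_le hclT _ _).trans
        (Nat.add_le_add h3 h2))).trans ?_)
      have : L * τ + ((2 * L + 1) * (d * C + τ) + (L + 1) * τ) ≤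
          (L + 1) * (4 * τ + 2 * (d * C)) := by
        nlinarith [Nat.zero_le (L * τ), Nat.zero_le τ, Nat.zero_le (d * C),
          Nat.zero_le (L * (d * C))]
      exact this
    have hL1 : L + 1 ≤ (C + 1) * (Nat.log 2 (m + 1) + 2) := by
      have : C * (Nat.log 2 (m + 1) + 1 + 1) = C * (Nat.log 2 (m + 1) + 2) := by ring
      rw [this] at hL
      nlinarith [Nat.zero_le (Nat.log 2 (m + 1))]
    have hlog : ((Nat.log 2 (m + 1) : ℕ) : ℝ) ≤ 2 * Real.log (1 + m) := by
      have h1 : (2 : ℝ) ^ (Nat.log 2 (m + 1)) ≤ 1 + m := by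
        have := Nat.pow_log_le_self 2 (x := m + 1) (by omega)
        have h2 : ((2 ^ (Nat.log 2 (m + 1)) : ℕ) : ℝ) ≤ ((m + 1 : ℕ) : ℝ) := by exact_mod_cast this
        push_cast at h2
        linarith
      have h2 := Real.log_le_log (by positivity) h1
      rw [Real.log_pow] at h2
      have h3 : (1 / 2 : ℝ) ≤ Real.log 2 := by
        have := Real.log_two_gt_d9
        linarith
      have h4 : (0 : ℝ) ≤ (Nat.log 2 (m + 1) : ℕ) := Nat.cast_nonneg _
      nlinarith
    have hm0 : (0 : ℝ) ≤ Real.log (1 + m) := Real.log_nonneg (by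
      have : (0 : ℝ) ≤ m := Nat.cast_nonneg _
      linarith)
    calc (len T x : ℝ) ≤ (((L + 1) * (4 * τ + 2 * (d * C)) : ℕ) : ℝ) := by exact_mod_cast hlen
      _ ≤ (((C + 1) * (Nat.log 2 (m + 1) + 2) * (4 * τ + 2 * (d * C)) : ℕ) : ℝ) := by
          exact_mod_cast Nat.mul_le_mul_right _ hL1
      _ = (((C + 1) * (4 * τ + 2 * (d * C)) : ℕ) : ℝ) * ((Nat.log 2 (m + 1) : ℕ) + 2) := by
          push_cast; ring
      _ ≤ (((C + 1) * (4 * τ + 2 * (d * C)) : ℕ) : ℝ) * (2 * (1 + Real.log (1 + m))) := by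
          refine mul_le_mul_of_nonneg_left ?_ (Nat.cast_nonneg _)
          linarith
      _ = 2 * (((C + 1) * (4 * τ + 2 * (d * C)) : ℕ) : ℝ) * (1 + Real.log (1 + m)) := by ring

end Vale.Agent.P188.SG
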